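import Vale.Agent.P254.Uncond.Knots

/-!
A bound on the potential which holds in every dimension: a convex piecewise quadratic `D` with
`a ≤ D + b D'` along the knot line.
-/

open Set

namespace Vale.Agent.P254.Uncond

/-- The positive part. -/
noncomputable def ppart (x : ℝ) : ℝ := max 0 x

/-- A convex primitive of the indicator of `[x₀, x₁]`, twice integrated. -/
noncomputable def bump (x₀ x₁ s : ℝ) : ℝ := (ppart (s - x₀) ^ 2 - ppart (s - x₁) ^ 2) / 2

/-- The derivative of `bump`. -/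
noncomputable def dbump (x₀ x₁ s : ℝ) : ℝ := ppart (s - x₀) - ppart (s - x₁)

lemma bump_tangent {x₀ x₁ s c : ℝ} (hx : x₀ ≤ x₁) (h : s ≤ c) :
    bump x₀ x₁ s + dbump x₀ x₁ s * (c - s) ≤ bump x₀ x₁ c := by
  have p : ∀ x : ℝ, (x ≤ 0 → ppart x = 0) ∧ (0 ≤ x → ppart x = x) := fun x =>
    ⟨fun hx => max_eq_left hx, fun hx => max_eq_right hx⟩
  unfold bump dbump
  rcases le_total (s - x₀) 0 with a | a <;> rcases le_total (s - x₁) 0 with b | b <;>
    rcases le_total (c - x₀) 0 with a' | a' <;> rcases le_total (c - x₁) 0 with b' | b' <;>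
    simp only [(p _).1, (p _).2, a, b, a', b'] <;>
    nlinarith

/-- The knot line. -/
noncomputable def knotLine (s : ℝ) : ℝ :=
  11 * s + (-103 / 10 : ℝ) * ppart (s - (1 / 20 : ℝ)) + (-1 / 5 : ℝ) * ppart (s - (3 / 20 : ℝ)) + (1 / 10 : ℝ) * ppart (s - (1 / 4 : ℝ)) + (1 / 10 : ℝ) * ppart (s - (7 / 20 : ℝ)) + (7 / 30 : ℝ) * ppart (s - (9 / 20 : ℝ))

/-- The bound. -/
noncomputable def dBound (s : ℝ) : ℝ :=
  (7667 / 1000000 : ℝ) * s
    + (1 / 500 : ℝ) * bump (1 / 20 : ℝ) (1 / 10 : ℝ) s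
    + (229 / 500 : ℝ) * bump (1 / 10 : ℝ) (3 / 20 : ℝ) s
    + (403 / 500 : ℝ) * bump (3 / 20 : ℝ) (1 / 5 : ℝ) s
    + (743 / 1000 : ℝ) * bump (1 / 5 : ℝ) (1 / 4 : ℝ) s
    + (41 / 40 : ℝ) * bump (1 / 4 : ℝ) (3 / 10 : ℝ) s
    + (112 / 125 : ℝ) * bump (3 / 10 : ℝ) (7 / 20 : ℝ) s
    + (967 / 1000 : ℝ) * bump (7 / 20 : ℝ) (2 / 5 : ℝ) s
    + (823 / 1000 : ℝ) * bump (2 / 5 : ℝ) (9 / 20 : ℝ) s
    + (41 / 50 : ℝ) * bump (9 / 20 : ℝ) (39 / 80 : ℝ) s
    + (73 / 100 : ℝ) * bump (39 / 80 : ℝ) (21 / 40 : ℝ) s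

/-- The derivative of the bound. -/
noncomputable def dBound' (s : ℝ) : ℝ :=
  (7667 / 1000000 : ℝ)
    + (1 / 500 : ℝ) * dbump (1 / 20 : ℝ) (1 / 10 : ℝ) s
    + (229 / 500 : ℝ) * dbump (1 / 10 : ℝ) (3 / 20 : ℝ) s
    + (403 / 500 : ℝ) * dbump (3 / 20 : ℝ) (1 / 5 : ℝ) s
    + (743 / 1000 : ℝ) * dbump (1 / 5 : ℝ) (1 / 4 : ℝ) s
    + (41 / 40 : ℝ) * dbump (1 / 4 : ℝ) (3 / 10 : ℝ) s
    + (112 / 125 : ℝ) * dbump (3 / 10 : ℝ) (7 / 20 : ℝ) s
    + (967 / 1000 : ℝ) * dbump (7 / 20 : ℝ) (2 / 5 : ℝ) s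
    + (823 / 1000 : ℝ) * dbump (2 / 5 : ℝ) (9 / 20 : ℝ) s
    + (41 / 50 : ℝ) * dbump (9 / 20 : ℝ) (39 / 80 : ℝ) s
    + (73 / 100 : ℝ) * dbump (39 / 80 : ℝ) (21 / 40 : ℝ) s

lemma dBound_tangent {s c : ℝ} (h : s ≤ c) : dBound s + dBound' s * (c - s) ≤ dBound c := by
  have t0 := mul_le_mul_of_nonneg_left (bump_tangent (x₀ := (1 / 20 : ℝ)) (x₁ := (1 / 10 : ℝ))
    (by norm_num) h) (show (0:ℝ) ≤ (1 / 500 : ℝ) by norm_num)
  have t1 := mul_le_mul_of_nonneg_left (bump_tangent (x₀ := (1 / 10 : ℝ)) (x₁ := (3 / 20 : ℝ))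
    (by norm_num) h) (show (0:ℝ) ≤ (229 / 500 : ℝ) by norm_num)
  have t2 := mul_le_mul_of_nonneg_left (bump_tangent (x₀ := (3 / 20 : ℝ)) (x₁ := (1 / 5 : ℝ))
    (by norm_num) h) (show (0:ℝ) ≤ (403 / 500 : ℝ) by norm_num)
  have t3 := mul_le_mul_of_nonneg_left (bump_tangent (x₀ := (1 / 5 : ℝ)) (x₁ := (1 / 4 : ℝ))
    (by norm_num) h) (show (0:ℝ) ≤ (743 / 1000 : ℝ) by norm_num)
  have t4 := mul_le_mul_of_nonneg_left (bump_tangent (x₀ := (1 / 4 : ℝ)) (x₁ := (3 / 10 : ℝ))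
    (by norm_num) h) (show (0:ℝ) ≤ (41 / 40 : ℝ) by norm_num)
  have t5 := mul_le_mul_of_nonneg_left (bump_tangent (x₀ := (3 / 10 : ℝ)) (x₁ := (7 / 20 : ℝ))
    (by norm_num) h) (show (0:ℝ) ≤ (112 / 125 : ℝ) by norm_num)
  have t6 := mul_le_mul_of_nonneg_left (bump_tangent (x₀ := (7 / 20 : ℝ)) (x₁ := (2 / 5 : ℝ))
    (by norm_num) h) (show (0:ℝ) ≤ (967 / 1000 : ℝ) by norm_num)
  have t7 := mul_le_mul_of_nonneg_left (bump_tangent (x₀ := (2 / 5 : ℝ)) (x₁ := (9 / 20 : ℝ))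
    (by norm_num) h) (show (0:ℝ) ≤ (823 / 1000 : ℝ) by norm_num)
  have t8 := mul_le_mul_of_nonneg_left (bump_tangent (x₀ := (9 / 20 : ℝ)) (x₁ := (39 / 80 : ℝ))
    (by norm_num) h) (show (0:ℝ) ≤ (41 / 50 : ℝ) by norm_num)
  have t9 := mul_le_mul_of_nonneg_left (bump_tangent (x₀ := (39 / 80 : ℝ)) (x₁ := (21 / 40 : ℝ))
    (by norm_num) h) (show (0:ℝ) ≤ (73 / 100 : ℝ) by norm_num)
  unfold dBound dBound'
  linarith

lemma cell0 (K : Knots) {m : ℕ} {s c : ℝ} (hP : Potential m s (dBound s))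
    (h₀ : (0 : ℝ) ≤ s) (h₁ : s ≤ (1 / 20 : ℝ)) (hc : ((m:ℝ) + 1) * c = ((m:ℝ) + 1) * s + knotLine s)
    (hsc : s ≤ c) : Potential (m + 1) c (dBound c) := by
  have ht := mul_le_mul_of_nonneg_left (dBound_tangent hsc) (show (0:ℝ) ≤ (m:ℝ) + 1 by positivity)
  have hb : ((m:ℝ) + 1) * (c - s) = knotLine s := by linarith
  have hu := congrArg (fun z => dBound' s * z) hb
  have p0 : ppart (s - (1 / 20 : ℝ)) = 0 := max_eq_left (by linarith)
  have p1 : ppart (s - (1 / 10 : ℝ)) = 0 := max_eq_left (by linarith)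
  have p2 : ppart (s - (3 / 20 : ℝ)) = 0 := max_eq_left (by linarith)
  have p3 : ppart (s - (1 / 5 : ℝ)) = 0 := max_eq_left (by linarith)
  have p4 : ppart (s - (1 / 4 : ℝ)) = 0 := max_eq_left (by linarith)
  have p5 : ppart (s - (3 / 10 : ℝ)) = 0 := max_eq_left (by linarith)
  have p6 : ppart (s - (7 / 20 : ℝ)) = 0 := max_eq_left (by linarith)
  have p7 : ppart (s - (2 / 5 : ℝ)) = 0 := max_eq_left (by linarith)
  have p8 : ppart (s - (9 / 20 : ℝ)) = 0 := max_eq_left (by linarith)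
  have p9 : ppart (s - (39 / 80 : ℝ)) = 0 := max_eq_left (by linarith)
  have p10 : ppart (s - (21 / 40 : ℝ)) = 0 := max_eq_left (by linarith)
  have e1 : knotLine s = (11 : ℝ) * s + (0 : ℝ) := by
    simp only [knotLine, p0, p1, p2, p3, p4, p5, p6, p7, p8, p9, p10]
    ring
  have e2 : dBound s = (0 : ℝ) + (7667 / 1000000 : ℝ) * s + (0 : ℝ) * s ^ 2 := by
    simp only [dBound, bump, p0, p1, p2, p3, p4, p5, p6, p7, p8, p9, p10]
    ring
  have e3 : dBound' s = (7667 / 1000000 : ℝ) + (0 : ℝ) * s := by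
    simp only [dBound', dbump, p0, p1, p2, p3, p4, p5, p6, p7, p8, p9, p10]
    ring
  simp only [e1, e2, e3] at hu ht hc
  intro A hA hV
  refine hP.link K.k0 K.k1 (20 * s) 0 (c := c) (e := dBound c)
    ⟨by linarith, by linarith, by linarith, by linarith, by ring, by linarith, ?_⟩ hA hV
  rw [e2]
  nlinarith [mul_nonneg (sub_nonneg.2 h₀) (sub_nonneg.2 h₁), sq_nonneg (s - (0 : ℝ))]

lemma cell1 (K : Knots) {m : ℕ} {s c : ℝ} (hP : Potential m s (dBound s))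
    (h₀ : (1 / 20 : ℝ) ≤ s) (h₁ : s ≤ (1 / 10 : ℝ)) (hc : ((m:ℝ) + 1) * c = ((m:ℝ) + 1) * s + knotLine s)
    (hsc : s ≤ c) : Potential (m + 1) c (dBound c) := by
  have ht := mul_le_mul_of_nonneg_left (dBound_tangent hsc) (show (0:ℝ) ≤ (m:ℝ) + 1 by positivity)
  have hb : ((m:ℝ) + 1) * (c - s) = knotLine s := by linarith
  have hu := congrArg (fun z => dBound' s * z) hb
  have p0 : ppart (s - (1 / 20 : ℝ)) = s - (1 / 20 : ℝ) := max_eq_right (by linarith)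
  have p1 : ppart (s - (1 / 10 : ℝ)) = 0 := max_eq_left (by linarith)
  have p2 : ppart (s - (3 / 20 : ℝ)) = 0 := max_eq_left (by linarith)
  have p3 : ppart (s - (1 / 5 : ℝ)) = 0 := max_eq_left (by linarith)
  have p4 : ppart (s - (1 / 4 : ℝ)) = 0 := max_eq_left (by linarith)
  have p5 : ppart (s - (3 / 10 : ℝ)) = 0 := max_eq_left (by linarith)
  have p6 : ppart (s - (7 / 20 : ℝ)) = 0 := max_eq_left (by linarith)
  have p7 : ppart (s - (2 / 5 : ℝ)) = 0 := max_eq_left (by linarith)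
  have p8 : ppart (s - (9 / 20 : ℝ)) = 0 := max_eq_left (by linarith)
  have p9 : ppart (s - (39 / 80 : ℝ)) = 0 := max_eq_left (by linarith)
  have p10 : ppart (s - (21 / 40 : ℝ)) = 0 := max_eq_left (by linarith)
  have e1 : knotLine s = (7 / 10 : ℝ) * s + (103 / 200 : ℝ) := by
    simp only [knotLine, p0, p1, p2, p3, p4, p5, p6, p7, p8, p9, p10]
    ring
  have e2 : dBound s = (1 / 400000 : ℝ) + (7567 / 1000000 : ℝ) * s + (1 / 1000 : ℝ) * s ^ 2 := by
    simp only [dBound, bump, p0, p1, p2, p3, p4, p5, p6, p7, p8, p9, p10]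
    ring
  have e3 : dBound' s = (7567 / 1000000 : ℝ) + (1 / 500 : ℝ) * s := by
    simp only [dBound', dbump, p0, p1, p2, p3, p4, p5, p6, p7, p8, p9, p10]
    ring
  simp only [e1, e2, e3] at hu ht hc
  intro A hA hV
  refine hP.link K.k0 K.k1 (((1 / 10 : ℝ) - s) / (1 / 20 : ℝ)) ((s - (1 / 20 : ℝ)) / (1 / 20 : ℝ)) (c := c) (e := dBound c)
    ⟨by linarith, by linarith, by linarith, by linarith, by ring, by linarith, ?_⟩ hA hV
  rw [e2]
  nlinarith [mul_nonneg (sub_nonneg.2 h₀) (sub_nonneg.2 h₁), sq_nonneg (s - (1 / 20 : ℝ))]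

lemma cell2 (K : Knots) {m : ℕ} {s c : ℝ} (hP : Potential m s (dBound s))
    (h₀ : (1 / 10 : ℝ) ≤ s) (h₁ : s ≤ (3 / 20 : ℝ)) (hc : ((m:ℝ) + 1) * c = ((m:ℝ) + 1) * s + knotLine s)
    (hsc : s ≤ c) : Potential (m + 1) c (dBound c) := by
  have ht := mul_le_mul_of_nonneg_left (dBound_tangent hsc) (show (0:ℝ) ≤ (m:ℝ) + 1 by positivity)
  have hb : ((m:ℝ) + 1) * (c - s) = knotLine s := by linarith
  have hu := congrArg (fun z => dBound' s * z) hb
  have p0 : ppart (s - (1 / 20 : ℝ)) = s - (1 / 20 : ℝ) := max_eq_right (by linarith)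
  have p1 : ppart (s - (1 / 10 : ℝ)) = s - (1 / 10 : ℝ) := max_eq_right (by linarith)
  have p2 : ppart (s - (3 / 20 : ℝ)) = 0 := max_eq_left (by linarith)
  have p3 : ppart (s - (1 / 5 : ℝ)) = 0 := max_eq_left (by linarith)
  have p4 : ppart (s - (1 / 4 : ℝ)) = 0 := max_eq_left (by linarith)
  have p5 : ppart (s - (3 / 10 : ℝ)) = 0 := max_eq_left (by linarith)
  have p6 : ppart (s - (7 / 20 : ℝ)) = 0 := max_eq_left (by linarith)
  have p7 : ppart (s - (2 / 5 : ℝ)) = 0 := max_eq_left (by linarith)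
  have p8 : ppart (s - (9 / 20 : ℝ)) = 0 := max_eq_left (by linarith)
  have p9 : ppart (s - (39 / 80 : ℝ)) = 0 := max_eq_left (by linarith)
  have p10 : ppart (s - (21 / 40 : ℝ)) = 0 := max_eq_left (by linarith)
  have e1 : knotLine s = (7 / 10 : ℝ) * s + (103 / 200 : ℝ) := by
    simp only [knotLine, p0, p1, p2, p3, p4, p5, p6, p7, p8, p9, p10]
    ring
  have e2 : dBound s = (913 / 400000 : ℝ) + (-38033 / 1000000 : ℝ) * s + (229 / 1000 : ℝ) * s ^ 2 := by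
    simp only [dBound, bump, p0, p1, p2, p3, p4, p5, p6, p7, p8, p9, p10]
    ring
  have e3 : dBound' s = (-38033 / 1000000 : ℝ) + (229 / 500 : ℝ) * s := by
    simp only [dBound', dbump, p0, p1, p2, p3, p4, p5, p6, p7, p8, p9, p10]
    ring
  simp only [e1, e2, e3] at hu ht hc
  intro A hA hV
  refine hP.link K.k1 K.k2 (((3 / 20 : ℝ) - s) / (1 / 20 : ℝ)) ((s - (1 / 10 : ℝ)) / (1 / 20 : ℝ)) (c := c) (e := dBound c)
    ⟨by linarith, by linarith, by linarith, by linarith, by ring, by linarith, ?_⟩ hA hV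
  rw [e2]
  nlinarith [mul_nonneg (sub_nonneg.2 h₀) (sub_nonneg.2 h₁), sq_nonneg (s - (1147861 / 10992000 : ℝ))]

lemma cell3 (K : Knots) {m : ℕ} {s c : ℝ} (hP : Potential m s (dBound s))
    (h₀ : (3 / 20 : ℝ) ≤ s) (h₁ : s ≤ (1 / 5 : ℝ)) (hc : ((m:ℝ) + 1) * c = ((m:ℝ) + 1) * s + knotLine s)
    (hsc : s ≤ c) : Potential (m + 1) c (dBound c) := by
  have ht := mul_le_mul_of_nonneg_left (dBound_tangent hsc) (show (0:ℝ) ≤ (m:ℝ) + 1 by positivity)
  have hb : ((m:ℝ) + 1) * (c - s) = knotLine s := by linarith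
  have hu := congrArg (fun z => dBound' s * z) hb
  have p0 : ppart (s - (1 / 20 : ℝ)) = s - (1 / 20 : ℝ) := max_eq_right (by linarith)
  have p1 : ppart (s - (1 / 10 : ℝ)) = s - (1 / 10 : ℝ) := max_eq_right (by linarith)
  have p2 : ppart (s - (3 / 20 : ℝ)) = s - (3 / 20 : ℝ) := max_eq_right (by linarith)
  have p3 : ppart (s - (1 / 5 : ℝ)) = 0 := max_eq_left (by linarith)
  have p4 : ppart (s - (1 / 4 : ℝ)) = 0 := max_eq_left (by linarith)
  have p5 : ppart (s - (3 / 10 : ℝ)) = 0 := max_eq_left (by linarith)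
  have p6 : ppart (s - (7 / 20 : ℝ)) = 0 := max_eq_left (by linarith)
  have p7 : ppart (s - (2 / 5 : ℝ)) = 0 := max_eq_left (by linarith)
  have p8 : ppart (s - (9 / 20 : ℝ)) = 0 := max_eq_left (by linarith)
  have p9 : ppart (s - (39 / 80 : ℝ)) = 0 := max_eq_left (by linarith)
  have p10 : ppart (s - (21 / 40 : ℝ)) = 0 := max_eq_left (by linarith)
  have e1 : knotLine s = (1 / 2 : ℝ) * s + (109 / 200 : ℝ) := by
    simp only [knotLine, p0, p1, p2, p3, p4, p5, p6, p7, p8, p9, p10]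
    ring
  have e2 : dBound s = (2479 / 400000 : ℝ) + (-90233 / 1000000 : ℝ) * s + (403 / 1000 : ℝ) * s ^ 2 := by
    simp only [dBound, bump, p0, p1, p2, p3, p4, p5, p6, p7, p8, p9, p10]
    ring
  have e3 : dBound' s = (-90233 / 1000000 : ℝ) + (403 / 500 : ℝ) * s := by
    simp only [dBound', dbump, p0, p1, p2, p3, p4, p5, p6, p7, p8, p9, p10]
    ring
  simp only [e1, e2, e3] at hu ht hc
  intro A hA hV
  refine hP.link K.k2 K.k3 (((1 / 4 : ℝ) - s) / (1 / 10 : ℝ)) ((s - (3 / 20 : ℝ)) / (1 / 10 : ℝ)) (c := c) (e := dBound c)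
    ⟨by linarith, by linarith, by linarith, by linarith, by ring, by linarith, ?_⟩ hA hV
  rw [e2]
  nlinarith [mul_nonneg (sub_nonneg.2 h₀) (sub_nonneg.2 h₁), sq_nonneg (s - (19489 / 104000 : ℝ))]

lemma cell4 (K : Knots) {m : ℕ} {s c : ℝ} (hP : Potential m s (dBound s))
    (h₀ : (1 / 5 : ℝ) ≤ s) (h₁ : s ≤ (1 / 4 : ℝ)) (hc : ((m:ℝ) + 1) * c = ((m:ℝ) + 1) * s + knotLine s)
    (hsc : s ≤ c) : Potential (m + 1) c (dBound c) := by
  have ht := mul_le_mul_of_nonneg_left (dBound_tangent hsc) (show (0:ℝ) ≤ (m:ℝ) + 1 by positivity)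
  have hb : ((m:ℝ) + 1) * (c - s) = knotLine s := by linarith
  have hu := congrArg (fun z => dBound' s * z) hb
  have p0 : ppart (s - (1 / 20 : ℝ)) = s - (1 / 20 : ℝ) := max_eq_right (by linarith)
  have p1 : ppart (s - (1 / 10 : ℝ)) = s - (1 / 10 : ℝ) := max_eq_right (by linarith)
  have p2 : ppart (s - (3 / 20 : ℝ)) = s - (3 / 20 : ℝ) := max_eq_right (by linarith)
  have p3 : ppart (s - (1 / 5 : ℝ)) = s - (1 / 5 : ℝ) := max_eq_right (by linarith)
  have p4 : ppart (s - (1 / 4 : ℝ)) = 0 := max_eq_left (by linarith)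
  have p5 : ppart (s - (3 / 10 : ℝ)) = 0 := max_eq_left (by linarith)
  have p6 : ppart (s - (7 / 20 : ℝ)) = 0 := max_eq_left (by linarith)
  have p7 : ppart (s - (2 / 5 : ℝ)) = 0 := max_eq_left (by linarith)
  have p8 : ppart (s - (9 / 20 : ℝ)) = 0 := max_eq_left (by linarith)
  have p9 : ppart (s - (39 / 80 : ℝ)) = 0 := max_eq_left (by linarith)
  have p10 : ppart (s - (21 / 40 : ℝ)) = 0 := max_eq_left (by linarith)
  have e1 : knotLine s = (1 / 2 : ℝ) * s + (109 / 200 : ℝ) := by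
    simp only [knotLine, p0, p1, p2, p3, p4, p5, p6, p7, p8, p9, p10]
    ring
  have e2 : dBound s = (79 / 16000 : ℝ) + (-77633 / 1000000 : ℝ) * s + (743 / 2000 : ℝ) * s ^ 2 := by
    simp only [dBound, bump, p0, p1, p2, p3, p4, p5, p6, p7, p8, p9, p10]
    ring
  have e3 : dBound' s = (-77633 / 1000000 : ℝ) + (743 / 1000 : ℝ) * s := by
    simp only [dBound', dbump, p0, p1, p2, p3, p4, p5, p6, p7, p8, p9, p10]
    ring
  simp only [e1, e2, e3] at hu ht hc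
  intro A hA hV
  refine hP.link K.k2 K.k3 (((1 / 4 : ℝ) - s) / (1 / 10 : ℝ)) ((s - (3 / 20 : ℝ)) / (1 / 10 : ℝ)) (c := c) (e := dBound c)
    ⟨by linarith, by linarith, by linarith, by linarith, by ring, by linarith, ?_⟩ hA hV
  rw [e2]
  nlinarith [mul_nonneg (sub_nonneg.2 h₀) (sub_nonneg.2 h₁), sq_nonneg (s - (635029 / 2972000 : ℝ))]

lemma cell5 (K : Knots) {m : ℕ} {s c : ℝ} (hP : Potential m s (dBound s))
    (h₀ : (1 / 4 : ℝ) ≤ s) (h₁ : s ≤ (3 / 10 : ℝ)) (hc : ((m:ℝ) + 1) * c = ((m:ℝ) + 1) * s + knotLine s)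
    (hsc : s ≤ c) : Potential (m + 1) c (dBound c) := by
  have ht := mul_le_mul_of_nonneg_left (dBound_tangent hsc) (show (0:ℝ) ≤ (m:ℝ) + 1 by positivity)
  have hb : ((m:ℝ) + 1) * (c - s) = knotLine s := by linarith
  have hu := congrArg (fun z => dBound' s * z) hb
  have p0 : ppart (s - (1 / 20 : ℝ)) = s - (1 / 20 : ℝ) := max_eq_right (by linarith)
  have p1 : ppart (s - (1 / 10 : ℝ)) = s - (1 / 10 : ℝ) := max_eq_right (by linarith)
  have p2 : ppart (s - (3 / 20 : ℝ)) = s - (3 / 20 : ℝ) := max_eq_right (by linarith)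
  have p3 : ppart (s - (1 / 5 : ℝ)) = s - (1 / 5 : ℝ) := max_eq_right (by linarith)
  have p4 : ppart (s - (1 / 4 : ℝ)) = s - (1 / 4 : ℝ) := max_eq_right (by linarith)
  have p5 : ppart (s - (3 / 10 : ℝ)) = 0 := max_eq_left (by linarith)
  have p6 : ppart (s - (7 / 20 : ℝ)) = 0 := max_eq_left (by linarith)
  have p7 : ppart (s - (2 / 5 : ℝ)) = 0 := max_eq_left (by linarith)
  have p8 : ppart (s - (9 / 20 : ℝ)) = 0 := max_eq_left (by linarith)
  have p9 : ppart (s - (39 / 80 : ℝ)) = 0 := max_eq_left (by linarith)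
  have p10 : ppart (s - (21 / 40 : ℝ)) = 0 := max_eq_left (by linarith)
  have e1 : knotLine s = (3 / 5 : ℝ) * s + (13 / 25 : ℝ) := by
    simp only [knotLine, p0, p1, p2, p3, p4, p5, p6, p7, p8, p9, p10]
    ring
  have e2 : dBound s = (11 / 800 : ℝ) + (-148133 / 1000000 : ℝ) * s + (41 / 80 : ℝ) * s ^ 2 := by
    simp only [dBound, bump, p0, p1, p2, p3, p4, p5, p6, p7, p8, p9, p10]
    ring
  have e3 : dBound' s = (-148133 / 1000000 : ℝ) + (41 / 40 : ℝ) * s := by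
    simp only [dBound', dbump, p0, p1, p2, p3, p4, p5, p6, p7, p8, p9, p10]
    ring
  simp only [e1, e2, e3] at hu ht hc
  intro A hA hV
  refine hP.link K.k3 K.k4 (((7 / 20 : ℝ) - s) / (1 / 10 : ℝ)) ((s - (1 / 4 : ℝ)) / (1 / 10 : ℝ)) (c := c) (e := dBound c)
    ⟨by linarith, by linarith, by linarith, by linarith, by ring, by linarith, ?_⟩ hA hV
  rw [e2]
  nlinarith [mul_nonneg (sub_nonneg.2 h₀) (sub_nonneg.2 h₁), sq_nonneg (s - (393758 / 1409375 : ℝ))]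

lemma cell6 (K : Knots) {m : ℕ} {s c : ℝ} (hP : Potential m s (dBound s))
    (h₀ : (3 / 10 : ℝ) ≤ s) (h₁ : s ≤ (7 / 20 : ℝ)) (hc : ((m:ℝ) + 1) * c = ((m:ℝ) + 1) * s + knotLine s)
    (hsc : s ≤ c) : Potential (m + 1) c (dBound c) := by
  have ht := mul_le_mul_of_nonneg_left (dBound_tangent hsc) (show (0:ℝ) ≤ (m:ℝ) + 1 by positivity)
  have hb : ((m:ℝ) + 1) * (c - s) = knotLine s := by linarith
  have hu := congrArg (fun z => dBound' s * z) hb
  have p0 : ppart (s - (1 / 20 : ℝ)) = s - (1 / 20 : ℝ) := max_eq_right (by linarith)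
  have p1 : ppart (s - (1 / 10 : ℝ)) = s - (1 / 10 : ℝ) := max_eq_right (by linarith)
  have p2 : ppart (s - (3 / 20 : ℝ)) = s - (3 / 20 : ℝ) := max_eq_right (by linarith)
  have p3 : ppart (s - (1 / 5 : ℝ)) = s - (1 / 5 : ℝ) := max_eq_right (by linarith)
  have p4 : ppart (s - (1 / 4 : ℝ)) = s - (1 / 4 : ℝ) := max_eq_right (by linarith)
  have p5 : ppart (s - (3 / 10 : ℝ)) = s - (3 / 10 : ℝ) := max_eq_right (by linarith)
  have p6 : ppart (s - (7 / 20 : ℝ)) = 0 := max_eq_left (by linarith)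
  have p7 : ppart (s - (2 / 5 : ℝ)) = 0 := max_eq_left (by linarith)
  have p8 : ppart (s - (9 / 20 : ℝ)) = 0 := max_eq_left (by linarith)
  have p9 : ppart (s - (39 / 80 : ℝ)) = 0 := max_eq_left (by linarith)
  have p10 : ppart (s - (21 / 40 : ℝ)) = 0 := max_eq_left (by linarith)
  have e1 : knotLine s = (3 / 5 : ℝ) * s + (13 / 25 : ℝ) := by
    simp only [knotLine, p0, p1, p2, p3, p4, p5, p6, p7, p8, p9, p10]
    ring
  have e2 : dBound s = (1589 / 200000 : ℝ) + (-109433 / 1000000 : ℝ) * s + (56 / 125 : ℝ) * s ^ 2 := by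
    simp only [dBound, bump, p0, p1, p2, p3, p4, p5, p6, p7, p8, p9, p10]
    ring
  have e3 : dBound' s = (-109433 / 1000000 : ℝ) + (112 / 125 : ℝ) * s := by
    simp only [dBound', dbump, p0, p1, p2, p3, p4, p5, p6, p7, p8, p9, p10]
    ring
  simp only [e1, e2, e3] at hu ht hc
  intro A hA hV
  refine hP.link K.k3 K.k4 (((7 / 20 : ℝ) - s) / (1 / 10 : ℝ)) ((s - (1 / 4 : ℝ)) / (1 / 10 : ℝ)) (c := c) (e := dBound c)
    ⟨by linarith, by linarith, by linarith, by linarith, by ring, by linarith, ?_⟩ hA hV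
  rw [e2]
  nlinarith [mul_nonneg (sub_nonneg.2 h₀) (sub_nonneg.2 h₁), sq_nonneg (s - (396983 / 1232000 : ℝ))]

lemma cell7 (K : Knots) {m : ℕ} {s c : ℝ} (hP : Potential m s (dBound s))
    (h₀ : (7 / 20 : ℝ) ≤ s) (h₁ : s ≤ (2 / 5 : ℝ)) (hc : ((m:ℝ) + 1) * c = ((m:ℝ) + 1) * s + knotLine s)
    (hsc : s ≤ c) : Potential (m + 1) c (dBound c) := by
  have ht := mul_le_mul_of_nonneg_left (dBound_tangent hsc) (show (0:ℝ) ≤ (m:ℝ) + 1 by positivity)
  have hb : ((m:ℝ) + 1) * (c - s) = knotLine s := by linarith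
  have hu := congrArg (fun z => dBound' s * z) hb
  have p0 : ppart (s - (1 / 20 : ℝ)) = s - (1 / 20 : ℝ) := max_eq_right (by linarith)
  have p1 : ppart (s - (1 / 10 : ℝ)) = s - (1 / 10 : ℝ) := max_eq_right (by linarith)
  have p2 : ppart (s - (3 / 20 : ℝ)) = s - (3 / 20 : ℝ) := max_eq_right (by linarith)
  have p3 : ppart (s - (1 / 5 : ℝ)) = s - (1 / 5 : ℝ) := max_eq_right (by linarith)
  have p4 : ppart (s - (1 / 4 : ℝ)) = s - (1 / 4 : ℝ) := max_eq_right (by linarith)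
  have p5 : ppart (s - (3 / 10 : ℝ)) = s - (3 / 10 : ℝ) := max_eq_right (by linarith)
  have p6 : ppart (s - (7 / 20 : ℝ)) = s - (7 / 20 : ℝ) := max_eq_right (by linarith)
  have p7 : ppart (s - (2 / 5 : ℝ)) = 0 := max_eq_left (by linarith)
  have p8 : ppart (s - (9 / 20 : ℝ)) = 0 := max_eq_left (by linarith)
  have p9 : ppart (s - (39 / 80 : ℝ)) = 0 := max_eq_left (by linarith)
  have p10 : ppart (s - (21 / 40 : ℝ)) = 0 := max_eq_left (by linarith)
  have e1 : knotLine s = (7 / 10 : ℝ) * s + (97 / 200 : ℝ) := by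
    simp only [knotLine, p0, p1, p2, p3, p4, p5, p6, p7, p8, p9, p10]
    ring
  have e2 : dBound s = (1967 / 160000 : ℝ) + (-134283 / 1000000 : ℝ) * s + (967 / 2000 : ℝ) * s ^ 2 := by
    simp only [dBound, bump, p0, p1, p2, p3, p4, p5, p6, p7, p8, p9, p10]
    ring
  have e3 : dBound' s = (-134283 / 1000000 : ℝ) + (967 / 1000 : ℝ) * s := by
    simp only [dBound', dbump, p0, p1, p2, p3, p4, p5, p6, p7, p8, p9, p10]
    ring
  simp only [e1, e2, e3] at hu ht hc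
  intro A hA hV
  refine hP.link K.k4 K.k5 (((9 / 20 : ℝ) - s) / (1 / 10 : ℝ)) ((s - (7 / 20 : ℝ)) / (1 / 10 : ℝ)) (c := c) (e := dBound c)
    ⟨by linarith, by linarith, by linarith, by linarith, by ring, by linarith, ?_⟩ hA hV
  rw [e2]
  nlinarith [mul_nonneg (sub_nonneg.2 h₀) (sub_nonneg.2 h₁), sq_nonneg (s - (2904287 / 7736000 : ℝ))]

lemma cell8 (K : Knots) {m : ℕ} {s c : ℝ} (hP : Potential m s (dBound s))
    (h₀ : (2 / 5 : ℝ) ≤ s) (h₁ : s ≤ (9 / 20 : ℝ)) (hc : ((m:ℝ) + 1) * c = ((m:ℝ) + 1) * s + knotLine s)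
    (hsc : s ≤ c) : Potential (m + 1) c (dBound c) := by
  have ht := mul_le_mul_of_nonneg_left (dBound_tangent hsc) (show (0:ℝ) ≤ (m:ℝ) + 1 by positivity)
  have hb : ((m:ℝ) + 1) * (c - s) = knotLine s := by linarith
  have hu := congrArg (fun z => dBound' s * z) hb
  have p0 : ppart (s - (1 / 20 : ℝ)) = s - (1 / 20 : ℝ) := max_eq_right (by linarith)
  have p1 : ppart (s - (1 / 10 : ℝ)) = s - (1 / 10 : ℝ) := max_eq_right (by linarith)
  have p2 : ppart (s - (3 / 20 : ℝ)) = s - (3 / 20 : ℝ) := max_eq_right (by linarith)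
  have p3 : ppart (s - (1 / 5 : ℝ)) = s - (1 / 5 : ℝ) := max_eq_right (by linarith)
  have p4 : ppart (s - (1 / 4 : ℝ)) = s - (1 / 4 : ℝ) := max_eq_right (by linarith)
  have p5 : ppart (s - (3 / 10 : ℝ)) = s - (3 / 10 : ℝ) := max_eq_right (by linarith)
  have p6 : ppart (s - (7 / 20 : ℝ)) = s - (7 / 20 : ℝ) := max_eq_right (by linarith)
  have p7 : ppart (s - (2 / 5 : ℝ)) = s - (2 / 5 : ℝ) := max_eq_right (by linarith)
  have p8 : ppart (s - (9 / 20 : ℝ)) = 0 := max_eq_left (by linarith)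
  have p9 : ppart (s - (39 / 80 : ℝ)) = 0 := max_eq_left (by linarith)
  have p10 : ppart (s - (21 / 40 : ℝ)) = 0 := max_eq_left (by linarith)
  have e1 : knotLine s = (7 / 10 : ℝ) * s + (97 / 200 : ℝ) := by
    simp only [knotLine, p0, p1, p2, p3, p4, p5, p6, p7, p8, p9, p10]
    ring
  have e2 : dBound s = (619 / 800000 : ℝ) + (-76683 / 1000000 : ℝ) * s + (823 / 2000 : ℝ) * s ^ 2 := by
    simp only [dBound, bump, p0, p1, p2, p3, p4, p5, p6, p7, p8, p9, p10]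
    ring
  have e3 : dBound' s = (-76683 / 1000000 : ℝ) + (823 / 1000 : ℝ) * s := by
    simp only [dBound', dbump, p0, p1, p2, p3, p4, p5, p6, p7, p8, p9, p10]
    ring
  simp only [e1, e2, e3] at hu ht hc
  intro A hA hV
  refine hP.link K.k4 K.k5 (((9 / 20 : ℝ) - s) / (1 / 10 : ℝ)) ((s - (7 / 20 : ℝ)) / (1 / 10 : ℝ)) (c := c) (e := dBound c)
    ⟨by linarith, by linarith, by linarith, by linarith, by ring, by linarith, ?_⟩ hA hV
  rw [e2]
  nlinarith [mul_nonneg (sub_nonneg.2 h₀) (sub_nonneg.2 h₁), sq_nonneg (s - (2810687 / 6584000 : ℝ))]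

lemma cell9 (K : Knots) {m : ℕ} {s c : ℝ} (hP : Potential m s (dBound s))
    (h₀ : (9 / 20 : ℝ) ≤ s) (h₁ : s ≤ (39 / 80 : ℝ)) (hc : ((m:ℝ) + 1) * c = ((m:ℝ) + 1) * s + knotLine s)
    (hsc : s ≤ c) : Potential (m + 1) c (dBound c) := by
  have ht := mul_le_mul_of_nonneg_left (dBound_tangent hsc) (show (0:ℝ) ≤ (m:ℝ) + 1 by positivity)
  have hb : ((m:ℝ) + 1) * (c - s) = knotLine s := by linarith
  have hu := congrArg (fun z => dBound' s * z) hb
  have p0 : ppart (s - (1 / 20 : ℝ)) = s - (1 / 20 : ℝ) := max_eq_right (by linarith)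
  have p1 : ppart (s - (1 / 10 : ℝ)) = s - (1 / 10 : ℝ) := max_eq_right (by linarith)
  have p2 : ppart (s - (3 / 20 : ℝ)) = s - (3 / 20 : ℝ) := max_eq_right (by linarith)
  have p3 : ppart (s - (1 / 5 : ℝ)) = s - (1 / 5 : ℝ) := max_eq_right (by linarith)
  have p4 : ppart (s - (1 / 4 : ℝ)) = s - (1 / 4 : ℝ) := max_eq_right (by linarith)
  have p5 : ppart (s - (3 / 10 : ℝ)) = s - (3 / 10 : ℝ) := max_eq_right (by linarith)
  have p6 : ppart (s - (7 / 20 : ℝ)) = s - (7 / 20 : ℝ) := max_eq_right (by linarith)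
  have p7 : ppart (s - (2 / 5 : ℝ)) = s - (2 / 5 : ℝ) := max_eq_right (by linarith)
  have p8 : ppart (s - (9 / 20 : ℝ)) = s - (9 / 20 : ℝ) := max_eq_right (by linarith)
  have p9 : ppart (s - (39 / 80 : ℝ)) = 0 := max_eq_left (by linarith)
  have p10 : ppart (s - (21 / 40 : ℝ)) = 0 := max_eq_left (by linarith)
  have e1 : knotLine s = (14 / 15 : ℝ) * s + (19 / 50 : ℝ) := by
    simp only [knotLine, p0, p1, p2, p3, p4, p5, p6, p7, p8, p9, p10]
    ring
  have e2 : dBound s = (47 / 100000 : ℝ) + (-75333 / 1000000 : ℝ) * s + (41 / 100 : ℝ) * s ^ 2 := by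
    simp only [dBound, bump, p0, p1, p2, p3, p4, p5, p6, p7, p8, p9, p10]
    ring
  have e3 : dBound' s = (-75333 / 1000000 : ℝ) + (41 / 50 : ℝ) * s := by
    simp only [dBound', dbump, p0, p1, p2, p3, p4, p5, p6, p7, p8, p9, p10]
    ring
  simp only [e1, e2, e3] at hu ht hc
  intro A hA hV
  refine hP.link K.k5 K.k6 (((21 / 40 : ℝ) - s) / (3 / 40 : ℝ)) ((s - (9 / 20 : ℝ)) / (3 / 40 : ℝ)) (c := c) (e := dBound c)
    ⟨by linarith, by linarith, by linarith, by linarith, by ring, by linarith, ?_⟩ hA hV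
  rw [e2]
  nlinarith [mul_nonneg (sub_nonneg.2 h₀) (sub_nonneg.2 h₁), sq_nonneg (s - (16610657 / 35260000 : ℝ))]

lemma cell10 (K : Knots) {m : ℕ} {s c : ℝ} (hP : Potential m s (dBound s))
    (h₀ : (39 / 80 : ℝ) ≤ s) (h₁ : s ≤ (21 / 40 : ℝ)) (hc : ((m:ℝ) + 1) * c = ((m:ℝ) + 1) * s + knotLine s)
    (hsc : s ≤ c) : Potential (m + 1) c (dBound c) := by
  have ht := mul_le_mul_of_nonneg_left (dBound_tangent hsc) (show (0:ℝ) ≤ (m:ℝ) + 1 by positivity)
  have hb : ((m:ℝ) + 1) * (c - s) = knotLine s := by linarith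
  have hu := congrArg (fun z => dBound' s * z) hb
  have p0 : ppart (s - (1 / 20 : ℝ)) = s - (1 / 20 : ℝ) := max_eq_right (by linarith)
  have p1 : ppart (s - (1 / 10 : ℝ)) = s - (1 / 10 : ℝ) := max_eq_right (by linarith)
  have p2 : ppart (s - (3 / 20 : ℝ)) = s - (3 / 20 : ℝ) := max_eq_right (by linarith)
  have p3 : ppart (s - (1 / 5 : ℝ)) = s - (1 / 5 : ℝ) := max_eq_right (by linarith)
  have p4 : ppart (s - (1 / 4 : ℝ)) = s - (1 / 4 : ℝ) := max_eq_right (by linarith)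
  have p5 : ppart (s - (3 / 10 : ℝ)) = s - (3 / 10 : ℝ) := max_eq_right (by linarith)
  have p6 : ppart (s - (7 / 20 : ℝ)) = s - (7 / 20 : ℝ) := max_eq_right (by linarith)
  have p7 : ppart (s - (2 / 5 : ℝ)) = s - (2 / 5 : ℝ) := max_eq_right (by linarith)
  have p8 : ppart (s - (9 / 20 : ℝ)) = s - (9 / 20 : ℝ) := max_eq_right (by linarith)
  have p9 : ppart (s - (39 / 80 : ℝ)) = s - (39 / 80 : ℝ) := max_eq_right (by linarith)
  have p10 : ppart (s - (21 / 40 : ℝ)) = 0 := max_eq_left (by linarith)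
  have e1 : knotLine s = (14 / 15 : ℝ) * s + (19 / 50 : ℝ) := by
    simp only [knotLine, p0, p1, p2, p3, p4, p5, p6, p7, p8, p9, p10]
    ring
  have e2 : dBound s = (-65437 / 6400000 : ℝ) + (-15729 / 500000 : ℝ) * s + (73 / 200 : ℝ) * s ^ 2 := by
    simp only [dBound, bump, p0, p1, p2, p3, p4, p5, p6, p7, p8, p9, p10]
    ring
  have e3 : dBound' s = (-15729 / 500000 : ℝ) + (73 / 100 : ℝ) * s := by
    simp only [dBound', dbump, p0, p1, p2, p3, p4, p5, p6, p7, p8, p9, p10]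
    ring
  simp only [e1, e2, e3] at hu ht hc
  intro A hA hV
  refine hP.link K.k5 K.k6 (((21 / 40 : ℝ) - s) / (3 / 40 : ℝ)) ((s - (9 / 20 : ℝ)) / (3 / 40 : ℝ)) (c := c) (e := dBound c)
    ⟨by linarith, by linarith, by linarith, by linarith, by ring, by linarith, ?_⟩ hA hV
  rw [e2]
  nlinarith [mul_nonneg (sub_nonneg.2 h₀) (sub_nonneg.2 h₁), sq_nonneg (s - (7925641 / 15695000 : ℝ))]

/-- The bound in every dimension. -/
theorem continuum_aux (K : Knots) :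
    ∀ (n : ℕ) (c : ℝ), 0 ≤ c → c ≤ 21 / 40 → Potential n c (dBound c) := by
  intro n
  induction n with
  | zero =>
    intro c _ _ A hA hV
    have := @potential_zero c A hA hV
    simpa using this
  | succ m ih =>
    intro c hc0 hc1
    have hm : (0:ℝ) < (m:ℝ) + 1 := by positivity
    have hcont : Continuous fun s => ((m:ℝ) + 1) * s + knotLine s := by
      unfold knotLine ppart
      fun_prop
    have hnn : ∀ s, 0 ≤ s → s ≤ 21 / 40 → 0 ≤ knotLine s := by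
      intro s h0 h1
      unfold knotLine ppart
      rcases le_total s (1 / 20) with h | h
      · rw [max_eq_left (by linarith : s - 1 / 20 ≤ 0)]
        norm_num
        nlinarith [le_max_left (0:ℝ) (s - 1 / 4), le_max_left (0:ℝ) (s - 7 / 20),
          le_max_left (0:ℝ) (s - 9 / 20), max_eq_left (by linarith : s - 3 / 20 ≤ 0)]
      · rw [max_eq_right (by linarith : 0 ≤ s - 1 / 20)]
        have : max 0 (s - 3 / 20) ≤ s := max_le h0 (by linarith)
        nlinarith [le_max_left (0:ℝ) (s - 1 / 4), le_max_left (0:ℝ) (s - 7 / 20),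
          le_max_left (0:ℝ) (s - 9 / 20)]
    have hz : knotLine 0 = 0 := by norm_num [knotLine, ppart]
    obtain ⟨s, hs, hsc⟩ : ∃ s ∈ Icc (0:ℝ) c, ((m:ℝ) + 1) * s + knotLine s = ((m:ℝ) + 1) * c := by
      refine intermediate_value_Icc hc0 hcont.continuousOn ⟨?_, ?_⟩
      · simpa [hz] using mul_nonneg hm.le hc0
      · linarith [hnn c hc0 hc1]
    have hP : Potential m s (dBound s) := by
      intro A hA hV
      exact ih s hs.1 (hs.2.trans hc1) hA hV
    rcases le_or_gt s (1 / 20 : ℝ) with h0 | h0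
    · intro A hA hV
      exact cell0 K hP (by linarith [hs.1]) h0 hsc.symm hs.2 hA hV
    rcases le_or_gt s (1 / 10 : ℝ) with h1 | h1
    · intro A hA hV
      exact cell1 K hP (by linarith [hs.1]) h1 hsc.symm hs.2 hA hV
    rcases le_or_gt s (3 / 20 : ℝ) with h2 | h2
    · intro A hA hV
      exact cell2 K hP (by linarith [hs.1]) h2 hsc.symm hs.2 hA hV
    rcases le_or_gt s (1 / 5 : ℝ) with h3 | h3
    · intro A hA hV
      exact cell3 K hP (by linarith [hs.1]) h3 hsc.symm hs.2 hA hV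
    rcases le_or_gt s (1 / 4 : ℝ) with h4 | h4
    · intro A hA hV
      exact cell4 K hP (by linarith [hs.1]) h4 hsc.symm hs.2 hA hV
    rcases le_or_gt s (3 / 10 : ℝ) with h5 | h5
    · intro A hA hV
      exact cell5 K hP (by linarith [hs.1]) h5 hsc.symm hs.2 hA hV
    rcases le_or_gt s (7 / 20 : ℝ) with h6 | h6
    · intro A hA hV
      exact cell6 K hP (by linarith [hs.1]) h6 hsc.symm hs.2 hA hV
    rcases le_or_gt s (2 / 5 : ℝ) with h7 | h7
    · intro A hA hV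
      exact cell7 K hP (by linarith [hs.1]) h7 hsc.symm hs.2 hA hV
    rcases le_or_gt s (9 / 20 : ℝ) with h8 | h8
    · intro A hA hV
      exact cell8 K hP (by linarith [hs.1]) h8 hsc.symm hs.2 hA hV
    rcases le_or_gt s (39 / 80 : ℝ) with h9 | h9
    · intro A hA hV
      exact cell9 K hP (by linarith [hs.1]) h9 hsc.symm hs.2 hA hV
    intro A hA hV
    exact cell10 K hP h9.le (by linarith [hs.2]) hsc.symm hs.2 hA hV

/-- The potential at weight `21/40` in every dimension. -/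
theorem continuum (K : Knots) (n : ℕ) : Potential n (21 / 40) (738632 / 10000000) := by
  intro A hA hV
  have h := continuum_aux K n (21 / 40) (by norm_num) le_rfl hA hV
  have e : dBound (21 / 40) ≤ 738632 / 10000000 := by norm_num [dBound, bump, ppart]
  have := mul_le_mul_of_nonneg_left e (Nat.cast_nonneg n)
  linarith

end Vale.Agent.P254.Uncond
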