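import Vale.Agent.P254.Uncond.Thresholds
import Vale.Agent.P254.Uncond.Continuum

/-!
All dimensions: from the knots, the requirement at the weight `21/40` and the uniform potential.
-/

open MeasureTheory Set
open scoped Matrix

namespace Vale.Agent.P254.Uncond

open Vale.Agent.P254.Sym

/-- Affine images of unconditional bodies in every dimension `n ≥ 2` lie below the simplex. -/
theorem all_dims_of_potential (K : Knots) (hR : Requirement (21 / 40) (774 / 10000))
    (hCont : ∀ n, Potential n (21 / 40) (738632 / 10000000))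
    (n : ℕ) (hn : 2 ≤ n) (B : Set (Fin n → ℝ))
    (hB : Convex ℝ B) (hco : IsCompact B) (hi : (interior B).Nonempty)
    (hu : ∀ x ∈ B, ∀ y : Fin n → ℝ, (∀ i, |y i| = |x i|) → y ∈ B)
    (M : Matrix (Fin n) (Fin n) ℝ) (hM : M.det ≠ 0) (b : Fin n → ℝ) :
    isoConst ((fun x => M *ᵥ x + b) '' B) < isoConst (cornerSimplex n) := by
  refine affine_lt_all (c := 21 / 40) (fun m hm => ?_) n hn B hB hco hi hu M hM b
  have hC : CoordBound m (21 / 40) (774 / 10000 + delta m (21 / 40)) :=
    coordBound_lift sectionFacts hR (by norm_num) (by omega)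
  rcases le_or_gt m 31 with h | h
  · obtain ⟨d, hP, hτ⟩ := h4_small K m hm h
    exact ⟨d, _, hC, hP, hτ⟩
  · exact ⟨_, _, hC, hCont m, tail_tau h⟩

/-- Affine images of unconditional bodies in every dimension `n ≥ 2` lie below the simplex, given
the knots and the requirement. -/
theorem all_dims_of (K : Knots) (hR : Requirement (21 / 40) (774 / 10000))
    (n : ℕ) (hn : 2 ≤ n) (B : Set (Fin n → ℝ))
    (hB : Convex ℝ B) (hco : IsCompact B) (hi : (interior B).Nonempty)
    (hu : ∀ x ∈ B, ∀ y : Fin n → ℝ, (∀ i, |y i| = |x i|) → y ∈ B)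
    (M : Matrix (Fin n) (Fin n) ℝ) (hM : M.det ≠ 0) (b : Fin n → ℝ) :
    isoConst ((fun x => M *ᵥ x + b) '' B) < isoConst (cornerSimplex n) :=
  all_dims_of_potential K hR (continuum K) n hn B hB hco hi hu M hM b

end Vale.Agent.P254.Uncond
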