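import Vale.Agent.P254.Uncond.EndgameUpTo
import Vale.Agent.P254.Full.Main
import Vale.Agent.P254.Three.Main

/-!
Every dimension at least two: the planar case, dimension three, and the potential argument from
dimension four on.
-/

open MeasureTheory Set
open scoped Matrix

namespace Vale.Agent.P254.Uncond

open Vale.Agent.P254.Sym

/-- Affine images from a coordinate bound and a potential. -/
theorem affine_lt_coord {c d e : ℝ} {n : ℕ} (hC : CoordBound n c e) (hn : 4 ≤ n)
    (hτ : simplexTau n ≤ e - d) (hP : Potential n c d) {K : Set (Fin n → ℝ)}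
    (hK : Convex ℝ K) (hco : IsCompact K) (hi : (interior K).Nonempty)
    (hu : ∀ x ∈ K, ∀ y : Fin n → ℝ, (∀ i, |y i| = |x i|) → y ∈ K)
    {M : Matrix (Fin n) (Fin n) ℝ} (hM : M.det ≠ 0) (b : Fin n → ℝ) :
    isoConst ((fun x => M *ᵥ x + b) '' K) < isoConst (cornerSimplex n) := by
  have hs := signInvariant_of_abs hu
  rw [Three.isoConst_affine M hM b K hco (volume_ne_zero hK hco hs hi)]
  refine isoConst_lt_coord hC (by omega) (lt_of_le_of_lt ?_ (simplex_tau hn)) hP hK hco hs hi
  have := mul_le_mul_of_nonneg_left hτ (show (0:ℝ) ≤ 2 * n by positivity)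
  linarith

/-- The planar case. -/
theorem affine_lt_two {K : Set (Fin 2 → ℝ)} (hK : Convex ℝ K) (hco : IsCompact K)
    (hi : (interior K).Nonempty)
    (hu : ∀ x ∈ K, ∀ y : Fin 2 → ℝ, (∀ i, |y i| = |x i|) → y ∈ K)
    {M : Matrix (Fin 2) (Fin 2) ℝ} (hM : M.det ≠ 0) (b : Fin 2 → ℝ) :
    isoConst ((fun x => M *ᵥ x + b) '' K) < isoConst (cornerSimplex 2) := by
  have hs := signInvariant_of_abs hu
  have hf : Full.PermFix K 0 := by
    intro σ hσ x hx
    have h1 : σ 1 = 1 := by
      rcases Fin.exists_fin_two.1 ⟨σ 1, rfl⟩ with h | h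
      · exact absurd (σ.injective (h.trans hσ.symm)) (by decide)
      · exact h
    have : (fun j => x (σ j)) = x := by
      funext j; fin_cases j <;> simp [hσ, h1]
    rw [this]; exact hx
  rw [Three.isoConst_affine M hM b K hco (volume_ne_zero hK hco hs hi)]
  exact Full.isoConst_lt hK hco hi hs hf

/-- The strong isotropic constant conjecture for affine images of unconditional bodies in every
dimension, from the potential and coordinate bounds in dimensions at least four. -/
theorem affine_lt_all {c : ℝ}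
    (h4 : ∀ n, 4 ≤ n → ∃ d e, CoordBound n c e ∧ Potential n c d ∧ simplexTau n ≤ e - d)
    (n : ℕ) (hn : 2 ≤ n) (K : Set (Fin n → ℝ))
    (hK : Convex ℝ K) (hco : IsCompact K) (hi : (interior K).Nonempty)
    (hu : ∀ x ∈ K, ∀ y : Fin n → ℝ, (∀ i, |y i| = |x i|) → y ∈ K)
    (M : Matrix (Fin n) (Fin n) ℝ) (hM : M.det ≠ 0) (b : Fin n → ℝ) :
    isoConst ((fun x => M *ᵥ x + b) '' K) < isoConst (cornerSimplex n) := by
  rcases lt_or_ge n 4 with h | h
  · interval_cases n
    · exact affine_lt_two hK hco hi hu hM b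
    · rw [Three.isoConst_affine M hM b K hco
        (volume_ne_zero hK hco (signInvariant_of_abs hu) hi)]
      exact Three.isoConst_lt hK hco hi hu
  · obtain ⟨d, e, hC, hP, hτ⟩ := h4 n h
    exact affine_lt_coord hC h hτ hP hK hco hi hu hM b

end Vale.Agent.P254.Uncond
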