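import Vale.Agent.P254.Uncond.Defs

/-!
Interface between the profile calculus and the certificates: pointwise inequalities which
imply the one-variable inequalities.
-/

open MeasureTheory Set

namespace Vale.Agent.P254.Uncond

/-- Data of a certificate: Cauchy weight `ω`, a bound `W` for its discounted future, a primitive
`Γ` of `W`, the two value coefficients `β`, `γ` with derivatives, and the lower bound `m`. -/
structure CertData where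
  ω : ℝ → ℝ
  W : ℝ → ℝ
  dW : ℝ → ℝ
  Γ : ℝ → ℝ
  β : ℝ → ℝ
  dβ : ℝ → ℝ
  γ : ℝ → ℝ
  dγ : ℝ → ℝ
  m : ℝ → ℝ

/-- `S = z ∂Φ/∂z` for `Φ = log z + β z + γ z^2`. -/
def CertData.S (D : CertData) (u z : ℝ) : ℝ := 1 + D.β u * z + 2 * D.γ u * z ^ 2

/-- The pointwise function of the certificate. -/
noncomputable def CertData.psi (D : CertData) (A C u z r : ℝ) : ℝ :=
  D.S u z * ((1 - z) / u - 1 + r) + (D.dβ u - D.β u) * z
    + (D.dγ u - D.γ u - A * (D.Γ u / (u ^ 2 * D.ω u))) * z ^ 2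
    - C * (r * (2 * u - 1) - r ^ 2 * u) - Real.log u

/-- Regularity of the data. -/
structure CertData.Regular (D : CertData) : Prop where
  ω_pos : ∀ u, 0 < u → 0 < D.ω u
  ω_cont : ContinuousOn D.ω (Ioi 0)
  W_nonneg : ∀ u, 0 < u → 0 ≤ D.W u
  W_deriv : ∀ u, 0 < u → HasDerivAt D.W (D.dW u) u
  dW_cont : ContinuousOn D.dW (Ioi 0)
  super : ∀ u, 0 < u → D.ω u ≤ D.W u - D.dW u
  Γ_deriv : ∀ u, 0 < u → HasDerivAt D.Γ (D.W u) u
  Γ_cont : ContinuousOn D.Γ (Ici 0)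
  Γ_zero : D.Γ 0 = 0
  Γ_growth : ∃ c, ∀ u, 0 ≤ u → D.Γ u ≤ c * (1 + u)
  κ_growth : ∃ c : ℝ, ∃ k : ℕ, ∀ u, 0 < u → D.Γ u / (u ^ 2 * D.ω u) ≤ c * (1 + 1 / u + u) ^ k
  β_deriv : ∀ u, 0 < u → HasDerivAt D.β (D.dβ u) u
  β_cont : ContinuousOn D.β (Ici 0)
  β_bound : ∃ c, ∀ u, 0 ≤ u → |D.β u| ≤ c
  γ_deriv : ∀ u, 0 < u → HasDerivAt D.γ (D.dγ u) u
  γ_cont : ContinuousOn D.γ (Ici 0)
  γ_bound : ∃ c, ∀ u, 0 ≤ u → |D.γ u| ≤ c
  m_right : ∀ u, 0 < u → ContinuousWithinAt D.m (Ici u) u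
  m_int : IntegrableOn (fun u => Real.exp (-u) * D.m u) (Ioi 0)

/-- The pointwise inequality. The range of `z` is given by `u ≤ z (exp u - 1)` and `z ≤ 1`. -/
def CertData.Valid (D : CertData) (A C : ℝ) : Prop :=
  ∀ u z r : ℝ, 0 < u → 0 ≤ z → z ≤ 1 → u ≤ z * (Real.exp u - 1) → 0 ≤ r → r ≤ 1 →
    D.m u ≤ D.psi A C u z r

/-- The bound delivered by a certificate. -/
def CertSound : Prop :=
  ∀ (D : CertData) (A C a : ℝ), 0 ≤ A → D.Regular → D.Valid A C →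
    -a ≤ A + D.β 0 + D.γ 0 + ∫ u in Ioi (0:ℝ), Real.exp (-u) * D.m u → OneDim A C a

/-- Data of the certificate for the requirement: `p`, `q` are the coefficients of `y`, `y^2`,
`w` the reference for the discounted mean and `Γ` its primitive. -/
structure ReqData where
  u₁ : ℝ
  S₀ : ℝ
  w : ℝ → ℝ
  Γ : ℝ → ℝ
  β : ℝ → ℝ
  dβ : ℝ → ℝ
  γ : ℝ → ℝ
  dγ : ℝ → ℝ
  p : ℝ → ℝ
  dp : ℝ → ℝ
  q : ℝ → ℝ
  dq : ℝ → ℝ
  m : ℝ → ℝ

/-- The pointwise function for the requirement; `y = log (t / t₁)`. -/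
noncomputable def ReqData.psi (D : ReqData) (c u z r y : ℝ) : ℝ :=
  c * (2 * D.Γ u * (z / u) - D.w u ^ 2) + y - Real.exp (2 * y) / (2 * D.S₀)
    + (D.β u * z + 2 * D.γ u * z ^ 2) * ((1 - z) / u - 1 + r)
    + (D.dβ u - D.β u) * z + (D.dγ u - D.γ u) * z ^ 2
    + (D.dp u - D.p u) * y + (D.dq u - D.q u) * y ^ 2 + (D.p u + 2 * D.q u * y) * (z / u)

/-- Regularity of the data for the requirement. -/
structure ReqData.Regular (D : ReqData) : Prop where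
  u₁_pos : 0 < D.u₁
  S₀_pos : 0 < D.S₀
  Γ_deriv : ∀ u, 0 < u → HasDerivAt D.Γ (D.w u) u
  w_cont : ContinuousOn D.w (Ioi 0)
  w_int : IntegrableOn (fun u => Real.exp (-u) * D.w u ^ 2) (Ioi 0)
  Γ_cont : ContinuousOn D.Γ (Ici 0)
  Γ_bound : ∃ c, ∀ u, 0 ≤ u → |D.Γ u| ≤ c * (1 + u)
  Γ_zero : D.Γ 0 = 0
  β_deriv : ∀ u, 0 < u → HasDerivAt D.β (D.dβ u) u
  β_cont : ContinuousOn D.β (Ici 0)
  β_bound : ∃ c, ∀ u, 0 ≤ u → |D.β u| ≤ c
  γ_deriv : ∀ u, 0 < u → HasDerivAt D.γ (D.dγ u) u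
  γ_cont : ContinuousOn D.γ (Ici 0)
  γ_bound : ∃ c, ∀ u, 0 ≤ u → |D.γ u| ≤ c
  p_deriv : ∀ u, 0 < u → HasDerivAt D.p (D.dp u) u
  p_cont : ContinuousOn D.p (Ici 0)
  p_bound : ∃ c, ∀ u, 0 ≤ u → |D.p u| ≤ c * u
  q_deriv : ∀ u, 0 < u → HasDerivAt D.q (D.dq u) u
  q_cont : ContinuousOn D.q (Ici 0)
  q_bound : ∃ c, ∀ u, 0 ≤ u → |D.q u| ≤ c * u
  m_right : ∀ u, 0 < u → ContinuousWithinAt D.m (Ici u) u
  m_int : IntegrableOn (fun u => Real.exp (-u) * D.m u) (Ioi 0)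

/-- The pointwise inequality for the requirement, on the range of the variables of a profile. -/
def ReqData.Valid (D : ReqData) (c : ℝ) : Prop :=
  ∀ u z r y : ℝ, 0 < u → 0 ≤ z → z ≤ 1 → u ≤ z * (Real.exp u - 1) → 0 ≤ r → r ≤ 1 →
    min (Real.log (u / D.u₁)) (Real.log ((1 - Real.exp (-u)) / (1 - Real.exp (-D.u₁)))) ≤ y →
    y ≤ max (Real.log (u / D.u₁)) (Real.log ((1 - Real.exp (-u)) / (1 - Real.exp (-D.u₁)))) →
    D.m u ≤ D.psi c u z r y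

/-- The bound delivered by a certificate for the requirement. -/
def ReqSound : Prop :=
  ∀ (D : ReqData) (c e : ℝ), 0 ≤ c → D.Regular → D.Valid c →
    e ≤ D.β 0 + D.γ 0 - c + Real.log 2 + 1 / 2 - Real.log D.S₀ / 2
        + ∫ u in Ioi (0:ℝ), Real.exp (-u) * D.m u →
      Requirement c e

end Vale.Agent.P254.Uncond
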