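import Vale.Agent.P254.Uncond.ProfileBasic
import Mathlib

/-!
Logarithmic moments of profiles: integrability, the gain through `v`, and the variance of the
logarithm as the mean square of the mean excess `w`.
-/

open MeasureTheory Set Filter Topology

namespace Vale.Agent.P254.Uncond

variable {g : ℝ → ℝ} {R : ℝ}

/-- The mean excess of `log` beyond `t`: `∫ tail / s` over `tail`. -/
noncomputable def excess (g : ℝ → ℝ) (R t : ℝ) : ℝ :=
  (∫ s in t..R, tail g s / s) / tail g t

lemma abs_log_le {t : ℝ} (ht : 0 < t) : |Real.log t| ≤ 4 * t ^ (-(1 / 4) : ℝ) + t := by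
  have hp : 0 < t ^ (-(1 / 4) : ℝ) := Real.rpow_pos_of_pos ht _
  rcases le_or_gt 1 t with h | h
  · rw [abs_of_nonneg (Real.log_nonneg h)]
    linarith [Real.log_le_sub_one_of_pos ht]
  · rw [abs_of_neg (Real.log_neg ht h), ← Real.log_inv]
    have h2 := Real.log_le_rpow_div (inv_nonneg.2 ht.le) (show (0:ℝ) < 1 / 4 by norm_num)
    rw [Real.inv_rpow ht.le, ← Real.rpow_neg ht.le] at h2
    linarith

lemma log_sq_le {t : ℝ} (ht : 0 < t) :
    Real.log t ^ 2 ≤ 32 * t ^ (-(1 / 2) : ℝ) + 2 * t ^ 2 := by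
  have h := pow_le_pow_left₀ (abs_nonneg _) (abs_log_le ht) 2
  have e : t ^ (-(1 / 4) : ℝ) * t ^ (-(1 / 4) : ℝ) = t ^ (-(1 / 2) : ℝ) := by
    rw [← Real.rpow_add ht]; norm_num
  rw [sq_abs] at h
  nlinarith [sq_nonneg (4 * t ^ (-(1 / 4) : ℝ) - t)]

lemma integrableOn_exp_mul_id : IntegrableOn (fun s => Real.exp (-s) * s) (Ioi 0) := by
  refine (Real.GammaIntegral_convergent (show (0:ℝ) < 2 by norm_num)).congr_fun (fun s _ => ?_)
    measurableSet_Ioi
  norm_num [Real.rpow_one]

lemma integral_exp_mul_id : ∫ s in Ioi (0:ℝ), Real.exp (-s) * s = 1 := by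
  have h := Real.Gamma_eq_integral (show (0:ℝ) < 2 by norm_num)
  rw [Real.Gamma_two] at h
  rw [h]
  refine setIntegral_congr_fun measurableSet_Ioi fun s _ => ?_
  norm_num [Real.rpow_one]

lemma integrableOn_exp_mul_log :
    IntegrableOn (fun s => Real.exp (-s) * |Real.log s|) (Ioi 0) := by
  have h := ((Real.GammaIntegral_convergent (show (0:ℝ) < 3 / 4 by norm_num)).const_mul 4).add
    integrableOn_exp_mul_id
  refine h.mono' (by fun_prop) ((ae_restrict_mem measurableSet_Ioi).mono fun s (hs : 0 < s) => ?_)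
  rw [norm_mul, Real.norm_eq_abs, Real.norm_eq_abs, Real.abs_exp, abs_abs]
  have h1 := mul_le_mul_of_nonneg_left (abs_log_le hs) (Real.exp_pos (-s)).le
  show _ ≤ 4 * (Real.exp (-s) * s ^ ((3:ℝ) / 4 - 1)) + Real.exp (-s) * s
  rw [show (3:ℝ) / 4 - 1 = -(1 / 4) by norm_num]
  linarith

/-- Intervals exhausting `(0, R)` from inside. -/
lemma exists_cover (hR : 0 < R) : ∃ a b : ℕ → ℝ, (∀ n, a n ∈ Ioo 0 R) ∧ (∀ n, b n ∈ Ioo 0 R) ∧
    (∀ n, a n ≤ b n) ∧ Tendsto a atTop (𝓝[>] 0) ∧ Tendsto b atTop (𝓝[<] R) := by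
  have hc : Tendsto (fun n : ℕ => R / ((n:ℝ) + 3)) atTop (𝓝 0) :=
    tendsto_const_nhds.div_atTop (tendsto_natCast_atTop_atTop.atTop_add tendsto_const_nhds)
  have hp : ∀ n : ℕ, 0 < R / ((n:ℝ) + 3) := fun n => by positivity
  have hl : ∀ n : ℕ, R / ((n:ℝ) + 3) * 2 < R := fun n => by
    rw [div_mul_eq_mul_div, div_lt_iff₀ (by positivity)]
    nlinarith [(Nat.cast_nonneg n : (0:ℝ) ≤ n)]
  refine ⟨fun n => R / ((n:ℝ) + 3), fun n => R - R / ((n:ℝ) + 3),
    fun n => ⟨hp n, by linarith [hl n, hp n]⟩, fun n => ⟨by linarith [hl n, hp n], by linarith [hp n]⟩,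
    fun n => by linarith [hl n], tendsto_nhdsWithin_iff.2 ⟨hc, Eventually.of_forall hp⟩,
    tendsto_nhdsWithin_iff.2 ⟨?_, Eventually.of_forall fun n => ?_⟩⟩
  · simpa using hc.const_sub R
  · exact sub_lt_self R (hp n)

namespace Prof

variable (hg : Prof g R)
include hg

lemma integrableOn_mul {f : ℝ → ℝ} (hf : IntegrableOn f (Icc 0 R)) :
    IntegrableOn (fun t => g t * f t) (Icc 0 R) :=
  Integrable.bdd_mul (c := g 0) hf hg.meas.aestronglyMeasurable
    ((ae_restrict_mem measurableSet_Icc).mono fun t ht => by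
      rw [Real.norm_eq_abs, abs_of_nonneg (hg.nonneg t)]
      exact hg.le_zero ht.1)

lemma integrable_g : IntegrableOn g (Ioo 0 R) := hg.integrableOn_Ioi.mono_set Ioo_subset_Ioi_self

lemma integrable_mul_log : IntegrableOn (fun t => g t * Real.log t) (Icc 0 R) :=
  hg.integrableOn_mul
    ((intervalIntegrable_iff_integrableOn_Icc_of_le hg.R_pos.le).1
      intervalIntegral.intervalIntegrable_log')

lemma integrable_mul_log_sq : IntegrableOn (fun t => g t * Real.log t ^ 2) (Icc 0 R) := by
  refine hg.integrableOn_mul ?_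
  rw [integrableOn_Icc_iff_integrableOn_Ioo]
  have h : IntegrableOn (fun t : ℝ => 32 * t ^ (-(1 / 2) : ℝ) + 2 * t ^ 2) (Ioo 0 R) :=
    (((intervalIntegrable_iff_integrableOn_Ioo_of_le hg.R_pos.le).1
      (intervalIntegral.intervalIntegrable_rpow' (by norm_num))).const_mul 32).add
      ((by fun_prop : Continuous fun t : ℝ => 2 * t ^ 2).integrableOn_Icc.mono_set Ioo_subset_Icc_self)
  refine h.mono' (by fun_prop) ((ae_restrict_mem measurableSet_Ioo).mono fun t ht => ?_)
  rw [Real.norm_eq_abs, abs_of_nonneg (sq_nonneg _)]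
  exact log_sq_le ht.1

lemma continuousOn_haz' : ContinuousOn (haz g) (Ioo 0 R) :=
  hg.haz_continuousOn.mono Ioo_subset_Ico_self

lemma integrable_mul_haz : IntegrableOn (fun t => g t * haz g t) (Ioo 0 R) :=
  (hg.integrable_haz_iff fun s => s).2 integrableOn_exp_mul_id

lemma integral_mul_haz : ∫ t in Ioo 0 R, g t * haz g t = tot g := by
  rw [hg.integral_haz fun s => s, integral_exp_mul_id, mul_one]

lemma integrable_mul_log_vrat : IntegrableOn (fun t => g t * Real.log (vrat g t)) (Ioo 0 R) := by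
  have h1 := ((hg.integrable_haz_iff fun s => |Real.log s|).2 integrableOn_exp_mul_log).add
    hg.integrable_mul_haz
  refine h1.mono' ((hg.continuousOn_g.mul (hg.vrat_continuousOn.log
    fun t ht => (hg.vrat_pos ht).ne')).aestronglyMeasurable measurableSet_Ioo) ?_
  refine (ae_restrict_mem measurableSet_Ioo).mono fun t ht => ?_
  rw [Real.norm_eq_abs, abs_mul, abs_of_pos (hg.g_pos ht)]
  simp only [Pi.add_apply, ← mul_add]
  exact mul_le_mul_of_nonneg_left (hg.abs_log_vrat ht) (hg.g_pos ht).le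

lemma aemeasurable_rate : AEMeasurable (rate g) (volume.restrict (Ioo 0 R)) := by
  have h1 : AEMeasurable (slope g) (volume.restrict (Ioo 0 R)) := aemeasurable_derivWithin_Ioi _ _
  have h2 : AEMeasurable (tail g) (volume.restrict (Ioo 0 R)) :=
    (hg.tail_continuousOn.mono Ioo_subset_Icc_self).aemeasurable measurableSet_Ioo
  exact (h1.mul h2).div hg.meas.aemeasurable

lemma integrable_mul_curv : IntegrableOn
    (fun t => g t * (rate g t * (2 * haz g t - 1) - rate g t ^ 2 * haz g t)) (Ioo 0 R) := by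
  have h1 := (hg.integrable_mul_haz.const_mul 3).add hg.integrable_g
  have hm : AEMeasurable (fun t => g t * (rate g t * (2 * haz g t - 1) - rate g t ^ 2 * haz g t))
      (volume.restrict (Ioo 0 R)) := by
    have hr := hg.aemeasurable_rate
    have hu : AEMeasurable (haz g) (volume.restrict (Ioo 0 R)) :=
      hg.continuousOn_haz'.aemeasurable measurableSet_Ioo
    have hg' : AEMeasurable g (volume.restrict (Ioo 0 R)) := hg.meas.aemeasurable
    fun_prop
  refine h1.mono' hm.aestronglyMeasurable ((ae_restrict_mem measurableSet_Ioo).mono fun t ht => ?_)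
  have hr0 := hg.rate_nonneg ht
  have hr1 := hg.rate_le_one ht
  have hu := (hg.haz_pos ht).le
  rw [Real.norm_eq_abs, abs_mul, abs_of_pos (hg.g_pos ht)]
  simp only [Pi.add_apply]
  have : |rate g t * (2 * haz g t - 1) - rate g t ^ 2 * haz g t| ≤ 3 * haz g t + 1 := by
    rw [abs_le]
    constructor <;> nlinarith [mul_le_mul_of_nonneg_right hr1 hu, mul_nonneg hr0 hu,
      mul_le_mul_of_nonneg_left hr1 (mul_nonneg hr0 hu), mul_nonneg (mul_nonneg hr0 hr0) hu]
  nlinarith [mul_le_mul_of_nonneg_left this (hg.g_pos ht).le]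

lemma log_density {t : ℝ} (ht : t ∈ Ioo 0 R) :
    -Real.log (g t / tot g) = -Real.log (vrat g t) + Real.log t + haz g t := by
  rw [vrat, Real.log_div (mul_pos ht.1 (hg.g_pos ht)).ne' (hg.tail_pos' ht).ne',
    Real.log_mul ht.1.ne' (hg.g_pos ht).ne', Real.log_div (hg.g_pos ht).ne' hg.tot_pos.ne',
    hg.haz_eq ht.1.le ht.2]
  ring

/-- The gain is minus the mean of `log v`. -/
lemma gain_eq : gain g = -((∫ t in Ioo 0 R, g t * Real.log (vrat g t)) / tot g) := by
  have hV := hg.tot_pos.ne'
  rw [gain, pmean, hg.avg_eq, hg.avg_eq]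
  have e : ∫ t in Ioo 0 R, g t * -Real.log (g t / tot g) =
      -(∫ t in Ioo 0 R, g t * Real.log (vrat g t)) + (∫ t in Ioo 0 R, g t * Real.log t)
        + ∫ t in Ioo 0 R, g t * haz g t := by
    have h2 := hg.integrable_mul_log.mono_set (Ioo_subset_Icc_self (a := 0) (b := R))
    rw [← integral_neg, ← integral_add hg.integrable_mul_log_vrat.neg' h2,
      ← integral_add (f := fun t => -(g t * Real.log (vrat g t)) + g t * Real.log t)
        (hg.integrable_mul_log_vrat.neg'.add h2) hg.integrable_mul_haz]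
    refine setIntegral_congr_fun measurableSet_Ioo fun t ht => ?_
    rw [hg.log_density ht]
    ring
  rw [e, hg.integral_mul_haz]
  field_simp
  ring

end Prof

theorem gainVrat : GainVrat := by
  intro g R hg
  rw [hg.gain_eq, hg.avg_eq, ← neg_div, ← integral_neg]
  simp

namespace Prof

variable (hg : Prof g R)
include hg

/-! ### The variance through the mean excess -/

lemma intervalInt_log {a : ℝ} (ha : 0 ≤ a) (haR : a ≤ R) :
    IntervalIntegrable (fun s => g s * Real.log s) volume a R :=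
  (intervalIntegrable_iff_integrableOn_Icc_of_le haR).2
    (hg.integrable_mul_log.mono_set (Icc_subset_Icc ha le_rfl))

lemma intervalInt_log_sq {a : ℝ} (ha : 0 ≤ a) (haR : a ≤ R) :
    IntervalIntegrable (fun s => g s * Real.log s ^ 2) volume a R :=
  (intervalIntegrable_iff_integrableOn_Icc_of_le haR).2
    (hg.integrable_mul_log_sq.mono_set (Icc_subset_Icc ha le_rfl))

lemma intervalInt_tail_div {a : ℝ} (ha : 0 < a) (haR : a ≤ R) :
    IntervalIntegrable (fun s => tail g s / s) volume a R :=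
  ((hg.tail_continuousOn.mono (Icc_subset_Icc ha.le le_rfl)).div continuousOn_id
    fun s hs => (ha.trans_le hs.1).ne').intervalIntegrable_of_Icc haR

lemma integral_tail_div {t : ℝ} (ht : t ∈ Ioo 0 R) :
    ∫ s in t..R, tail g s / s =
      (∫ s in t..R, g s * Real.log s) - Real.log t * tail g t := by
  have hsub : Icc t R ⊆ Icc 0 R := Icc_subset_Icc ht.1.le le_rfl
  have h := intervalIntegral.integral_eq_sub_of_hasDerivAt_of_le ht.2.le
    (f := fun s => tail g s * (Real.log s - Real.log t))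
    (f' := fun s => tail g s / s - (g s * Real.log s - Real.log t * g s))
    ((hg.tail_continuousOn.mono hsub).mul
      ((continuousOn_id.log fun s hs => (ht.1.trans_le hs.1).ne').sub continuousOn_const))
    (fun s hs => by
      have hs' : s ∈ Ioo 0 R := ⟨ht.1.trans hs.1, hs.2⟩
      refine ((hg.tail_hasDerivAt hs').fun_mul
        ((Real.hasDerivAt_log hs'.1.ne').sub_const (Real.log t))).congr_deriv ?_
      ring)
    ((hg.intervalInt_tail_div ht.1 ht.2.le).sub
      ((hg.intervalInt_log ht.1.le ht.2.le).sub ((hg.intervalInt ht.1.le hg.R_pos.le).const_mul _)))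
  rw [intervalIntegral.integral_sub (hg.intervalInt_tail_div ht.1 ht.2.le)
      ((hg.intervalInt_log ht.1.le ht.2.le).sub ((hg.intervalInt ht.1.le hg.R_pos.le).const_mul _)),
    intervalIntegral.integral_sub (hg.intervalInt_log ht.1.le ht.2.le)
      ((hg.intervalInt ht.1.le hg.R_pos.le).const_mul _),
    intervalIntegral.integral_const_mul, ← hg.tail_eq ht.1.le ht.2.le, hg.tail_R] at h
  simp only [zero_mul, sub_self, mul_zero] at h
  linarith

lemma excess_eq {t : ℝ} (ht : t ∈ Ioo 0 R) :
    excess g R t = (∫ s in t..R, g s * Real.log s) / tail g t - Real.log t := by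
  rw [excess, hg.integral_tail_div ht, sub_div, mul_div_assoc, div_self (hg.tail_pos' ht).ne',
    mul_one]

lemma excess_nonneg {t : ℝ} (ht : t ∈ Ioo 0 R) : 0 ≤ excess g R t :=
  div_nonneg (intervalIntegral.integral_nonneg ht.2.le fun s hs => div_nonneg
    (setIntegral_nonneg measurableSet_Ioi fun x _ => hg.nonneg x) (ht.1.le.trans hs.1))
    (hg.tail_pos' ht).le

lemma continuousOn_primitive {f : ℝ → ℝ} (hf : IntegrableOn f (Icc 0 R)) :
    ContinuousOn (fun t => ∫ s in t..R, f s) (Icc 0 R) := by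
  have h : IntegrableOn f (uIcc 0 R) := by rwa [uIcc_of_le hg.R_pos.le]
  have := intervalIntegral.continuousOn_primitive_interval_left h
  rwa [uIcc_of_le hg.R_pos.le] at this

lemma continuousOn_excess : ContinuousOn (excess g R) (Ioo 0 R) :=
  (((hg.continuousOn_primitive hg.integrable_mul_log).mono Ioo_subset_Icc_self).div
    (hg.tail_continuousOn.mono Ioo_subset_Icc_self) fun _ ht => (hg.tail_pos' ht).ne').sub
    (continuousOn_id.log fun _ ht => ht.1.ne') |>.congr fun _ ht => hg.excess_eq ht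

omit hg in
lemma hasDerivAt_primitive {f : ℝ → ℝ} (hf : Measurable f)
    (hfi : ∀ t ∈ Ioo 0 R, IntervalIntegrable f volume t R) (hfc : ∀ t ∈ Ioo 0 R, ContinuousAt f t)
    {t : ℝ} (ht : t ∈ Ioo 0 R) : HasDerivAt (fun x => ∫ s in x..R, f s) (-f t) t :=
  intervalIntegral.integral_hasDerivAt_left (hfi t ht)
    hf.stronglyMeasurable.stronglyMeasurableAtFilter (hfc t ht)

/-- `tot g * pvar g` is the integral of `g w^2`. -/
lemma pvar_eq : IntegrableOn (fun t => g t * excess g R t ^ 2) (Ioo 0 R) ∧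
    tot g * pvar g = ∫ t in Ioo 0 R, g t * excess g R t ^ 2 := by
  set P : ℝ → ℝ := fun t => ∫ s in t..R, g s * Real.log s with hP
  set Q : ℝ → ℝ := fun t => ∫ s in t..R, g s * Real.log s ^ 2 with hQ
  set N : ℝ → ℝ := fun t => Q t - P t ^ 2 / tail g t with hN
  have hcw : ContinuousOn (fun t => g t * excess g R t ^ 2) (Ioo 0 R) :=
    hg.continuousOn_g.mul (hg.continuousOn_excess.pow 2)
  have hd : ∀ t ∈ Ioo 0 R, HasDerivAt N (-(g t * excess g R t ^ 2)) t := by
    intro t ht
    have hlog : ContinuousAt Real.log t := Real.continuousAt_log ht.1.ne'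
    have h1 : HasDerivAt P (-(g t * Real.log t)) t :=
      hasDerivAt_primitive (hg.meas.mul Real.measurable_log)
        (fun x hx => hg.intervalInt_log hx.1.le hx.2.le)
        (fun x hx => (hg.continuousAt_g hx).mul (Real.continuousAt_log hx.1.ne')) ht
    have h2 : HasDerivAt Q (-(g t * Real.log t ^ 2)) t :=
      hasDerivAt_primitive (hg.meas.mul (Real.measurable_log.pow_const 2))
        (fun x hx => hg.intervalInt_log_sq hx.1.le hx.2.le)
        (fun x hx => (hg.continuousAt_g hx).mul ((Real.continuousAt_log hx.1.ne').pow 2)) ht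
    refine (h2.fun_sub ((h1.fun_pow 2).fun_div (hg.tail_hasDerivAt ht)
      (hg.tail_pos' ht).ne')).congr_deriv ?_
    rw [hg.excess_eq ht]
    show _ = -(g t * (P t / tail g t - Real.log t) ^ 2)
    field_simp [(hg.tail_pos' ht).ne']
    ring
  have hcont : ContinuousOn N (Ico 0 R) :=
    ((hg.continuousOn_primitive hg.integrable_mul_log_sq).mono Ico_subset_Icc_self).sub
      ((((hg.continuousOn_primitive hg.integrable_mul_log).mono Ico_subset_Icc_self).pow 2).div
        (hg.tail_continuousOn.mono Ico_subset_Icc_self) fun t ht => (hg.tail_pos ht.1 ht.2).ne')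
  have hN0 : N 0 = tot g * pvar g := by
    have e1 : ∀ (f : ℝ → ℝ), ∫ t in Ioo 0 R, g t * f t = ∫ t in (0:ℝ)..R, g t * f t := fun f => by
      rw [intervalIntegral.integral_of_le hg.R_pos.le, integral_Ioc_eq_integral_Ioo]
    rw [pvar, hg.avg_eq, e1, mul_div_cancel₀ _ hg.tot_pos.ne']
    set μ := pmean g with hμ
    have hPm : P 0 = μ * tot g := by
      rw [hμ, pmean, hg.avg_eq, e1, div_mul_cancel₀ _ hg.tot_pos.ne']
    have e2 : (fun t => g t * (Real.log t - μ) ^ 2) =
        fun t => g t * Real.log t ^ 2 - 2 * μ * (g t * Real.log t) + μ ^ 2 * g t := by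
      funext t; ring
    rw [e2, intervalIntegral.integral_add
        ((hg.intervalInt_log_sq le_rfl hg.R_pos.le).sub
          ((hg.intervalInt_log le_rfl hg.R_pos.le).const_mul _))
        ((hg.intervalInt le_rfl hg.R_pos.le).const_mul _),
      intervalIntegral.integral_sub (hg.intervalInt_log_sq le_rfl hg.R_pos.le)
        ((hg.intervalInt_log le_rfl hg.R_pos.le).const_mul _),
      intervalIntegral.integral_const_mul, intervalIntegral.integral_const_mul,
      ← hg.tail_eq le_rfl hg.R_pos.le, tail_zero]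
    show Q 0 - P 0 ^ 2 / tail g 0 = Q 0 - 2 * μ * P 0 + μ ^ 2 * tot g
    rw [hPm, tail_zero]
    field_simp [hg.tot_pos.ne']
    ring
  have hNbd : ∀ t ∈ Ioo 0 R, 0 ≤ N t ∧ N t ≤ Q t := by
    intro t ht
    have hG := hg.tail_pos' ht
    refine ⟨?_, sub_le_self _ (div_nonneg (sq_nonneg _) hG.le)⟩
    set m := P t / tail g t with hm
    have h0 : 0 ≤ ∫ s in t..R, g s * (Real.log s - m) ^ 2 :=
      intervalIntegral.integral_nonneg ht.2.le fun s _ => mul_nonneg (hg.nonneg s) (sq_nonneg _)
    have e2 : (fun s => g s * (Real.log s - m) ^ 2) =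
        fun s => g s * Real.log s ^ 2 - 2 * m * (g s * Real.log s) + m ^ 2 * g s := by
      funext s; ring
    rw [e2, intervalIntegral.integral_add
        ((hg.intervalInt_log_sq ht.1.le ht.2.le).sub
          ((hg.intervalInt_log ht.1.le ht.2.le).const_mul _))
        ((hg.intervalInt ht.1.le hg.R_pos.le).const_mul _),
      intervalIntegral.integral_sub (hg.intervalInt_log_sq ht.1.le ht.2.le)
        ((hg.intervalInt_log ht.1.le ht.2.le).const_mul _),
      intervalIntegral.integral_const_mul, intervalIntegral.integral_const_mul,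
      ← hg.tail_eq ht.1.le ht.2.le] at h0
    calc (0:ℝ) ≤ Q t - 2 * m * P t + m ^ 2 * tail g t := h0
      _ = N t := by simp only [hN, hm]; field_simp; ring
  obtain ⟨a, b, ha, hb, hab, hta, htb⟩ := exists_cover hg.R_pos
  have hc : AECover (volume.restrict (Ioo 0 R)) atTop fun n => Icc (a n) (b n) :=
    aecover_Ioo_of_Icc (tendsto_nhdsWithin_iff.1 hta).1 (tendsto_nhdsWithin_iff.1 htb).1
  have hsub : ∀ n, Icc (a n) (b n) ⊆ Ioo 0 R := fun n => Icc_subset_Ioo (ha n).1 (hb n).2
  have hint : ∀ n, ∫ t in Icc (a n) (b n), g t * excess g R t ^ 2 ∂(volume.restrict (Ioo 0 R)) =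
      N (a n) - N (b n) := by
    intro n
    rw [Measure.restrict_restrict measurableSet_Icc, inter_eq_left.2 (hsub n),
      integral_Icc_eq_integral_Ioc, ← intervalIntegral.integral_of_le (hab n)]
    have h := intervalIntegral.integral_eq_sub_of_hasDerivAt_of_le (hab n)
      (f := fun t => -N t) (f' := fun t => g t * excess g R t ^ 2)
      ((hcont.mono ((hsub n).trans Ioo_subset_Ico_self)).neg)
      (fun t ht => by simpa using (hd t (hsub n (Ioo_subset_Icc_self ht))).fun_neg)
      ((hcw.mono (hsub n)).intervalIntegrable_of_Icc (hab n))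
    rw [h]; ring
  have hlim : Tendsto (fun n => N (a n) - N (b n)) atTop (𝓝 (tot g * pvar g)) := by
    have h1 : Tendsto (fun n => N (a n)) atTop (𝓝 (tot g * pvar g)) := by
      rw [← hN0]
      refine (hcont 0 ⟨le_rfl, hg.R_pos⟩).tendsto.comp ?_
      exact tendsto_nhdsWithin_iff.2 ⟨(tendsto_nhdsWithin_iff.1 hta).1,
        Eventually.of_forall fun n => Ioo_subset_Ico_self (ha n)⟩
    have hQR : Tendsto (fun n => Q (b n)) atTop (𝓝 0) := by
      have h := (hg.continuousOn_primitive hg.integrable_mul_log_sq) R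
        ⟨hg.R_pos.le, le_rfl⟩
      rw [ContinuousWithinAt, intervalIntegral.integral_same] at h
      exact h.comp (tendsto_nhdsWithin_iff.2 ⟨(tendsto_nhdsWithin_iff.1 htb).1,
        Eventually.of_forall fun n => Ioo_subset_Icc_self (hb n)⟩)
    have h2 : Tendsto (fun n => N (b n)) atTop (𝓝 0) :=
      squeeze_zero (fun n => (hNbd _ (hb n)).1) (fun n => (hNbd _ (hb n)).2) hQR
    simpa using h1.sub h2
  have hnn : ∀ᵐ t ∂(volume.restrict (Ioo 0 R)), 0 ≤ g t * excess g R t ^ 2 :=
    Eventually.of_forall fun t => mul_nonneg (hg.nonneg t) (sq_nonneg _)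
  have hI : IntegrableOn (fun t => g t * excess g R t ^ 2) (Ioo 0 R) :=
    hc.integrable_of_integral_tendsto_of_nonneg_ae _
      (fun n => IntegrableOn.mono_measure ((hcw.mono (hsub n)).integrableOn_Icc)
        Measure.restrict_le_self) hnn
      (by simpa only [hint] using hlim)
  refine ⟨hI, tendsto_nhds_unique hlim ?_⟩
  simpa only [hint] using hc.integral_tendsto_of_countably_generated hI

end Prof

end Vale.Agent.P254.Uncond
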