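import Vale.Agent.P254.Uncond.Cert
import Vale.Agent.P254.Uncond.ProfileVar
import Mathlib

/-!
Soundness of the pointwise certificates for the one-variable inequality.
-/

open MeasureTheory Set Filter Topology

namespace Vale.Agent.P254.Uncond

variable {g : ℝ → ℝ} {R : ℝ} {D : CertData}

lemma CertData.Regular.W_pos (hD : D.Regular) {u : ℝ} (hu : 0 < u) : 0 < D.W u := by
  rcases (hD.W_nonneg u hu).eq_or_lt with h | h
  · exfalso
    have hmin : IsLocalMin D.W u := by
      filter_upwards [Ioi_mem_nhds hu] with s hs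
      rw [← h]
      exact hD.W_nonneg s hs
    have h1 := hmin.hasDerivAt_eq_zero (hD.W_deriv u hu)
    have h2 := hD.super u hu
    have h3 := hD.ω_pos u hu
    linarith
  · exact h

lemma CertData.Regular.Γ_nonneg (hD : D.Regular) {u : ℝ} (hu : 0 ≤ u) : 0 ≤ D.Γ u := by
  have hm : MonotoneOn D.Γ (Ici 0) := by
    refine monotoneOn_of_deriv_nonneg (convex_Ici 0) hD.Γ_cont ?_ ?_ <;>
      intro s hs <;> rw [interior_Ici] at hs
    · exact (hD.Γ_deriv s hs).differentiableAt.differentiableWithinAt
    · rw [(hD.Γ_deriv s hs).deriv]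
      exact hD.W_nonneg s hs
  have := hm self_mem_Ici hu hu
  rwa [hD.Γ_zero] at this

lemma CertData.Regular.W_cont (hD : D.Regular) : ContinuousOn D.W (Ioi 0) :=
  fun u hu => (hD.W_deriv u hu).continuousAt.continuousWithinAt

/-- The Cauchy integrand. -/
noncomputable def kap (D : CertData) (g : ℝ → ℝ) (t : ℝ) : ℝ :=
  D.Γ (haz g t) / (D.ω (haz g t) * vrat g t ^ 2)

namespace Prof

variable (hg : Prof g R)
include hg

lemma kap_nonneg (hD : D.Regular) {t : ℝ} (ht : t ∈ Ioo 0 R) : 0 ≤ kap D g t :=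
  div_nonneg (hD.Γ_nonneg (hg.haz_pos ht).le)
    (mul_nonneg (hD.ω_pos _ (hg.haz_pos ht)).le (sq_nonneg _))

lemma continuousOn_comp_haz {f : ℝ → ℝ} (hf : ContinuousOn f (Ioi 0)) :
    ContinuousOn (fun t => f (haz g t)) (Ioo 0 R) :=
  hf.comp hg.continuousOn_haz' fun _ ht => hg.haz_pos ht

lemma continuousOn_kap (hD : D.Regular) : ContinuousOn (kap D g) (Ioo 0 R) :=
  (hg.continuousOn_comp_haz (hD.Γ_cont.mono Ioi_subset_Ici_self)).div
    ((hg.continuousOn_comp_haz hD.ω_cont).mul (hg.vrat_continuousOn.pow 2)) fun t ht =>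
    (mul_pos (hD.ω_pos _ (hg.haz_pos ht)) (pow_pos (hg.vrat_pos ht) 2)).ne'

/-- The mean excess stopped at `β`. -/
lemma excess_sq_le_kap (hD : D.Regular) {α β : ℝ} (hα : 0 < α) (hαβ : α ≤ β) (hβ : β < R) :
    ∫ t in α..β, g t * ((∫ s in t..β, tail g s / s) / tail g t) ^ 2 ≤
      ∫ t in α..β, g t * kap D g t := by
  have hsub : Icc α β ⊆ Ioo 0 R := Icc_subset_Ioo hα hβ
  set a : ℝ → ℝ := fun s => tail g s / s with ha
  set p : ℝ → ℝ := fun s => tail g s ^ 2 / (s ^ 2 * (g s * D.ω (haz g s))) with hp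
  have hω : ContinuousOn (fun t => D.ω (haz g t)) (Ioo 0 R) := hg.continuousOn_comp_haz hD.ω_cont
  have hW : ContinuousOn (fun t => D.W (haz g t)) (Ioo 0 R) := hg.continuousOn_comp_haz hD.W_cont
  have hG : ContinuousOn (tail g) (Ioo 0 R) := hg.tail_continuousOn.mono Ioo_subset_Icc_self
  have hden : ∀ s ∈ Ioo 0 R, 0 < s ^ 2 * (g s * D.ω (haz g s)) := fun s hs =>
    mul_pos (pow_pos hs.1 2) (mul_pos (hg.g_pos hs) (hD.ω_pos _ (hg.haz_pos hs)))
  have hac : ContinuousOn a (Ioo 0 R) := hG.div continuousOn_id fun s hs => hs.1.ne'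
  have hpc : ContinuousOn p (Ioo 0 R) :=
    (hG.pow 2).div ((continuousOn_id.pow 2).mul (hg.continuousOn_g.mul hω))
      fun s hs => (hden s hs).ne'
  have hgω : ContinuousOn (fun s => g s * D.ω (haz g s)) (Ioo 0 R) := hg.continuousOn_g.mul hω
  have hint : ∀ {f : ℝ → ℝ}, ContinuousOn f (Ioo 0 R) → ∀ t ∈ Icc α β,
      IntervalIntegrable f volume t β := fun hf t ht =>
    (hf.mono ((Icc_subset_Icc ht.1 le_rfl).trans hsub)).intervalIntegrable_of_Icc ht.2
  set P : ℝ → ℝ := fun t => ∫ s in t..β, p s with hP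
  have hGW : ∀ t ∈ Icc α β, ∫ s in t..β, g s * D.ω (haz g s) ≤ tail g t * D.W (haz g t) := by
    intro t ht
    have hsub' : Icc t β ⊆ Ioo 0 R := (Icc_subset_Icc ht.1 le_rfl).trans hsub
    have h := intervalIntegral.integral_le_sub_of_hasDeriv_right_of_le (a := t) (b := β)
      (g := fun s => -(tail g s * D.W (haz g s)))
      (g' := fun s => g s * (D.W (haz g s) - D.dW (haz g s)))
      (φ := fun s => g s * D.ω (haz g s)) ht.2
      ((hG.mul hW).neg.mono hsub')
      (fun s hs => ?_) ((hgω.mono hsub').integrableOn_Icc)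
      (fun s hs => mul_le_mul_of_nonneg_left
        (hD.super _ (hg.haz_pos (hsub' (Ioo_subset_Icc_self hs)))) (hg.nonneg s))
    · have hβ' : β ∈ Ioo 0 R := hsub ⟨hαβ, le_rfl⟩
      have := mul_nonneg (hg.tail_pos' hβ').le (hD.W_nonneg _ (hg.haz_pos hβ'))
      linarith
    · have hs' := hsub' (Ioo_subset_Icc_self hs)
      refine HasDerivAt.hasDerivWithinAt ?_
      refine (((hg.tail_hasDerivAt hs').fun_mul
        ((hD.W_deriv _ (hg.haz_pos hs')).comp s (hg.haz_hasDerivAt hs'))).fun_neg).congr_deriv ?_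
      simp only [Function.comp_apply]
      field_simp [(hg.tail_pos' hs').ne']
      ring
  have hcauchy : ∀ t ∈ Icc α β, (∫ s in t..β, a s) ^ 2 ≤
      tail g t * D.W (haz g t) * P t := by
    intro t ht
    have hsub' : Icc t β ⊆ Ioo 0 R := (Icc_subset_Icc ht.1 le_rfl).trans hsub
    set d := ∫ s in t..β, a s with hd
    have hGW0 : 0 < tail g t * D.W (haz g t) :=
      mul_pos (hg.tail_pos' (hsub ht)) (hD.W_pos (hg.haz_pos (hsub ht)))
    set l := d / (tail g t * D.W (haz g t)) with hl
    have h1 : ∫ s in t..β, 2 * l * a s ≤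
        ∫ s in t..β, (l ^ 2 * (g s * D.ω (haz g s)) + p s) := by
      refine intervalIntegral.integral_mono_on ht.2 ((hint hac t ht).const_mul _)
        (((hint hgω t ht).const_mul _).add (hint hpc t ht)) fun s hs => ?_
      have hs' := hsub' hs
      have hgω' := mul_pos (hg.g_pos hs') (hD.ω_pos _ (hg.haz_pos hs'))
      have e : p s = a s ^ 2 / (g s * D.ω (haz g s)) := by
        simp only [hp, ha]; rw [div_pow, div_div]
      rw [e]
      have key : 0 ≤ (l * (g s * D.ω (haz g s)) - a s) ^ 2 / (g s * D.ω (haz g s)) :=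
        div_nonneg (sq_nonneg _) hgω'.le
      have e2 : (l * (g s * D.ω (haz g s)) - a s) ^ 2 / (g s * D.ω (haz g s)) =
          l ^ 2 * (g s * D.ω (haz g s)) + a s ^ 2 / (g s * D.ω (haz g s)) - 2 * l * a s := by
        have := (hD.ω_pos _ (hg.haz_pos hs')).ne'
        field_simp [(hg.g_pos hs').ne']
        ring
      linarith
    rw [intervalIntegral.integral_const_mul, intervalIntegral.integral_add
      ((hint hgω t ht).const_mul _) (hint hpc t ht), intervalIntegral.integral_const_mul] at h1
    have h2 := mul_le_mul_of_nonneg_left (hGW t ht) (sq_nonneg l)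
    have h3 : 2 * l * d ≤ l ^ 2 * (tail g t * D.W (haz g t)) + P t := by
      rw [← hd] at h1
      show _ ≤ _ + ∫ s in t..β, p s
      linarith
    have e3 : l * (tail g t * D.W (haz g t)) = d := div_mul_cancel₀ _ hGW0.ne'
    have e4 : l ^ 2 * (tail g t * D.W (haz g t)) = l * d := by rw [sq, mul_assoc, e3]
    have h4 : l * d ≤ P t := by linarith
    calc d ^ 2 = tail g t * D.W (haz g t) * (l * d) := by rw [sq]; nth_rewrite 1 [← e3]; ring
      _ ≤ _ := mul_le_mul_of_nonneg_left h4 hGW0.le
  have hcP : ContinuousOn P (Icc α β) := by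
    have h : IntegrableOn p (uIcc α β) := by
      rw [uIcc_of_le hαβ]; exact (hpc.mono hsub).integrableOn_Icc
    have := intervalIntegral.continuousOn_primitive_interval_left h
    rwa [uIcc_of_le hαβ] at this
  have hca : ContinuousOn (fun t => ∫ s in t..β, a s) (Icc α β) := by
    have h : IntegrableOn a (uIcc α β) := by
      rw [uIcc_of_le hαβ]; exact (hac.mono hsub).integrableOn_Icc
    have := intervalIntegral.continuousOn_primitive_interval_left h
    rwa [uIcc_of_le hαβ] at this
  have hgk : ContinuousOn (fun t => g t * kap D g t) (Icc α β) :=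
    (hg.continuousOn_g.mul (hg.continuousOn_kap hD)).mono hsub
  have hWP : ContinuousOn (fun t => D.W (haz g t) * (g t / tail g t) * P t) (Icc α β) :=
    ((hW.mul (hg.continuousOn_g.div hG fun s hs => (hg.tail_pos' hs).ne')).mono hsub).mul hcP
  have hftc := intervalIntegral.integral_eq_sub_of_hasDerivAt_of_le hαβ
    (f := fun t => D.Γ (haz g t) * P t)
    (f' := fun t => D.W (haz g t) * (g t / tail g t) * P t - g t * kap D g t)
    (((hg.continuousOn_comp_haz (hD.Γ_cont.mono Ioi_subset_Ici_self)).mono hsub).mul hcP)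
    (fun t ht => ?_) ((hWP.sub hgk).intervalIntegrable_of_Icc hαβ)
  · rw [intervalIntegral.integral_sub (hWP.intervalIntegrable_of_Icc hαβ)
      (hgk.intervalIntegrable_of_Icc hαβ)] at hftc
    have hPα : 0 ≤ P α :=
      intervalIntegral.integral_nonneg hαβ fun s hs =>
        div_nonneg (sq_nonneg _) (hden s (hsub hs)).le
    have h1 : ∫ t in α..β, g t * ((∫ s in t..β, tail g s / s) / tail g t) ^ 2 ≤
        ∫ t in α..β, D.W (haz g t) * (g t / tail g t) * P t := by
      refine intervalIntegral.integral_mono_on hαβ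
        ((ContinuousOn.mul (hg.continuousOn_g.mono hsub)
          ((hca.div (hG.mono hsub) fun s hs => (hg.tail_pos' (hsub hs)).ne').pow 2)).intervalIntegrable_of_Icc hαβ)
        (hWP.intervalIntegrable_of_Icc hαβ) fun t ht => ?_
      have hG0 := hg.tail_pos' (hsub ht)
      calc g t * ((∫ s in t..β, tail g s / s) / tail g t) ^ 2
          = g t / tail g t ^ 2 * (∫ s in t..β, a s) ^ 2 := by rw [div_pow]; ring
        _ ≤ g t / tail g t ^ 2 * (tail g t * D.W (haz g t) * P t) :=
          mul_le_mul_of_nonneg_left (hcauchy t ht) (div_nonneg (hg.nonneg t) (sq_nonneg _))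
        _ = D.W (haz g t) * (g t / tail g t) * P t := by field_simp [hG0.ne']
    have hPβ : P β = 0 := intervalIntegral.integral_same
    have := mul_nonneg (hD.Γ_nonneg (hg.haz_pos (hsub ⟨le_rfl, hαβ⟩)).le) hPα
    rw [hPβ, mul_zero] at hftc
    linarith
  · have ht' := hsub (Ioo_subset_Icc_self ht)
    have hPd : HasDerivAt P (-p t) t := intervalIntegral.integral_hasDerivAt_left
      (hint hpc t (Ioo_subset_Icc_self ht))
      (hpc.stronglyMeasurableAtFilter isOpen_Ioo t ht')
      (hpc.continuousAt (Ioo_mem_nhds ht'.1 ht'.2))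
    refine (((hD.Γ_deriv _ (hg.haz_pos ht')).comp t (hg.haz_hasDerivAt ht')).fun_mul hPd).congr_deriv ?_
    have e : g t * kap D g t = D.Γ (haz g t) * p t := by
      have := (hD.ω_pos _ (hg.haz_pos ht')).ne'
      simp only [hp, kap, vrat]
      field_simp [(hg.g_pos ht').ne', (hg.tail_pos' ht').ne', ht'.1.ne']
    rw [e]
    simp only [Function.comp_apply]
    ring

/-- Cauchy's bound for the variance of the logarithm. -/
theorem pvar_le_kap (hD : D.Regular)
    (hI : IntegrableOn (fun t => g t * kap D g t) (Ioo 0 R)) :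
    tot g * pvar g ≤ ∫ t in Ioo 0 R, g t * kap D g t := by
  obtain ⟨hw, hpv⟩ := hg.pvar_eq
  set I := ∫ t in Ioo 0 R, g t * kap D g t with hIdef
  have hnn : ∀ᵐ t ∂volume.restrict (Ioo 0 R), 0 ≤ g t * kap D g t :=
    (ae_restrict_mem measurableSet_Ioo).mono fun t ht =>
      mul_nonneg (hg.g_pos ht).le (hg.kap_nonneg hD ht)
  have key : ∀ α γ : ℝ, 0 < α → α ≤ γ → γ < R →
      ∫ t in α..γ, g t * excess g R t ^ 2 ≤ I := by
    intro α γ hα hαγ hγ
    set C := ∫ t in α..γ, 2 * (g t * excess g R t / tail g t) with hC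
    have hsubγ : Icc α γ ⊆ Ioo 0 R := Icc_subset_Ioo hα hγ
    have hbound : ∀ β ∈ Ioo γ R, ∫ t in α..γ, g t * excess g R t ^ 2 ≤
        I + C * ∫ s in β..R, tail g s / s := by
      intro β hβ
      have hαβ : α ≤ β := hαγ.trans hβ.1.le
      have hsub : Icc α β ⊆ Ioo 0 R := Icc_subset_Ioo hα hβ.2
      have hca : ContinuousOn (fun t => ∫ s in t..β, tail g s / s) (Icc α β) := by
        have h : IntegrableOn (fun s => tail g s / s) (uIcc α β) := by
          rw [uIcc_of_le hαβ]
          exact (((hg.tail_continuousOn.mono Ioo_subset_Icc_self).div continuousOn_id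
            fun s hs => hs.1.ne').mono hsub).integrableOn_Icc
        have := intervalIntegral.continuousOn_primitive_interval_left h
        rwa [uIcc_of_le hαβ] at this
      have hfc : ContinuousOn
          (fun t => g t * ((∫ s in t..β, tail g s / s) / tail g t) ^ 2) (Icc α β) :=
        ContinuousOn.mul (hg.continuousOn_g.mono hsub)
          ((hca.div (hg.tail_continuousOn.mono (hsub.trans Ioo_subset_Icc_self))
            fun s hs => (hg.tail_pos' (hsub hs)).ne').pow 2)
      have h1 : ∫ t in α..β, g t * kap D g t ≤ I := by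
        rw [intervalIntegral.integral_of_le hαβ, ← integral_Icc_eq_integral_Ioc]
        exact setIntegral_mono_set hI hnn (Eventually.of_forall fun t ht => hsub ht)
      have h2 : ∫ t in α..γ, g t * ((∫ s in t..β, tail g s / s) / tail g t) ^ 2 ≤
          ∫ t in α..β, g t * ((∫ s in t..β, tail g s / s) / tail g t) ^ 2 :=
        intervalIntegral.integral_mono_interval le_rfl hαγ hβ.1.le
          ((ae_restrict_mem measurableSet_Ioc).mono fun t _ =>
            mul_nonneg (hg.nonneg t) (sq_nonneg _))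
          (hfc.intervalIntegrable_of_Icc hαβ)
      have h3 := h2.trans ((hg.excess_sq_le_kap hD hα hαβ hβ.2).trans h1)
      have hc1 : ContinuousOn (fun t => 2 * (g t * excess g R t / tail g t)) (Icc α γ) :=
        (continuousOn_const.mul ((hg.continuousOn_g.mul hg.continuousOn_excess).div
          (hg.tail_continuousOn.mono Ioo_subset_Icc_self) fun t ht => (hg.tail_pos' ht).ne')).mono
          hsubγ
      have hc2 : ContinuousOn (fun t => g t * excess g R t ^ 2) (Icc α γ) :=
        (hg.continuousOn_g.mul (hg.continuousOn_excess.pow 2)).mono hsubγ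
      set δ := ∫ s in β..R, tail g s / s with hδ
      have hi2 := (hc1.intervalIntegrable_of_Icc (μ := volume) hαγ).mul_const δ
      calc ∫ t in α..γ, g t * excess g R t ^ 2
          ≤ ∫ t in α..γ, (g t * ((∫ s in t..β, tail g s / s) / tail g t) ^ 2 +
              2 * (g t * excess g R t / tail g t) * δ) := by
            refine intervalIntegral.integral_mono_on hαγ (hc2.intervalIntegrable_of_Icc hαγ)
              (((hfc.mono (Icc_subset_Icc le_rfl hβ.1.le)).intervalIntegrable_of_Icc hαγ).add hi2)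
              fun t ht => ?_
            have ht' := hsubγ ht
            have hG := hg.tail_pos' ht'
            have hsplit : (∫ s in t..β, tail g s / s) + δ = ∫ s in t..R, tail g s / s :=
              intervalIntegral.integral_add_adjacent_intervals
                ((((hg.tail_continuousOn.mono Ioo_subset_Icc_self).div continuousOn_id
                  fun s hs => hs.1.ne').mono
                  (Icc_subset_Ioo ht'.1 hβ.2)).intervalIntegrable_of_Icc (ht.2.trans hβ.1.le))
                (hg.intervalInt_tail_div (hsub ⟨hαβ, le_rfl⟩).1 hβ.2.le)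
            have e : (∫ s in t..β, tail g s / s) / tail g t = excess g R t - δ / tail g t := by
              rw [excess, ← hsplit]; ring
            rw [e]
            have : 0 ≤ g t * (δ / tail g t) ^ 2 := mul_nonneg (hg.nonneg t) (sq_nonneg _)
            have e2 : g t * (excess g R t - δ / tail g t) ^ 2 +
                2 * (g t * excess g R t / tail g t) * δ =
                g t * excess g R t ^ 2 + g t * (δ / tail g t) ^ 2 := by ring
            linarith
        _ = _ := by
            rw [intervalIntegral.integral_add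
              ((hfc.mono (Icc_subset_Icc le_rfl hβ.1.le)).intervalIntegrable_of_Icc hαγ) hi2,
              intervalIntegral.integral_mul_const]
        _ ≤ I + C * δ := by linarith
    have hlim : Tendsto (fun β => I + C * ∫ s in β..R, tail g s / s) (𝓝[<] R) (𝓝 I) := by
      have h : IntegrableOn (fun s => tail g s / s) (uIcc γ R) := by
        rw [uIcc_of_le hγ.le]
        exact ((hg.tail_continuousOn.mono (Icc_subset_Icc (hα.le.trans hαγ) le_rfl)).div
          continuousOn_id fun s hs => (hα.trans_le (hαγ.trans hs.1)).ne').integrableOn_Icc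
      have h2 := intervalIntegral.continuousOn_primitive_interval_left h R
        (by rw [uIcc_of_le hγ.le]; exact ⟨hγ.le, le_rfl⟩)
      rw [uIcc_of_le hγ.le, ContinuousWithinAt, intervalIntegral.integral_same] at h2
      have h3 := h2.mono_left (nhdsWithin_mono _ (Ioo_subset_Icc_self (a := γ)))
      rw [nhdsWithin_Ioo_eq_nhdsLT hγ] at h3
      simpa using (h3.const_mul C).const_add I
    exact ge_of_tendsto hlim (eventually_of_mem (Ioo_mem_nhdsLT hγ) hbound)
  obtain ⟨a, b, ha, hb, hab, hta, htb⟩ := exists_cover hg.R_pos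
  have hc : AECover (volume.restrict (Ioo 0 R)) atTop fun n => Icc (a n) (b n) :=
    aecover_Ioo_of_Icc (tendsto_nhdsWithin_iff.1 hta).1 (tendsto_nhdsWithin_iff.1 htb).1
  rw [hpv]
  refine le_of_tendsto (hc.integral_tendsto_of_countably_generated hw)
    (Eventually.of_forall fun n => ?_)
  rw [Measure.restrict_restrict measurableSet_Icc,
    inter_eq_left.2 (Icc_subset_Ioo (ha n).1 (hb n).2), integral_Icc_eq_integral_Ioc,
    ← intervalIntegral.integral_of_le (hab n)]
  exact key _ _ (ha n).1 (hab n) (hb n).2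

end Prof

/-- A certificate proves the one-variable inequality. -/
theorem certSound : CertSound := by
  intro D A C a hA hD hV ha g R hg
  set J : ℝ → ℝ := fun t => g t * D.m (haz g t) + g t * Real.log (vrat g t) +
    C * (g t * (rate g t * (2 * haz g t - 1) - rate g t ^ 2 * haz g t)) with hJ
  have hm1 : IntegrableOn (fun t => g t * D.m (haz g t)) (Ioo 0 R) :=
    (hg.integrable_haz_iff D.m).2 hD.m_int
  have hm2 := hg.integrable_mul_log_vrat
  have hm3 := hg.integrable_mul_curv.const_mul C
  have hm12 : IntegrableOn (fun t => g t * D.m (haz g t) + g t * Real.log (vrat g t)) (Ioo 0 R) :=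
    hm1.add hm2
  have hJi : IntegrableOn J (Ioo 0 R) := hm12.add hm3
  set Φ : ℝ → ℝ := fun t => Real.log (haz g t / vrat g t) + D.β (haz g t) * (haz g t / vrat g t) +
    D.γ (haz g t) * (haz g t / vrat g t) ^ 2 with hΦ
  set F : ℝ → ℝ := fun t => tail g t * Φ t with hF
  have hFd : ∀ t ∈ Ioo 0 R, ∃ d, HasDerivWithinAt F d (Ioi t) t ∧
      J t + A * (g t * kap D g t) ≤ d := by
    intro t ht
    set u := haz g t with hu
    set z := u / vrat g t with hz
    set r := rate g t with hr
    set h := g t / tail g t with hh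
    have hu0 : 0 < u := hg.haz_pos ht
    have hv0 := hg.vrat_pos ht
    have hG := hg.tail_pos' ht
    obtain ⟨hz0, hz1, hz2⟩ : 0 < z ∧ z ≤ 1 ∧ u ≤ z * (Real.exp u - 1) := hg.zrat_mem ht
    have hud := (hg.haz_hasDerivAt ht).hasDerivWithinAt (s := Ioi t)
    have hzd : HasDerivWithinAt (fun s => haz g s / vrat g s)
        (h * (z * ((1 - z) / u - 1 + r))) (Ioi t) t := by
      refine (hud.fun_div (hg.vrat_hasDerivRight ht) hv0.ne').congr_deriv ?_
      rw [hz, ← hu, ← hr, ← hh]
      field_simp [hu0.ne']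
      ring
    have hβd := (hD.β_deriv u hu0).comp_hasDerivWithinAt t hud
    have hγd := (hD.γ_deriv u hu0).comp_hasDerivWithinAt t hud
    have hΦd := ((hzd.log hz0.ne').fun_add (hβd.fun_mul hzd)).fun_add (hγd.fun_mul (hzd.fun_pow 2))
    refine ⟨_, (hg.tail_hasDerivAt ht).hasDerivWithinAt.fun_mul hΦd, ?_⟩
    have hval := hV u z r hu0 hz0.le hz1 hz2 (hg.rate_nonneg ht) (hg.rate_le_one ht)
    have hgt := mul_le_mul_of_nonneg_left hval (hg.g_pos ht).le
    have e1 : tail g t * h = g t := by rw [hh]; field_simp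
    have e2 : D.Γ u / (u ^ 2 * D.ω u) * z ^ 2 = kap D g t := by
      rw [hz, kap, ← hu]
      field_simp [hu0.ne', (hD.ω_pos u hu0).ne']
    have e3 : Real.log z = Real.log u - Real.log (vrat g t) := by
      rw [hz, Real.log_div hu0.ne' hv0.ne']
    have hg' : g t = h * tail g t := by rw [← e1]; ring
    have e4 : h * (z * ((1 - z) / u - 1 + r)) / z = h * ((1 - z) / u - 1 + r) := by
      field_simp [hz0.ne']
    simp only [Function.comp_apply, ← hu, ← hz, ← hh, e4, hJ, CertData.psi, CertData.S, hΦ] at hgt ⊢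
    rw [← hr, ← e2]
    rw [e3]
    simp only [Nat.cast_ofNat, show (2:ℕ) - 1 = 1 from rfl, pow_one]
    rw [hg'] at hgt ⊢
    linarith
  have hlo : ∀ t ∈ Ioo 0 R, 0 ≤ g t * kap D g t := fun t ht =>
    mul_nonneg (hg.g_pos ht).le (hg.kap_nonneg hD ht)
  have hFc : ContinuousOn F (Ioo 0 R) := by
    have hzc : ContinuousOn (fun t => haz g t / vrat g t) (Ioo 0 R) :=
      hg.continuousOn_haz'.div hg.vrat_continuousOn fun t ht => (hg.vrat_pos ht).ne'
    exact (hg.tail_continuousOn.mono Ioo_subset_Icc_self).mul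
      (((hzc.log fun t ht => (hg.zrat_mem ht).1.ne').add
        ((hg.continuousOn_comp_haz (hD.β_cont.mono Ioi_subset_Ici_self)).mul hzc)).add
        ((hg.continuousOn_comp_haz (hD.γ_cont.mono Ioi_subset_Ici_self)).mul (hzc.pow 2)))
  -- the two boundary limits
  have hF0 : Tendsto F (𝓝[>] (0:ℝ)) (𝓝 (tot g * (D.β 0 + D.γ 0))) := by
    have hev : ∀ᶠ t in 𝓝[>] (0:ℝ), t ∈ Ioo 0 R := Ioo_mem_nhdsGT hg.R_pos
    have hz : Tendsto (fun t => haz g t / vrat g t) (𝓝[>] (0:ℝ)) (𝓝 1) := by
      refine tendsto_of_tendsto_of_tendsto_of_le_of_le' (g := fun t => Real.exp (-haz g t))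
        (h := fun _ => 1) ?_ tendsto_const_nhds
        (hev.mono fun t ht => hg.exp_neg_le_zrat ht) (hev.mono fun t ht => (hg.zrat_mem ht).2.1)
      simpa [Function.comp_def] using
        (Real.continuous_exp.tendsto _).comp hg.tendsto_haz_zero.neg
    have hu : Tendsto (haz g) (𝓝[>] (0:ℝ)) (𝓝[Ici 0] 0) :=
      tendsto_nhdsWithin_iff.2 ⟨hg.tendsto_haz_zero, hev.mono fun t ht => (hg.haz_pos ht).le⟩
    have hβ := (hD.β_cont 0 self_mem_Ici).tendsto.comp hu
    have hγ := (hD.γ_cont 0 self_mem_Ici).tendsto.comp hu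
    have hG : Tendsto (tail g) (𝓝[>] (0:ℝ)) (𝓝 (tot g)) := by
      have h := hg.tail_continuousOn 0 ⟨le_rfl, hg.R_pos.le⟩
      rw [ContinuousWithinAt, Prof.tail_zero] at h
      rw [← nhdsWithin_Ioo_eq_nhdsGT hg.R_pos]
      exact h.mono_left (nhdsWithin_mono _ Ioo_subset_Icc_self)
    have := hG.mul (((hz.log one_ne_zero).add (hβ.mul hz)).add (hγ.mul (hz.pow 2)))
    simpa [hF, hΦ, Function.comp_def] using this
  have hFR : Tendsto F (𝓝[<] R) (𝓝 0) := by
    obtain ⟨cβ, hcβ⟩ := hD.β_bound
    obtain ⟨cγ, hcγ⟩ := hD.γ_bound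
    have hev : ∀ᶠ t in 𝓝[<] R, t ∈ Ioo 0 R := Ioo_mem_nhdsLT hg.R_pos
    have h1 := (Real.tendsto_pow_mul_exp_neg_atTop_nhds_zero 1).add
      ((Real.tendsto_pow_mul_exp_neg_atTop_nhds_zero 0).const_mul (cβ + cγ))
    have h2 := (h1.comp hg.tendsto_haz_R).const_mul (tot g)
    simp only [mul_zero, add_zero] at h2
    refine squeeze_zero_norm' (hev.mono fun t ht => ?_) h2
    have hu := hg.haz_pos ht
    obtain ⟨hz0, hz1, -⟩ := hg.zrat_mem ht
    have hlog : |Real.log (haz g t / vrat g t)| ≤ haz g t := by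
      have h3 := Real.log_le_log (Real.exp_pos _) (hg.exp_neg_le_zrat ht)
      rw [Real.log_exp] at h3
      exact abs_le.2 ⟨h3, (Real.log_nonpos hz0.le hz1).trans hu.le⟩
    have hΦb : |Φ t| ≤ haz g t + (cβ + cγ) := by
      refine (abs_add_three _ _ _).trans (by
        rw [abs_mul, abs_mul, abs_of_pos hz0, abs_of_pos (pow_pos hz0 2)]
        have a1 := hcβ _ hu.le
        have a2 := hcγ _ hu.le
        have := mul_le_mul a1 hz1 hz0.le ((abs_nonneg _).trans a1)
        have := mul_le_mul a2 (pow_le_one₀ hz0.le hz1 (n := 2)) (sq_nonneg _)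
          ((abs_nonneg _).trans a2)
        linarith)
    simp only [Function.comp_apply, pow_one, pow_zero, one_mul, Real.norm_eq_abs, hF, abs_mul,
      abs_of_pos (hg.tail_pos' ht)]
    have e : tot g * Real.exp (-haz g t) = tail g t := by
      rw [hg.exp_neg_haz ht.1.le ht.2, mul_div_cancel₀ _ hg.tot_pos.ne']
    calc tail g t * |Φ t| ≤ tail g t * (haz g t + (cβ + cγ)) :=
          mul_le_mul_of_nonneg_left hΦb (hg.tail_pos' ht).le
      _ = _ := by rw [← e]; ring
  -- exhaust `(0, R)`
  obtain ⟨α, β, hα, hβ, hab, hta, htb⟩ := exists_cover hg.R_pos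
  have hc : AECover (volume.restrict (Ioo 0 R)) atTop fun n => Icc (α n) (β n) :=
    aecover_Ioo_of_Icc (tendsto_nhdsWithin_iff.1 hta).1 (tendsto_nhdsWithin_iff.1 htb).1
  have hsub : ∀ n, Icc (α n) (β n) ⊆ Ioo 0 R := fun n => Icc_subset_Ioo (hα n).1 (hβ n).2
  have hki : ∀ n, IntegrableOn (fun t => g t * kap D g t) (Icc (α n) (β n)) := fun n =>
    ((hg.continuousOn_g.mul (hg.continuousOn_kap hD)).mono (hsub n)).integrableOn_Icc
  have hstep : ∀ n, (∫ t in Icc (α n) (β n), J t) + A * ∫ t in Icc (α n) (β n), g t * kap D g t ≤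
      F (β n) - F (α n) := by
    intro n
    have hJn := hJi.mono_set (hsub n)
    choose! d hd hle using hFd
    have h := intervalIntegral.integral_le_sub_of_hasDeriv_right_of_le
      (φ := fun t => J t + A * (g t * kap D g t)) (hab n)
      (hFc.mono (hsub n)) (fun t ht => hd t (hsub n (Ioo_subset_Icc_self ht)))
      (hJn.add ((hki n).const_mul A)) (fun t ht => hle t (hsub n (Ioo_subset_Icc_self ht)))
    rwa [intervalIntegral.integral_of_le (hab n), ← integral_Icc_eq_integral_Ioc,
      integral_add hJn ((hki n).const_mul A), integral_const_mul] at h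
  have hmeas : ∀ (f : ℝ → ℝ) n, ∫ t in Icc (α n) (β n), f t ∂(volume.restrict (Ioo 0 R)) =
      ∫ t in Icc (α n) (β n), f t := fun f n => by
    rw [Measure.restrict_restrict measurableSet_Icc, inter_eq_left.2 (hsub n)]
  have hJlim : Tendsto (fun n => ∫ t in Icc (α n) (β n), J t) atTop (𝓝 (∫ t in Ioo 0 R, J t)) := by
    have := hc.integral_tendsto_of_countably_generated hJi
    simpa only [hmeas] using this
  set L := 0 - tot g * (D.β 0 + D.γ 0) - ∫ t in Ioo 0 R, J t with hL
  have hup : Tendsto (fun n => F (β n) - F (α n) - ∫ t in Icc (α n) (β n), J t) atTop (𝓝 L) :=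
    ((hFR.comp htb).sub (hF0.comp hta)).sub hJlim
  have hfin : A * (tot g * pvar g) ≤ L := by
    rcases hA.eq_or_lt with rfl | hA0
    · rw [zero_mul]
      refine ge_of_tendsto hup (Eventually.of_forall fun n => ?_)
      have := hstep n
      linarith
    · have hb : ∀ᶠ n in atTop,
          ∫ t in Icc (α n) (β n), g t * kap D g t ∂(volume.restrict (Ioo 0 R)) ≤ (L + 1) / A := by
        filter_upwards [hup.eventually (eventually_le_nhds (lt_add_one L))] with n hn
        rw [hmeas, le_div_iff₀' hA0]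
        linarith [hstep n]
      have hI : IntegrableOn (fun t => g t * kap D g t) (Ioo 0 R) :=
        hc.integrable_of_integral_bounded_of_nonneg_ae _
          (fun n => (hki n).mono_measure Measure.restrict_le_self)
          ((ae_restrict_mem measurableSet_Ioo).mono hlo) hb
      have hIlim := hc.integral_tendsto_of_countably_generated hI
      simp only [hmeas] at hIlim
      refine le_trans (mul_le_mul_of_nonneg_left (hg.pvar_le_kap hD hI) hA0.le) ?_
      refine le_of_tendsto_of_tendsto' (hIlim.const_mul A) hup fun n => ?_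
      linarith [hstep n]
  have hJint : ∫ t in Ioo 0 R, J t = tot g * (∫ u in Ioi (0:ℝ), Real.exp (-u) * D.m u)
      - tot g * gain g + C * (tot g * curv g) := by
    rw [hJ, integral_add (f := fun t => g t * D.m (haz g t) + g t * Real.log (vrat g t)) hm12 hm3,
      integral_add hm1 hm2, integral_const_mul, hg.integral_haz, hg.gain_eq, curv, hg.avg_eq]
    have hV := hg.tot_pos.ne'
    field_simp
    ring
  rw [hL, hJint] at hfin
  have hV := hg.tot_pos
  have : tot g * (-a) ≤ tot g * (gain g - A * (pvar g - 1) - C * curv g) := by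
    have := mul_le_mul_of_nonneg_left ha hV.le
    nlinarith
  exact le_of_mul_le_mul_left this hV

end Vale.Agent.P254.Uncond
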