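import Vale.Agent.P254.Uncond.Knots

/-!
The discrete recursion in dimensions 4 to 14: a path of steps ending at the weight `21/40`.
-/

namespace Vale.Agent.P254.Uncond

theorem chain4 (K : Knots) : Potential 4 (21 / 40) (23181/500000:ℝ) := by
  have h0 : Potential 0 (179/100000:ℝ) 0 := potential_zero _
  have h1 : Potential 1 (67/3125:ℝ) (33/200000:ℝ) :=
    h0.link K.k0 K.k1 (18357/515000:ℝ) (1/12875:ℝ) (by norm_num)
  have h2 : Potential 2 (13931/100000:ℝ) (1069/1000000:ℝ) :=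
    h1.link K.k0 K.k1 (27579/64375:ℝ) (1/5150:ℝ) (by norm_num)
  have h3 : Potential 3 (8587/25000:ℝ) (6227/1000000:ℝ) :=
    h2.link K.k1 K.k2 (55043/257500:ℝ) (404907/515000:ℝ) (by norm_num)
  have h4 : Potential 4 (21/40:ℝ) (23181/500000:ℝ) :=
    h3.link K.k3 K.k4 (8469/130000:ℝ) (121529/130000:ℝ) (by norm_num)
  intro A hA hV
  exact h4 hA hV

theorem chain5 (K : Knots) : Potential 5 (21 / 40) (52709/1000000:ℝ) := by
  have h0 : Potential 0 (585001/1000000000:ℝ) 0 := potential_zero _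
  have h1 : Potential 1 (351/50000:ℝ) (27/500000:ℝ) :=
    h0.link K.k0 K.k1 (60254863/5150000000:ℝ) (3/128750000:ℝ) (by norm_num)
  have h2 : Potential 2 (4557/100000:ℝ) (7/20000:ℝ) :=
    h1.link K.k0 K.k1 (36033/257500:ℝ) (3/12875:ℝ) (by norm_num)
  have h3 : Potential 3 (10631/50000:ℝ) (1631/1000000:ℝ) :=
    h2.link K.k0 K.k1 (469131/515000:ℝ) (3/12875:ℝ) (by norm_num)
  have h4 : Potential 4 (4693/12500:ℝ) (3903/250000:ℝ) :=
    h3.link K.k2 K.k3 (101823/272500:ℝ) (85331/136250:ℝ) (by norm_num)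
  have h5 : Potential 5 (21/40:ℝ) (52709/1000000:ℝ) :=
    h4.link K.k4 K.k5 (18079/24250:ℝ) (30853/121250:ℝ) (by norm_num)
  intro A hA hV
  exact h5 hA hV

theorem chain6 (K : Knots) : Potential 6 (21 / 40) (3431/62500:ℝ) := by
  have h0 : Potential 0 (312501/1000000000:ℝ) 0 := potential_zero _
  have h1 : Potential 1 (3/800:ℝ) (29/1000000:ℝ) :=
    h0.link K.k0 K.k1 (32187363/5150000000:ℝ) (3/128750000:ℝ) (by norm_num)
  have h2 : Potential 2 (609/25000:ℝ) (187/1000000:ℝ) :=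
    h1.link K.k0 K.k1 (7713/103000:ℝ) (3/51500:ℝ) (by norm_num)
  have h3 : Potential 3 (5683/50000:ℝ) (109/125000:ℝ) :=
    h2.link K.k0 K.k1 (62697/128750:ℝ) (3/25750:ℝ) (by norm_num)
  have h4 : Potential 4 (2623/10000:ℝ) (739/250000:ℝ) :=
    h3.link K.k1 K.k2 (46787/64375:ℝ) (70351/257500:ℝ) (by norm_num)
  have h5 : Potential 5 (39777/100000:ℝ) (4137/200000:ℝ) :=
    h4.link K.k3 K.k4 (91187/104000:ℝ) (12807/104000:ℝ) (by norm_num)
  have h6 : Potential 6 (21/40:ℝ) (3431/62500:ℝ) :=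
    h5.link K.k4 K.k5 (5061/9700:ℝ) (231891/485000:ℝ) (by norm_num)
  intro A hA hV
  exact h6 hA hV

theorem chain7 (K : Knots) : Potential 7 (21 / 40) (58119/1000000:ℝ) := by
  have h0 : Potential 0 (126667/1000000000:ℝ) 0 := potential_zero _
  have h1 : Potential 1 (19/12500:ℝ) (3/250000:ℝ) :=
    h0.link K.k0 K.k1 (13046621/5150000000:ℝ) (1/128750000:ℝ) (by norm_num)
  have h2 : Potential 2 (491/50000:ℝ) (19/250000:ℝ) :=
    h1.link K.k0 K.k1 (1927/64375:ℝ) (3/12875:ℝ) (by norm_num)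
  have h3 : Potential 3 (4579/100000:ℝ) (11/31250:ℝ) :=
    h2.link K.k0 K.k1 (50463/257500:ℝ) (11/51500:ℝ) (by norm_num)
  have h4 : Potential 4 (1073/6250:ℝ) (1317/1000000:ℝ) :=
    h3.link K.k0 K.k1 (471377/515000:ℝ) (13/51500:ℝ) (by norm_num)
  have h5 : Potential 5 (3723/12500:ℝ) (7603/1000000:ℝ) :=
    h4.link K.k2 K.k3 (53343/68125:ℝ) (14777/68125:ℝ) (by norm_num)
  have h6 : Potential 6 (41429/100000:ℝ) (27087/1000000:ℝ) :=
    h5.link K.k3 K.k4 (135609/260000:ℝ) (124389/260000:ℝ) (by norm_num)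
  have h7 : Potential 7 (21/40:ℝ) (58119/1000000:ℝ) :=
    h6.link K.k4 K.k5 (34609/97000:ℝ) (155961/242500:ℝ) (by norm_num)
  intro A hA hV
  exact h7 hA hV

theorem chain8 (K : Knots) : Potential 8 (21 / 40) (59503/1000000:ℝ) := by
  have h0 : Potential 0 (72693/1000000000:ℝ) 0 := potential_zero _
  have h1 : Potential 1 (218077/250000000:ℝ) (7/1000000:ℝ) :=
    h0.link K.k0 K.k1 (7487219/5150000000:ℝ) (1/64375000:ℝ) (by norm_num)
  have h2 : Potential 2 (567/100000:ℝ) (11/250000:ℝ) :=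
    h1.link K.k0 K.k1 (22461911/1287500000:ℝ) (1/128750000:ℝ) (by norm_num)
  have h3 : Potential 3 (529/20000:ℝ) (51/250000:ℝ) :=
    h2.link K.k0 K.k1 (58341/515000:ℝ) (3/51500:ℝ) (by norm_num)
  have h4 : Potential 4 (4959/50000:ℝ) (381/500000:ℝ) :=
    h3.link K.k0 K.k1 (2179/4120:ℝ) (3/51500:ℝ) (by norm_num)
  have h5 : Potential 5 (10803/50000:ℝ) (417/250000:ℝ) :=
    h4.link K.k0 K.k1 (4197/257500:ℝ) (25329/25750:ℝ) (by norm_num)
  have h6 : Potential 6 (32489/100000:ℝ) (1133/100000:ℝ) :=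
    h5.link K.k2 K.k3 (23106/68125:ℝ) (180051/272500:ℝ) (by norm_num)
  have h7 : Potential 7 (21351/50000:ℝ) (31077/1000000:ℝ) :=
    h6.link K.k3 K.k4 (16311/65000:ℝ) (24343/32500:ℝ) (by norm_num)
  have h8 : Potential 8 (21/40:ℝ) (59503/1000000:ℝ) :=
    h7.link K.k4 K.k5 (2778/12125:ℝ) (186903/242500:ℝ) (by norm_num)
  intro A hA hV
  exact h8 hA hV

theorem chain9 (K : Knots) : Potential 9 (21 / 40) (30227/500000:ℝ) := by
  have h0 : Potential 0 (33847/1000000000:ℝ) 0 := potential_zero _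
  have h1 : Potential 1 (203077/500000000:ℝ) (1/250000:ℝ) :=
    h0.link K.k0 K.k1 (3486041/5150000000:ℝ) (1/51500000:ℝ) (by norm_num)
  have h2 : Potential 2 (33/12500:ℝ) (21/1000000:ℝ) :=
    h1.link K.k0 K.k1 (20916911/2575000000:ℝ) (1/257500000:ℝ) (by norm_num)
  have h3 : Potential 3 (1229/100000:ℝ) (19/200000:ℝ) :=
    h2.link K.k0 K.k1 (6753/128750:ℝ) (9/51500:ℝ) (by norm_num)
  have h4 : Potential 4 (4607/100000:ℝ) (177/500000:ℝ) :=
    h3.link K.k0 K.k1 (126447/515000:ℝ) (7/51500:ℝ) (by norm_num)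
  have h5 : Potential 5 (737/5000:ℝ) (1131/1000000:ℝ) :=
    h4.link K.k0 K.k1 (474281/515000:ℝ) (3/12875:ℝ) (by norm_num)
  have h6 : Potential 6 (12521/50000:ℝ) (2043/500000:ℝ) :=
    h5.link K.k1 K.k2 (133/2575:ℝ) (24417/25750:ℝ) (by norm_num)
  have h7 : Potential 7 (4327/12500:ℝ) (7509/500000:ℝ) :=
    h6.link K.k3 K.k4 (129391/130000:ℝ) (591/130000:ℝ) (by norm_num)
  have h8 : Potential 8 (1366/3125:ℝ) (34297/1000000:ℝ) :=
    h7.link K.k3 K.k4 (2489/65000:ℝ) (62509/65000:ℝ) (by norm_num)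
  have h9 : Potential 9 (21/40:ℝ) (30227/500000:ℝ) :=
    h8.link K.k4 K.k5 (3109/24250:ℝ) (105689/121250:ℝ) (by norm_num)
  intro A hA hV
  exact h9 hA hV

theorem chain10 (K : Knots) : Potential 10 (21 / 40) (62211/1000000:ℝ) := by
  have h0 : Potential 0 (10321/500000000:ℝ) 0 := potential_zero _
  have h1 : Potential 1 (247693/1000000000:ℝ) (1/500000:ℝ) :=
    h0.link K.k0 K.k1 (1062953/2575000000:ℝ) (11/515000000:ℝ) (by norm_num)
  have h2 : Potential 2 (161/100000:ℝ) (13/1000000:ℝ) :=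
    h1.link K.k0 K.k1 (25512199/5150000000:ℝ) (9/515000000:ℝ) (by norm_num)
  have h3 : Potential 3 (3/400:ℝ) (29/500000:ℝ) :=
    h2.link K.k0 K.k1 (16503/515000:ℝ) (1/12875:ℝ) (by norm_num)
  have h4 : Potential 4 (2811/100000:ℝ) (27/125000:ℝ) :=
    h3.link K.k0 K.k1 (7713/51500:ℝ) (3/25750:ℝ) (by norm_num)
  have h5 : Potential 5 (8993/100000:ℝ) (69/100000:ℝ) :=
    h4.link K.k0 K.k1 (289313/515000:ℝ) (11/51500:ℝ) (by norm_num)
  have h6 : Potential 6 (149/800:ℝ) (287/200000:ℝ) :=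
    h5.link K.k0 K.k1 (103659/515000:ℝ) (41131/51500:ℝ) (by norm_num)
  have h7 : Potential 7 (1387/5000:ℝ) (717/100000:ℝ) :=
    h6.link K.k2 K.k3 (1389/2180:ℝ) (7907/21800:ℝ) (by norm_num)
  have h8 : Potential 8 (227/625:ℝ) (1217/62500:ℝ) :=
    h7.link K.k3 K.k4 (18869/26000:ℝ) (7129/26000:ℝ) (by norm_num)
  have h9 : Potential 9 (44533/100000:ℝ) (38143/1000000:ℝ) :=
    h8.link K.k4 K.k5 (84133/97000:ℝ) (12853/97000:ℝ) (by norm_num)
  have h10 : Potential 10 (21/40:ℝ) (62211/1000000:ℝ) :=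
    h9.link K.k4 K.k5 (2251/48500:ℝ) (462459/485000:ℝ) (by norm_num)
  intro A hA hV
  exact h10 hA hV

theorem chain11 (K : Knots) : Potential 11 (21 / 40) (31667/500000:ℝ) := by
  have h0 : Potential 0 (2121/200000000:ℝ) 0 := potential_zero _
  have h1 : Potential 1 (127253/1000000000:ℝ) (1/1000000:ℝ) :=
    h0.link K.k0 K.k1 (43687/206000000:ℝ) (7/515000000:ℝ) (by norm_num)
  have h2 : Potential 2 (827143/1000000000:ℝ) (7/1000000:ℝ) :=
    h1.link K.k0 K.k1 (13106999/5150000000:ℝ) (3/515000000:ℝ) (by norm_num)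
  have h3 : Potential 3 (193/50000:ℝ) (31/1000000:ℝ) :=
    h2.link K.k0 K.k1 (85195689/5150000000:ℝ) (1/257500000:ℝ) (by norm_num)
  have h4 : Potential 4 (723/50000:ℝ) (7/62500:ℝ) :=
    h3.link K.k0 K.k1 (19819/257500:ℝ) (3/25750:ℝ) (by norm_num)
  have h5 : Potential 5 (2313/50000:ℝ) (89/250000:ℝ) :=
    h4.link K.k0 K.k1 (74409/257500:ℝ) (3/25750:ℝ) (by norm_num)
  have h6 : Potential 6 (6553/50000:ℝ) (503/500000:ℝ) :=
    h5.link K.k0 K.k1 (238179/257500:ℝ) (3/25750:ℝ) (by norm_num)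
  have h7 : Potential 7 (21773/100000:ℝ) (2889/1000000:ℝ) :=
    h6.link K.k1 K.k2 (97463/257500:ℝ) (160011/257500:ℝ) (by norm_num)
  have h8 : Potential 8 (14973/50000:ℝ) (10109/1000000:ℝ) :=
    h7.link K.k2 K.k3 (175809/545000:ℝ) (184583/272500:ℝ) (by norm_num)
  have h9 : Potential 9 (943/2500:ℝ) (22987/1000000:ℝ) :=
    h8.link K.k3 K.k4 (8211/16250:ℝ) (16077/32500:ℝ) (by norm_num)
  have h10 : Potential 10 (4521/10000:ℝ) (8199/200000:ℝ) :=
    h9.link K.k4 K.k5 (3529/4850:ℝ) (6603/24250:ℝ) (by norm_num)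
  have h11 : Potential 11 (21/40:ℝ) (31667/500000:ℝ) :=
    h10.link K.k5 K.k6 (18447/19000:ℝ) (11/380:ℝ) (by norm_num)
  intro A hA hV
  exact h11 hA hV

theorem chain12 (K : Knots) : Potential 12 (21 / 40) (63943/1000000:ℝ) := by
  have h0 : Potential 0 (6759/1000000000:ℝ) 0 := potential_zero _
  have h1 : Potential 1 (81099/1000000000:ℝ) (1/1000000:ℝ) :=
    h0.link K.k0 K.k1 (695997/5150000000:ℝ) (9/515000000:ℝ) (by norm_num)
  have h2 : Potential 2 (527143/1000000000:ℝ) (1/200000:ℝ) :=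
    h1.link K.k0 K.k1 (8353177/5150000000:ℝ) (1/515000000:ℝ) (by norm_num)
  have h3 : Potential 3 (123/50000:ℝ) (1/50000:ℝ) :=
    h2.link K.k0 K.k1 (54295689/5150000000:ℝ) (1/257500000:ℝ) (by norm_num)
  have h4 : Potential 4 (23/2500:ℝ) (9/125000:ℝ) :=
    h3.link K.k0 K.k1 (12569/257500:ℝ) (1/5150:ℝ) (by norm_num)
  have h5 : Potential 5 (92/3125:ℝ) (227/1000000:ℝ) :=
    h4.link K.k0 K.k1 (23/125:ℝ) (0:ℝ) (by norm_num)
  have h6 : Potential 6 (8339/100000:ℝ) (641/1000000:ℝ) :=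
    h5.link K.k0 K.k1 (37869/64375:ℝ) (7/25750:ℝ) (by norm_num)
  have h7 : Potential 7 (1653/10000:ℝ) (637/500000:ℝ) :=
    h6.link K.k0 K.k1 (171077/515000:ℝ) (8598/12875:ℝ) (by norm_num)
  have h8 : Potential 8 (39/160:ℝ) (189/40000:ℝ) :=
    h7.link K.k2 K.k3 (46149/54500:ℝ) (4173/27250:ℝ) (by norm_num)
  have h9 : Potential 9 (3973/12500:ℝ) (3173/250000:ℝ) :=
    h8.link K.k2 K.k3 (339/5450:ℝ) (102207/109000:ℝ) (by norm_num)
  have h10 : Potential 10 (38891/100000:ℝ) (1029/40000:ℝ) :=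
    h9.link K.k3 K.k4 (83609/260000:ℝ) (176389/260000:ℝ) (by norm_num)
  have h11 : Potential 11 (22887/50000:ℝ) (21517/500000:ℝ) :=
    h10.link K.k4 K.k5 (59161/97000:ℝ) (23636/60625:ℝ) (by norm_num)
  have h12 : Potential 12 (21/40:ℝ) (63943/1000000:ℝ) :=
    h11.link K.k5 K.k6 (42507/47500:ℝ) (249/2375:ℝ) (by norm_num)
  intro A hA hV
  exact h12 hA hV

theorem chain13 (K : Knots) : Potential 13 (21 / 40) (1621/25000:ℝ) := by
  have h0 : Potential 0 (941/250000000:ℝ) 0 := potential_zero _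
  have h1 : Potential 1 (9033/200000000:ℝ) (1/1000000:ℝ) :=
    h0.link K.k0 K.k1 (24227/321875000:ℝ) (3/515000000:ℝ) (by norm_num)
  have h2 : Potential 2 (73393/250000000:ℝ) (3/1000000:ℝ) :=
    h1.link K.k0 K.k1 (186079/206000000:ℝ) (1/515000000:ℝ) (by norm_num)
  have h3 : Potential 3 (137/100000:ℝ) (3/250000:ℝ) :=
    h2.link K.k0 K.k1 (7559439/1287500000:ℝ) (1/64375000:ℝ) (by norm_num)
  have h4 : Potential 4 (513/100000:ℝ) (41/1000000:ℝ) :=
    h3.link K.k0 K.k1 (14051/515000:ℝ) (3/51500:ℝ) (by norm_num)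
  have h5 : Potential 5 (1639/100000:ℝ) (127/1000000:ℝ) :=
    h4.link K.k0 K.k1 (52579/515000:ℝ) (13/51500:ℝ) (by norm_num)
  have h6 : Potential 6 (2321/50000:ℝ) (179/500000:ℝ) :=
    h5.link K.k0 K.k1 (168597/515000:ℝ) (11/51500:ℝ) (by norm_num)
  have h7 : Potential 7 (373/3125:ℝ) (917/1000000:ℝ) :=
    h6.link K.k0 K.k1 (239023/257500:ℝ) (1/12875:ℝ) (by norm_num)
  have h8 : Potential 8 (19417/100000:ℝ) (1079/500000:ℝ) :=
    h7.link K.k1 K.k2 (39422/64375:ℝ) (24944/64375:ℝ) (by norm_num)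
  have h9 : Potential 9 (26551/100000:ℝ) (7071/1000000:ℝ) :=
    h8.link K.k2 K.k3 (304211/545000:ℝ) (60191/136250:ℝ) (by norm_num)
  have h10 : Potential 10 (33343/100000:ℝ) (989/62500:ℝ) :=
    h9.link K.k3 K.k4 (438977/520000:ℝ) (80917/520000:ℝ) (by norm_num)
  have h11 : Potential 11 (2493/6250:ℝ) (28703/1000000:ℝ) :=
    h10.link K.k3 K.k4 (42893/260000:ℝ) (217053/260000:ℝ) (by norm_num)
  have h12 : Potential 12 (2891/6250:ℝ) (45243/1000000:ℝ) :=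
    h11.link K.k4 K.k5 (6192/12125:ℝ) (29658/60625:ℝ) (by norm_num)
  have h13 : Potential 13 (21/40:ℝ) (1621/25000:ℝ) :=
    h12.link K.k5 K.k6 (39543/47500:ℝ) (2387/14250:ℝ) (by norm_num)
  intro A hA hV
  exact h13 hA hV

theorem chain14 (K : Knots) : Potential 14 (21 / 40) (65281/1000000:ℝ) := by
  have h0 : Potential 0 (2477/1000000000:ℝ) 0 := potential_zero _
  have h1 : Potential 1 (5943/200000000:ℝ) (1/1000000:ℝ) :=
    h0.link K.k0 K.k1 (254951/5150000000:ℝ) (9/515000000:ℝ) (by norm_num)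
  have h2 : Potential 2 (24143/125000000:ℝ) (1/500000:ℝ) :=
    h1.link K.k0 K.k1 (612101/1030000000:ℝ) (7/515000000:ℝ) (by norm_num)
  have h3 : Potential 3 (450667/500000000:ℝ) (1/125000:ℝ) :=
    h2.link K.k0 K.k1 (1243347/321875000:ℝ) (7/257500000:ℝ) (by norm_num)
  have h4 : Potential 4 (169/50000:ℝ) (27/1000000:ℝ) :=
    h3.link K.k0 K.k1 (46418601/2575000000:ℝ) (1/51500000:ℝ) (by norm_num)
  have h5 : Potential 5 (1079/100000:ℝ) (21/250000:ℝ) :=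
    h4.link K.k0 K.k1 (17277/257500:ℝ) (13/51500:ℝ) (by norm_num)
  have h6 : Potential 6 (611/20000:ℝ) (59/250000:ℝ) :=
    h5.link K.k0 K.k1 (110877/515000:ℝ) (13/51500:ℝ) (by norm_num)
  have h7 : Potential 7 (3927/50000:ℝ) (151/250000:ℝ) :=
    h6.link K.k0 K.k1 (12577/20600:ℝ) (3/12875:ℝ) (by norm_num)
  have h8 : Potential 8 (7489/50000:ℝ) (577/500000:ℝ) :=
    h7.link K.k0 K.k1 (110461/257500:ℝ) (14701/25750:ℝ) (by norm_num)
  have h9 : Potential 9 (4373/20000:ℝ) (3197/1000000:ℝ) :=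
    h8.link K.k1 K.k2 (1109/257500:ℝ) (256383/257500:ℝ) (by norm_num)
  have h10 : Potential 10 (3551/12500:ℝ) (4499/500000:ℝ) :=
    h9.link K.k2 K.k3 (34159/109000:ℝ) (18709/27250:ℝ) (by norm_num)
  have h11 : Potential 11 (8671/25000:ℝ) (18343/1000000:ℝ) :=
    h10.link K.k3 K.k4 (85619/130000:ℝ) (44359/130000:ℝ) (by norm_num)
  have h12 : Potential 12 (40751/100000:ℝ) (30973/1000000:ℝ) :=
    h11.link K.k3 K.k4 (1013/32500:ℝ) (31483/32500:ℝ) (by norm_num)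
  have h13 : Potential 13 (1867/4000:ℝ) (46807/1000000:ℝ) :=
    h12.link K.k4 K.k5 (10273/24250:ℝ) (279403/485000:ℝ) (by norm_num)
  have h14 : Potential 14 (21/40:ℝ) (65281/1000000:ℝ) :=
    h13.link K.k5 K.k6 (1471/1900:ℝ) (257/1140:ℝ) (by norm_num)
  intro A hA hV
  exact h14 hA hV

end Vale.Agent.P254.Uncond
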