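import Vale.Agent.P254.Uncond.Knots

/-!
The discrete recursion in dimensions 15 to 21: a path of steps ending at the weight `21/40`.
-/

namespace Vale.Agent.P254.Uncond

theorem chain15 (K : Knots) : Potential 15 (21 / 40) (13181/200000:ℝ) := by
  have h0 : Potential 0 (733/500000000:ℝ) 0 := potential_zero _
  have h1 : Potential 1 (17583/1000000000:ℝ) (1/1000000:ℝ) :=
    h0.link K.k0 K.k1 (75409/2575000000:ℝ) (9/515000000:ℝ) (by norm_num)
  have h2 : Potential 2 (57143/500000000:ℝ) (1/500000:ℝ) :=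
    h1.link K.k0 K.k1 (1810909/5150000000:ℝ) (7/515000000:ℝ) (by norm_num)
  have h3 : Potential 3 (266667/500000000:ℝ) (1/200000:ℝ) :=
    h2.link K.k0 K.k1 (5885709/2575000000:ℝ) (1/257500000:ℝ) (by norm_num)
  have h4 : Potential 4 (1/500:ℝ) (17/1000000:ℝ) :=
    h3.link K.k0 K.k1 (27466601/2575000000:ℝ) (1/51500000:ℝ) (by norm_num)
  have h5 : Potential 5 (639/100000:ℝ) (51/1000000:ℝ) :=
    h4.link K.k0 K.k1 (41/1030:ℝ) (1/10300:ℝ) (by norm_num)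
  have h6 : Potential 6 (181/10000:ℝ) (141/1000000:ℝ) :=
    h5.link K.k0 K.k1 (65757/515000:ℝ) (3/51500:ℝ) (by norm_num)
  have h7 : Potential 7 (2327/50000:ℝ) (359/1000000:ℝ) :=
    h6.link K.k0 K.k1 (18639/51500:ℝ) (1/25750:ℝ) (by norm_num)
  have h8 : Potential 8 (11053/100000:ℝ) (17/20000:ℝ) :=
    h7.link K.k0 K.k1 (239661/257500:ℝ) (1/25750:ℝ) (by norm_num)
  have h9 : Potential 9 (8817/50000:ℝ) (21/12500:ℝ) :=
    h8.link K.k1 K.k2 (203149/257500:ℝ) (108621/515000:ℝ) (by norm_num)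
  have h10 : Potential 10 (4793/20000:ℝ) (507/100000:ℝ) :=
    h9.link K.k2 K.k3 (50159/68125:ℝ) (71829/272500:ℝ) (by norm_num)
  have h11 : Potential 11 (3751/12500:ℝ) (11331/1000000:ℝ) :=
    h10.link K.k2 K.k3 (5617/54500:ℝ) (97747/109000:ℝ) (by norm_num)
  have h12 : Potential 12 (35841/100000:ℝ) (20937/1000000:ℝ) :=
    h11.link K.k3 K.k4 (64819/130000:ℝ) (65159/130000:ℝ) (by norm_num)
  have h13 : Potential 13 (41501/100000:ℝ) (16671/500000:ℝ) :=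
    h12.link K.k4 K.k5 (22191/24250:ℝ) (41093/485000:ℝ) (by norm_num)
  have h14 : Potential 14 (294/625:ℝ) (48469/1000000:ℝ) :=
    h13.link K.k4 K.k5 (16949/48500:ℝ) (315463/485000:ℝ) (by norm_num)
  have h15 : Potential 15 (21/40:ℝ) (13181/200000:ℝ) :=
    h14.link K.k5 K.k6 (6909/9500:ℝ) (259/950:ℝ) (by norm_num)
  intro A hA hV
  exact h15 hA hV

theorem chain16 (K : Knots) : Potential 16 (21 / 40) (66403/1000000:ℝ) := by
  have h0 : Potential 0 (997/1000000000:ℝ) 0 := potential_zero _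
  have h1 : Potential 1 (11957/1000000000:ℝ) (1/1000000:ℝ) :=
    h0.link K.k0 K.k1 (102551/5150000000:ℝ) (7/515000000:ℝ) (by norm_num)
  have h2 : Potential 2 (15543/200000000:ℝ) (1/500000:ℝ) :=
    h1.link K.k0 K.k1 (1231351/5150000000:ℝ) (11/515000000:ℝ) (by norm_num)
  have h3 : Potential 3 (362667/1000000000:ℝ) (1/250000:ℝ) :=
    h2.link K.k0 K.k1 (1600893/1030000000:ℝ) (9/515000000:ℝ) (by norm_num)
  have h4 : Potential 4 (17/12500:ℝ) (3/250000:ℝ) :=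
    h3.link K.k0 K.k1 (37354601/5150000000:ℝ) (1/103000000:ℝ) (by norm_num)
  have h5 : Potential 5 (217/50000:ℝ) (7/200000:ℝ) :=
    h4.link K.k0 K.k1 (1736/64375:ℝ) (3/25750:ℝ) (by norm_num)
  have h6 : Potential 6 (1229/100000:ℝ) (3/31250:ℝ) :=
    h5.link K.k0 K.k1 (22311/257500:ℝ) (1/12875:ℝ) (by norm_num)
  have h7 : Potential 7 (79/2500:ℝ) (61/250000:ℝ) :=
    h6.link K.k0 K.k1 (126547/515000:ℝ) (1/25750:ℝ) (by norm_num)
  have h8 : Potential 8 (469/6250:ℝ) (577/1000000:ℝ) :=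
    h7.link K.k0 K.k1 (8133/12875:ℝ) (2/12875:ℝ) (by norm_num)
  have h9 : Potential 9 (13809/100000:ℝ) (1063/1000000:ℝ) :=
    h8.link K.k0 K.k1 (64233/128750:ℝ) (25799/51500:ℝ) (by norm_num)
  have h10 : Potential 10 (797/4000:ℝ) (2577/1000000:ℝ) :=
    h9.link K.k1 K.k2 (30621/128750:ℝ) (392453/515000:ℝ) (by norm_num)
  have h11 : Potential 11 (5157/20000:ℝ) (6839/1000000:ℝ) :=
    h10.link K.k2 K.k3 (11061/21800:ℝ) (5369/10900:ℝ) (by norm_num)
  have h12 : Potential 12 (31407/100000:ℝ) (339/25000:ℝ) :=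
    h11.link K.k3 K.k4 (95787/104000:ℝ) (8199/104000:ℝ) (by norm_num)
  have h13 : Potential 13 (4607/12500:ℝ) (5813/250000:ℝ) :=
    h12.link K.k3 K.k4 (23323/65000:ℝ) (10417/16250:ℝ) (by norm_num)
  have h14 : Potential 14 (42163/100000:ℝ) (35409/1000000:ℝ) :=
    h13.link K.k4 K.k5 (39493/48500:ℝ) (45029/242500:ℝ) (by norm_num)
  have h15 : Potential 15 (47363/100000:ℝ) (49883/1000000:ℝ) :=
    h14.link K.k4 K.k5 (3424/12125:ℝ) (347899/485000:ℝ) (by norm_num)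
  have h16 : Potential 16 (21/40:ℝ) (66403/1000000:ℝ) :=
    h15.link K.k5 K.k6 (64833/95000:ℝ) (452/1425:ℝ) (by norm_num)
  intro A hA hV
  exact h16 hA hV

theorem chain17 (K : Knots) : Potential 17 (21 / 40) (13359/200000:ℝ) := by
  have h0 : Potential 0 (619/1000000000:ℝ) 0 := potential_zero _
  have h1 : Potential 1 (3709/500000000:ℝ) (1/1000000:ℝ) :=
    h0.link K.k0 K.k1 (63557/5150000000:ℝ) (1/51500000:ℝ) (by norm_num)
  have h2 : Potential 2 (9643/200000000:ℝ) (1/1000000:ℝ) :=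
    h1.link K.k0 K.k1 (381987/2575000000:ℝ) (1/128750000:ℝ) (by norm_num)
  have h3 : Potential 3 (225001/1000000000:ℝ) (3/1000000:ℝ) :=
    h2.link K.k0 K.k1 (993201/1030000000:ℝ) (7/515000000:ℝ) (by norm_num)
  have h4 : Potential 4 (27/32000:ℝ) (1/125000:ℝ) :=
    h3.link K.k0 K.k1 (23174803/5150000000:ℝ) (3/103000000:ℝ) (by norm_num)
  have h5 : Potential 5 (27/10000:ℝ) (11/500000:ℝ) :=
    h4.link K.k0 K.k1 (27/1600:ℝ) (0:ℝ) (by norm_num)
  have h6 : Potential 6 (191/25000:ℝ) (3/50000:ℝ) :=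
    h5.link K.k0 K.k1 (2769/51500:ℝ) (3/25750:ℝ) (by norm_num)
  have h7 : Potential 7 (1963/100000:ℝ) (19/125000:ℝ) :=
    h6.link K.k0 K.k1 (9809/64375:ℝ) (11/51500:ℝ) (by norm_num)
  have h8 : Potential 8 (4661/100000:ℝ) (359/1000000:ℝ) :=
    h7.link K.k0 K.k1 (202009/515000:ℝ) (9/51500:ℝ) (by norm_num)
  have h9 : Potential 9 (2589/25000:ℝ) (199/250000:ℝ) :=
    h8.link K.k0 K.k1 (479763/515000:ℝ) (4/12875:ℝ) (by norm_num)
  have h10 : Potential 10 (1623/10000:ℝ) (1349/1000000:ℝ) :=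
    h9.link K.k1 K.k2 (59757/64375:ℝ) (9213/128750:ℝ) (by norm_num)
  have h11 : Potential 11 (10961/50000:ℝ) (3687/1000000:ℝ) :=
    h10.link K.k2 K.k3 (47789/54500:ℝ) (1677/13625:ℝ) (by norm_num)
  have h12 : Potential 12 (27377/100000:ℝ) (8509/1000000:ℝ) :=
    h11.link K.k2 K.k3 (83863/272500:ℝ) (47158/68125:ℝ) (by norm_num)
  have h13 : Potential 13 (204/625:ℝ) (15719/1000000:ℝ) :=
    h12.link K.k3 K.k4 (24759/32500:ℝ) (15473/65000:ℝ) (by norm_num)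
  have h14 : Potential 14 (37753/100000:ℝ) (25379/1000000:ℝ) :=
    h13.link K.k3 K.k4 (2453/10400:ℝ) (39733/52000:ℝ) (by norm_num)
  have h15 : Potential 15 (10687/25000:ℝ) (37249/1000000:ℝ) :=
    h14.link K.k4 K.k5 (70277/97000:ℝ) (66797/242500:ℝ) (by norm_num)
  have h16 : Potential 16 (47649/100000:ℝ) (12777/250000:ℝ) :=
    h15.link K.k4 K.k5 (2722/12125:ℝ) (94011/121250:ℝ) (by norm_num)
  have h17 : Potential 17 (21/40:ℝ) (13359/200000:ℝ) :=
    h16.link K.k5 K.k6 (122703/190000:ℝ) (6727/19000:ℝ) (by norm_num)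
  intro A hA hV
  exact h17 hA hV

theorem chain18 (K : Knots) : Potential 18 (21 / 40) (67251/1000000:ℝ) := by
  have h0 : Potential 0 (433/1000000000:ℝ) 0 := potential_zero _
  have h1 : Potential 1 (5193/1000000000:ℝ) (1/1000000:ℝ) :=
    h0.link K.k0 K.k1 (44539/5150000000:ℝ) (3/515000000:ℝ) (by norm_num)
  have h2 : Potential 2 (33751/1000000000:ℝ) (1/1000000:ℝ) :=
    h1.link K.k0 K.k1 (534739/5150000000:ℝ) (7/515000000:ℝ) (by norm_num)
  have h3 : Potential 3 (157501/1000000000:ℝ) (1/500000:ℝ) :=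
    h2.link K.k0 K.k1 (3476133/5150000000:ℝ) (11/515000000:ℝ) (by norm_num)
  have h4 : Potential 4 (189/320000:ℝ) (3/500000:ℝ) :=
    h3.link K.k0 K.k1 (16222303/5150000000:ℝ) (3/103000000:ℝ) (by norm_num)
  have h5 : Potential 5 (189/100000:ℝ) (1/62500:ℝ) :=
    h4.link K.k0 K.k1 (189/16000:ℝ) (0:ℝ) (by norm_num)
  have h6 : Potential 6 (533/100000:ℝ) (43/1000000:ℝ) :=
    h5.link K.k0 K.k1 (19167/515000:ℝ) (3/10300:ℝ) (by norm_num)
  have h7 : Potential 7 (1369/100000:ℝ) (107/1000000:ℝ) :=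
    h6.link K.k0 K.k1 (54679/515000:ℝ) (11/51500:ℝ) (by norm_num)
  have h8 : Potential 8 (3251/100000:ℝ) (63/250000:ℝ) :=
    h7.link K.k0 K.k1 (140947/515000:ℝ) (3/51500:ℝ) (by norm_num)
  have h9 : Potential 9 (903/12500:ℝ) (557/1000000:ℝ) :=
    h8.link K.k0 K.k1 (334773/515000:ℝ) (1/12875:ℝ) (by norm_num)
  have h10 : Potential 10 (12879/100000:ℝ) (993/1000000:ℝ) :=
    h9.link K.k0 K.k1 (35724/64375:ℝ) (11457/25750:ℝ) (by norm_num)
  have h11 : Potential 11 (919/5000:ℝ) (1067/500000:ℝ) :=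
    h10.link K.k1 K.k2 (109167/257500:ℝ) (296623/515000:ℝ) (by norm_num)
  have h12 : Potential 12 (23687/100000:ℝ) (2649/500000:ℝ) :=
    h11.link K.k2 K.k3 (9016/13625:ℝ) (1843/5450:ℝ) (by norm_num)
  have h13 : Potential 13 (2879/10000:ℝ) (10449/1000000:ℝ) :=
    h12.link K.k2 K.k3 (35723/272500:ℝ) (473509/545000:ℝ) (by norm_num)
  have h14 : Potential 14 (16869/50000:ℝ) (17939/1000000:ℝ) :=
    h13.link K.k3 K.k4 (6457/10400:ℝ) (19713/52000:ℝ) (by norm_num)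
  have h15 : Potential 15 (19277/50000:ℝ) (5497/200000:ℝ) :=
    h14.link K.k3 K.k4 (32763/260000:ℝ) (227223/260000:ℝ) (by norm_num)
  have h16 : Potential 16 (43271/100000:ℝ) (19521/500000:ℝ) :=
    h15.link K.k4 K.k5 (7798/12125:ℝ) (86461/242500:ℝ) (by norm_num)
  have h17 : Potential 17 (9581/20000:ℝ) (13081/250000:ℝ) :=
    h16.link K.k4 K.k5 (8333/48500:ℝ) (401553/485000:ℝ) (by norm_num)
  have h18 : Potential 18 (21/40:ℝ) (67251/1000000:ℝ) :=
    h17.link K.k5 K.k6 (2909/4750:ℝ) (2209/5700:ℝ) (by norm_num)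
  intro A hA hV
  exact h18 hA hV

theorem chain19 (K : Knots) : Potential 19 (21 / 40) (67323/1000000:ℝ) := by
  have h0 : Potential 0 (7/25000000:ℝ) 0 := potential_zero _
  have h1 : Potential 1 (419/125000000:ℝ) (1/1000000:ℝ) :=
    h0.link K.k0 K.k1 (717/128750000:ℝ) (1/64375000:ℝ) (by norm_num)
  have h2 : Potential 2 (10893/500000000:ℝ) (1/1000000:ℝ) :=
    h1.link K.k0 K.k1 (43147/643750000:ℝ) (1/128750000:ℝ) (by norm_num)
  have h3 : Potential 3 (101667/1000000000:ℝ) (1/500000:ℝ) :=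
    h2.link K.k0 K.k1 (1121949/2575000000:ℝ) (3/515000000:ℝ) (by norm_num)
  have h4 : Potential 4 (61/160000:ℝ) (1/250000:ℝ) :=
    h3.link K.k0 K.k1 (10471601/5150000000:ℝ) (1/103000000:ℝ) (by norm_num)
  have h5 : Potential 5 (61/50000:ℝ) (11/1000000:ℝ) :=
    h4.link K.k0 K.k1 (61/8000:ℝ) (0:ℝ) (by norm_num)
  have h6 : Potential 6 (69/20000:ℝ) (7/250000:ℝ) :=
    h5.link K.k0 K.k1 (6243/257500:ℝ) (1/12875:ℝ) (by norm_num)
  have h7 : Potential 7 (443/50000:ℝ) (7/100000:ℝ) :=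
    h6.link K.k0 K.k1 (283/4120:ℝ) (2/12875:ℝ) (by norm_num)
  have h8 : Potential 8 (1051/50000:ℝ) (163/1000000:ℝ) :=
    h7.link K.k0 K.k1 (45449/257500:ℝ) (9/25750:ℝ) (by norm_num)
  have h9 : Potential 9 (4671/100000:ℝ) (9/25000:ℝ) :=
    h8.link K.k0 K.k1 (108243/257500:ℝ) (1/51500:ℝ) (by norm_num)
  have h10 : Potential 10 (9809/100000:ℝ) (377/500000:ℝ) :=
    h9.link K.k0 K.k1 (481093/515000:ℝ) (1/51500:ℝ) (by norm_num)
  have h11 : Potential 11 (7557/50000:ℝ) (233/200000:ℝ) :=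
    h10.link K.k0 K.k1 (19447/515000:ℝ) (12386/12875:ℝ) (by norm_num)
  have h12 : Potential 12 (4057/20000:ℝ) (69/25000:ℝ) :=
    h11.link K.k2 K.k3 (269331/272500:ℝ) (786/68125:ℝ) (by norm_num)
  have h13 : Potential 13 (25257/100000:ℝ) (163/25000:ℝ) :=
    h12.link K.k2 K.k3 (51361/109000:ℝ) (28813/54500:ℝ) (by norm_num)
  have h14 : Potential 14 (30053/100000:ℝ) (2391/200000:ℝ) :=
    h13.link K.k3 K.k4 (506279/520000:ℝ) (13619/520000:ℝ) (by norm_num)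
  have h15 : Potential 15 (34721/100000:ℝ) (19627/1000000:ℝ) :=
    h14.link K.k3 K.k4 (256831/520000:ℝ) (263051/520000:ℝ) (by norm_num)
  have h16 : Potential 16 (4909/12500:ℝ) (14521/500000:ℝ) :=
    h15.link K.k3 K.k4 (13927/520000:ℝ) (505907/520000:ℝ) (by norm_num)
  have h17 : Potential 17 (43741/100000:ℝ) (20149/500000:ℝ) :=
    h16.link K.k4 K.k5 (11081/19400:ℝ) (207801/485000:ℝ) (by norm_num)
  have h18 : Potential 18 (6017/12500:ℝ) (26531/500000:ℝ) :=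
    h17.link K.k4 K.k5 (6067/48500:ℝ) (424243/485000:ℝ) (by norm_num)
  have h19 : Potential 19 (21/40:ℝ) (67323/1000000:ℝ) :=
    h18.link K.k5 K.k6 (27543/47500:ℝ) (5983/14250:ℝ) (by norm_num)
  intro A hA hV
  exact h19 hA hV

theorem chain20 (K : Knots) : Potential 20 (21 / 40) (67877/1000000:ℝ) := by
  have h0 : Potential 0 (199/1000000000:ℝ) 0 := potential_zero _
  have h1 : Potential 1 (1193/500000000:ℝ) (1/1000000:ℝ) :=
    h0.link K.k0 K.k1 (20457/5150000000:ℝ) (1/257500000:ℝ) (by norm_num)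
  have h2 : Potential 2 (3101/200000000:ℝ) (1/1000000:ℝ) :=
    h1.link K.k0 K.k1 (122799/2575000000:ℝ) (1/64375000:ℝ) (by norm_num)
  have h3 : Potential 3 (36177/500000000:ℝ) (1/500000:ℝ) :=
    h2.link K.k0 K.k1 (319371/1030000000:ℝ) (1/64375000:ℝ) (by norm_num)
  have h4 : Potential 4 (67831/250000000:ℝ) (1/250000:ℝ) :=
    h3.link K.k0 K.k1 (3726091/2575000000:ℝ) (7/257500000:ℝ) (by norm_num)
  have h5 : Potential 5 (217059/250000000:ℝ) (9/1000000:ℝ) :=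
    h4.link K.k0 K.k1 (6986573/1287500000:ℝ) (1/128750000:ℝ) (by norm_num)
  have h6 : Potential 6 (123/50000:ℝ) (21/1000000:ℝ) :=
    h5.link K.k0 K.k1 (22357017/1287500000:ℝ) (3/128750000:ℝ) (by norm_num)
  have h7 : Potential 7 (79/12500:ℝ) (51/1000000:ℝ) :=
    h6.link K.k0 K.k1 (12629/257500:ℝ) (1/12875:ℝ) (by norm_num)
  have h8 : Potential 8 (3/200:ℝ) (59/500000:ℝ) :=
    h7.link K.k0 K.k1 (8117/64375:ℝ) (2/12875:ℝ) (by norm_num)
  have h9 : Potential 9 (3333/100000:ℝ) (259/1000000:ℝ) :=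
    h8.link K.k0 K.k1 (3861/12875:ℝ) (3/51500:ℝ) (by norm_num)
  have h10 : Potential 10 (3499/50000:ℝ) (27/50000:ℝ) :=
    h9.link K.k0 K.k1 (343039/515000:ℝ) (13/51500:ℝ) (by norm_num)
  have h11 : Potential 11 (97/800:ℝ) (187/200000:ℝ) :=
    h10.link K.k0 K.k1 (154587/257500:ℝ) (20581/51500:ℝ) (by norm_num)
  have h12 : Potential 12 (17123/100000:ℝ) (903/500000:ℝ) :=
    h11.link K.k1 K.k2 (14789/25750:ℝ) (43821/103000:ℝ) (by norm_num)
  have h13 : Potential 13 (21973/100000:ℝ) (2083/500000:ℝ) :=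
    h12.link K.k2 K.k3 (429009/545000:ℝ) (28969/136250:ℝ) (by norm_num)
  have h14 : Potential 14 (533/2000:ℝ) (259/31250:ℝ) :=
    h13.link K.k2 K.k3 (164759/545000:ℝ) (95039/136250:ℝ) (by norm_num)
  have h15 : Potential 15 (15591/50000:ℝ) (14103/1000000:ℝ) :=
    h14.link K.k3 K.k4 (8677/10400:ℝ) (1721/10400:ℝ) (by norm_num)
  have h16 : Potential 16 (35601/100000:ℝ) (21813/1000000:ℝ) :=
    h15.link K.k3 K.k4 (7629/20000:ℝ) (12369/20000:ℝ) (by norm_num)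
  have h17 : Potential 17 (39919/100000:ℝ) (7773/250000:ℝ) :=
    h16.link K.k4 K.k5 (45519/48500:ℝ) (29663/485000:ℝ) (by norm_num)
  have h18 : Potential 18 (8833/20000:ℝ) (5251/125000:ℝ) :=
    h17.link K.k4 K.k5 (12287/24250:ℝ) (239107/485000:ℝ) (by norm_num)
  have h19 : Potential 19 (6043/12500:ℝ) (2713/50000:ℝ) :=
    h18.link K.k4 K.k5 (7969/97000:ℝ) (44501/48500:ℝ) (by norm_num)
  have h20 : Potential 20 (21/40:ℝ) (67877/1000000:ℝ) :=
    h19.link K.k5 K.k6 (6578/11875:ℝ) (3178/7125:ℝ) (by norm_num)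
  intro A hA hV
  exact h20 hA hV

theorem chain21 (K : Knots) : Potential 21 (21 / 40) (34039/500000:ℝ) := by
  have h0 : Potential 0 (67/500000000:ℝ) 0 := potential_zero _
  have h1 : Potential 1 (1601/1000000000:ℝ) (1/1000000:ℝ) :=
    h0.link K.k0 K.k1 (6831/2575000000:ℝ) (7/515000000:ℝ) (by norm_num)
  have h2 : Potential 2 (13/1250000:ℝ) (1/1000000:ℝ) :=
    h1.link K.k0 K.k1 (164643/5150000000:ℝ) (13/515000000:ℝ) (by norm_num)
  have h3 : Potential 3 (4853/100000000:ℝ) (1/1000000:ℝ) :=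
    h2.link K.k0 K.k1 (1071/5150000:ℝ) (1/51500000:ℝ) (by norm_num)
  have h4 : Potential 4 (90993/500000000:ℝ) (1/500000:ℝ) :=
    h3.link K.k0 K.k1 (499847/515000000:ℝ) (3/257500000:ℝ) (by norm_num)
  have h5 : Potential 5 (582353/1000000000:ℝ) (1/200000:ℝ) :=
    h4.link K.k0 K.k1 (9372169/2575000000:ℝ) (11/515000000:ℝ) (by norm_num)
  have h6 : Potential 6 (33/20000:ℝ) (7/500000:ℝ) :=
    h5.link K.k0 K.k1 (59982339/5150000000:ℝ) (1/515000000:ℝ) (by norm_num)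
  have h7 : Potential 7 (423/100000:ℝ) (17/500000:ℝ) :=
    h6.link K.k0 K.k1 (3363/103000:ℝ) (9/51500:ℝ) (by norm_num)
  have h8 : Potential 8 (251/25000:ℝ) (79/1000000:ℝ) :=
    h7.link K.k0 K.k1 (43469/515000:ℝ) (1/10300:ℝ) (by norm_num)
  have h9 : Potential 9 (2229/100000:ℝ) (173/1000000:ℝ) :=
    h8.link K.k0 K.k1 (12879/64375:ℝ) (19/51500:ℝ) (by norm_num)
  have h10 : Potential 10 (117/2500:ℝ) (361/1000000:ℝ) :=
    h9.link K.k0 K.k1 (229407/515000:ℝ) (9/51500:ℝ) (by norm_num)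
  have h11 : Potential 11 (117/1250:ℝ) (9/12500:ℝ) :=
    h10.link K.k0 K.k1 (117/125:ℝ) (0:ℝ) (by norm_num)
  have h12 : Potential 12 (14197/100000:ℝ) (219/200000:ℝ) :=
    h11.link K.k0 K.k1 (1644/12875:ℝ) (11229/12875:ℝ) (by norm_num)
  have h13 : Potential 13 (9461/50000:ℝ) (2343/1000000:ℝ) :=
    h12.link K.k1 K.k2 (41161/257500:ℝ) (432549/515000:ℝ) (by norm_num)
  have h14 : Potential 14 (2349/10000:ℝ) (211/40000:ℝ) :=
    h13.link K.k2 K.k3 (165513/272500:ℝ) (53471/136250:ℝ) (by norm_num)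
  have h15 : Potential 15 (13953/50000:ℝ) (9661/1000000:ℝ) :=
    h14.link K.k2 K.k3 (8217/54500:ℝ) (23139/27250:ℝ) (by norm_num)
  have h16 : Potential 16 (16101/50000:ℝ) (15753/1000000:ℝ) :=
    h15.link K.k3 K.k4 (184311/260000:ℝ) (75651/260000:ℝ) (by norm_num)
  have h17 : Potential 17 (36397/100000:ℝ) (23469/1000000:ℝ) :=
    h16.link K.k3 K.k4 (145279/520000:ℝ) (374659/520000:ℝ) (by norm_num)
  have h18 : Potential 18 (20253/50000:ℝ) (32633/1000000:ℝ) :=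
    h17.link K.k4 K.k5 (41653/48500:ℝ) (68311/485000:ℝ) (by norm_num)
  have h19 : Potential 19 (891/2000:ℝ) (43237/1000000:ℝ) :=
    h18.link K.k4 K.k5 (10857/24250:ℝ) (133839/242500:ℝ) (by norm_num)
  have h20 : Potential 20 (24267/50000:ℝ) (55027/1000000:ℝ) :=
    h19.link K.k4 K.k5 (108/2425:ℝ) (9267/9700:ℝ) (by norm_num)
  have h21 : Potential 21 (21/40:ℝ) (34039/500000:ℝ) :=
    h20.link K.k5 K.k6 (50019/95000:ℝ) (899/1900:ℝ) (by norm_num)
  intro A hA hV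
  exact h21 hA hV

end Vale.Agent.P254.Uncond
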