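import Vale.Agent.P254.Uncond.Knots

/-!
The discrete recursion in dimensions 22 to 27: a path of steps ending at the weight `21/40`.
-/

namespace Vale.Agent.P254.Uncond

theorem chain22 (K : Knots) : Potential 22 (21 / 40) (6831/100000:ℝ) := by
  have h0 : Potential 0 (49/500000000:ℝ) 0 := potential_zero _
  have h1 : Potential 1 (291/250000000:ℝ) (1/1000000:ℝ) :=
    h0.link K.k0 K.k1 (4927/2575000000:ℝ) (3/128750000:ℝ) (by norm_num)
  have h2 : Potential 2 (1891/250000000:ℝ) (1/1000000:ℝ) :=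
    h1.link K.k0 K.k1 (29953/1287500000:ℝ) (1/128750000:ℝ) (by norm_num)
  have h3 : Potential 3 (7059/200000000:ℝ) (1/1000000:ℝ) :=
    h2.link K.k0 K.k1 (97359/643750000:ℝ) (11/515000000:ℝ) (by norm_num)
  have h4 : Potential 4 (66177/500000000:ℝ) (1/500000:ℝ) :=
    h3.link K.k0 K.k1 (727041/1030000000:ℝ) (9/515000000:ℝ) (by norm_num)
  have h5 : Potential 5 (42353/100000000:ℝ) (1/200000:ℝ) :=
    h4.link K.k0 K.k1 (6816091/2575000000:ℝ) (7/257500000:ℝ) (by norm_num)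
  have h6 : Potential 6 (3/2500:ℝ) (11/1000000:ℝ) :=
    h5.link K.k0 K.k1 (4362339/515000000:ℝ) (1/51500000:ℝ) (by norm_num)
  have h7 : Potential 7 (77/25000:ℝ) (13/500000:ℝ) :=
    h6.link K.k0 K.k1 (307/12875:ℝ) (1/12875:ℝ) (by norm_num)
  have h8 : Potential 8 (73/10000:ℝ) (59/1000000:ℝ) :=
    h7.link K.k0 K.k1 (7871/128750:ℝ) (3/12875:ℝ) (by norm_num)
  have h9 : Potential 9 (811/50000:ℝ) (2/15625:ℝ) :=
    h8.link K.k0 K.k1 (1503/10300:ℝ) (1/25750:ℝ) (by norm_num)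
  have h10 : Potential 10 (681/20000:ℝ) (53/200000:ℝ) :=
    h9.link K.k0 K.k1 (83413/257500:ℝ) (3/12875:ℝ) (by norm_num)
  have h11 : Potential 11 (6809/100000:ℝ) (263/500000:ℝ) :=
    h10.link K.k0 K.k1 (70099/103000:ℝ) (11/51500:ℝ) (by norm_num)
  have h12 : Potential 12 (11497/100000:ℝ) (887/1000000:ℝ) :=
    h11.link K.k0 K.k1 (3189/5000:ℝ) (181/500:ℝ) (by norm_num)
  have h13 : Potential 13 (16077/100000:ℝ) (1557/1000000:ℝ) :=
    h12.link K.k1 K.k2 (90143/128750:ℝ) (154349/515000:ℝ) (by norm_num)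
  have h14 : Potential 14 (20543/100000:ℝ) (1657/500000:ℝ) :=
    h13.link K.k2 K.k3 (485941/545000:ℝ) (29457/272500:ℝ) (by norm_num)
  have h15 : Potential 15 (24861/100000:ℝ) (83/12500:ℝ) :=
    h14.link K.k2 K.k3 (242869/545000:ℝ) (75529/136250:ℝ) (by norm_num)
  have h16 : Potential 16 (7261/25000:ℝ) (5593/500000:ℝ) :=
    h15.link K.k2 K.k3 (7513/545000:ℝ) (268731/272500:ℝ) (by norm_num)
  have h17 : Potential 17 (33127/100000:ℝ) (4363/250000:ℝ) :=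
    h16.link K.k3 K.k4 (309173/520000:ℝ) (210673/520000:ℝ) (by norm_num)
  have h18 : Potential 18 (232/625:ℝ) (157/6250:ℝ) :=
    h17.link K.k3 K.k4 (97319/520000:ℝ) (422659/520000:ℝ) (by norm_num)
  have h19 : Potential 19 (513/1250:ℝ) (6827/200000:ℝ) :=
    h18.link K.k4 K.k5 (382/485:ℝ) (2574/12125:ℝ) (by norm_num)
  have h20 : Potential 20 (44901/100000:ℝ) (44429/1000000:ℝ) :=
    h19.link K.k4 K.k5 (1917/4850:ℝ) (14661/24250:ℝ) (by norm_num)
  have h21 : Potential 21 (48707/100000:ℝ) (27893/500000:ℝ) :=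
    h20.link K.k4 K.k5 (459/48500:ℝ) (480363/485000:ℝ) (by norm_num)
  have h22 : Potential 22 (21/40:ℝ) (6831/100000:ℝ) :=
    h21.link K.k5 K.k6 (23901/47500:ℝ) (14149/28500:ℝ) (by norm_num)
  intro A hA hV
  exact h22 hA hV

theorem chain23 (K : Knots) : Potential 23 (21 / 40) (68591/1000000:ℝ) := by
  have h0 : Potential 0 (67/1000000000:ℝ) 0 := potential_zero _
  have h1 : Potential 1 (1/1250000:ℝ) (1/1000000:ℝ) :=
    h0.link K.k0 K.k1 (6821/5150000000:ℝ) (1/128750000:ℝ) (by norm_num)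
  have h2 : Potential 2 (5197/1000000000:ℝ) (1/1000000:ℝ) :=
    h1.link K.k0 K.k1 (2057/128750000:ℝ) (3/257500000:ℝ) (by norm_num)
  have h3 : Potential 3 (24249/1000000000:ℝ) (1/1000000:ℝ) :=
    h2.link K.k0 K.k1 (535071/5150000000:ℝ) (11/515000000:ℝ) (by norm_num)
  have h4 : Potential 4 (22733/250000000:ℝ) (1/500000:ℝ) :=
    h3.link K.k0 K.k1 (2497507/5150000000:ℝ) (7/515000000:ℝ) (by norm_num)
  have h5 : Potential 5 (290981/1000000000:ℝ) (1/250000:ℝ) :=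
    h4.link K.k0 K.k1 (292683/160937500:ℝ) (7/515000000:ℝ) (by norm_num)
  have h6 : Potential 6 (164889/200000000:ℝ) (1/125000:ℝ) :=
    h5.link K.k0 K.k1 (29970903/5150000000:ℝ) (7/515000000:ℝ) (by norm_num)
  have h7 : Potential 7 (53/25000:ℝ) (9/500000:ℝ) :=
    h6.link K.k0 K.k1 (16983527/1030000000:ℝ) (1/51500000:ℝ) (by norm_num)
  have h8 : Potential 8 (503/100000:ℝ) (41/1000000:ℝ) :=
    h7.link K.k0 K.k1 (5439/128750:ℝ) (1/12875:ℝ) (by norm_num)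
  have h9 : Potential 9 (1117/100000:ℝ) (11/125000:ℝ) :=
    h8.link K.k0 K.k1 (51669/515000:ℝ) (7/51500:ℝ) (by norm_num)
  have h10 : Potential 10 (469/20000:ℝ) (91/500000:ℝ) :=
    h9.link K.k0 K.k1 (114911/515000:ℝ) (7/51500:ℝ) (by norm_num)
  have h11 : Potential 11 (4689/100000:ℝ) (181/500000:ℝ) :=
    h10.link K.k0 K.k1 (48263/103000:ℝ) (11/51500:ℝ) (by norm_num)
  have h12 : Potential 12 (8987/100000:ℝ) (173/250000:ℝ) :=
    h11.link K.k0 K.k1 (482907/515000:ℝ) (3/51500:ℝ) (by norm_num)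
  have h13 : Potential 13 (1679/12500:ℝ) (259/250000:ℝ) :=
    h12.link K.k0 K.k1 (104221/515000:ℝ) (10268/12875:ℝ) (by norm_num)
  have h14 : Potential 14 (8891/50000:ℝ) (1021/500000:ℝ) :=
    h13.link K.k1 K.k2 (20179/64375:ℝ) (44193/64375:ℝ) (by norm_num)
  have h15 : Potential 15 (2751/12500:ℝ) (4337/1000000:ℝ) :=
    h14.link K.k2 K.k3 (98339/136250:ℝ) (75817/272500:ℝ) (by norm_num)
  have h16 : Potential 16 (26101/100000:ℝ) (7947/1000000:ℝ) :=
    h15.link K.k2 K.k3 (20333/68125:ℝ) (47772/68125:ℝ) (by norm_num)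
  have h17 : Potential 17 (188/625:ℝ) (8/625:ℝ) :=
    h16.link K.k3 K.k4 (115533/130000:ℝ) (14423/130000:ℝ) (by norm_num)
  have h18 : Potential 18 (33971/100000:ℝ) (479/25000:ℝ) :=
    h17.link K.k3 K.k4 (25549/52000:ℝ) (26441/52000:ℝ) (by norm_num)
  have h19 : Potential 19 (1889/5000:ℝ) (26747/1000000:ℝ) :=
    h18.link K.k3 K.k4 (26551/260000:ℝ) (233391/260000:ℝ) (by norm_num)
  have h20 : Potential 20 (41527/100000:ℝ) (35597/1000000:ℝ) :=
    h19.link K.k4 K.k5 (3499/4850:ℝ) (3376/12125:ℝ) (by norm_num)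
  have h21 : Potential 21 (2261/5000:ℝ) (45591/1000000:ℝ) :=
    h20.link K.k4 K.k5 (6709/19400:ℝ) (79279/121250:ℝ) (by norm_num)
  have h22 : Potential 22 (9773/20000:ℝ) (56561/1000000:ℝ) :=
    h21.link K.k5 K.k6 (18389/19000:ℝ) (181/5700:ℝ) (by norm_num)
  have h23 : Potential 23 (21/40:ℝ) (68591/1000000:ℝ) :=
    h22.link K.k5 K.k6 (18401/38000:ℝ) (5879/11400:ℝ) (by norm_num)
  intro A hA hV
  exact h23 hA hV

theorem chain24 (K : Knots) : Potential 24 (21 / 40) (68739/1000000:ℝ) := by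
  have h0 : Potential 0 (1/20000000:ℝ) 0 := potential_zero _
  have h1 : Potential 1 (593/1000000000:ℝ) (1/1000000:ℝ) :=
    h0.link K.k0 K.k1 (501/515000000:ℝ) (7/515000000:ℝ) (by norm_num)
  have h2 : Potential 2 (3849/1000000000:ℝ) (1/1000000:ℝ) :=
    h1.link K.k0 K.k1 (60859/5150000000:ℝ) (11/515000000:ℝ) (by norm_num)
  have h3 : Potential 3 (8979/500000000:ℝ) (1/1000000:ℝ) :=
    h2.link K.k0 K.k1 (396207/5150000000:ℝ) (3/128750000:ℝ) (by norm_num)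
  have h4 : Potential 4 (67341/1000000000:ℝ) (1/500000:ℝ) :=
    h3.link K.k0 K.k1 (924777/2575000000:ℝ) (3/257500000:ℝ) (by norm_num)
  have h5 : Potential 5 (215491/1000000000:ℝ) (3/1000000:ℝ) :=
    h4.link K.k0 K.k1 (6936103/5150000000:ℝ) (1/515000000:ℝ) (by norm_num)
  have h6 : Potential 6 (152639/250000000:ℝ) (3/500000:ℝ) :=
    h5.link K.k0 K.k1 (22195353/5150000000:ℝ) (11/515000000:ℝ) (by norm_num)
  have h7 : Potential 7 (157/100000:ℝ) (7/500000:ℝ) :=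
    h6.link K.k0 K.k1 (15721777/1287500000:ℝ) (1/64375000:ℝ) (by norm_num)
  have h8 : Potential 8 (93/25000:ℝ) (31/1000000:ℝ) :=
    h7.link K.k0 K.k1 (16031/515000:ℝ) (7/51500:ℝ) (by norm_num)
  have h9 : Potential 9 (413/50000:ℝ) (33/500000:ℝ) :=
    h8.link K.k0 K.k1 (9549/128750:ℝ) (3/25750:ℝ) (by norm_num)
  have h10 : Potential 10 (867/50000:ℝ) (17/125000:ℝ) :=
    h9.link K.k0 K.k1 (42479/257500:ℝ) (3/25750:ℝ) (by norm_num)
  have h11 : Potential 11 (3467/100000:ℝ) (269/1000000:ℝ) :=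
    h10.link K.k0 K.k1 (89191/257500:ℝ) (11/51500:ℝ) (by norm_num)
  have h12 : Potential 12 (1661/25000:ℝ) (513/1000000:ℝ) :=
    h11.link K.k0 K.k1 (356841/515000:ℝ) (13/51500:ℝ) (by norm_num)
  have h13 : Potential 13 (10963/100000:ℝ) (423/500000:ℝ) :=
    h12.link K.k0 K.k1 (43199/64375:ℝ) (16937/51500:ℝ) (by norm_num)
  have h14 : Potential 14 (15189/100000:ℝ) (681/500000:ℝ) :=
    h13.link K.k1 K.k2 (103877/128750:ℝ) (99391/515000:ℝ) (by norm_num)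
  have h15 : Potential 15 (604/3125:ℝ) (83/31250:ℝ) :=
    h14.link K.k2 K.k3 (267231/272500:ℝ) (10443/545000:ℝ) (by norm_num)
  have h16 : Potential 16 (11669/50000:ℝ) (1071/200000:ℝ) :=
    h15.link K.k2 K.k3 (38628/68125:ℝ) (29492/68125:ℝ) (by norm_num)
  have h17 : Potential 17 (2723/10000:ℝ) (4583/500000:ℝ) :=
    h16.link K.k2 K.k3 (45227/272500:ℝ) (56812/68125:ℝ) (by norm_num)
  have h18 : Potential 18 (15513/50000:ℝ) (7131/500000:ℝ) :=
    h17.link K.k3 K.k4 (40369/52000:ℝ) (11621/52000:ℝ) (by norm_num)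
  have h19 : Potential 19 (17371/50000:ℝ) (323/15625:ℝ) :=
    h18.link K.k3 K.k4 (103121/260000:ℝ) (156821/260000:ℝ) (by norm_num)
  have h20 : Potential 20 (2399/6250:ℝ) (88/3125:ℝ) :=
    h19.link K.k3 K.k4 (509/20000:ℝ) (19489/20000:ℝ) (by norm_num)
  have h21 : Potential 21 (10493/25000:ℝ) (9211/250000:ℝ) :=
    h20.link K.k4 K.k5 (15997/24250:ℝ) (41213/121250:ℝ) (by norm_num)
  have h22 : Potential 22 (5689/12500:ℝ) (11637/250000:ℝ) :=
    h21.link K.k4 K.k5 (3671/12125:ℝ) (84539/121250:ℝ) (by norm_num)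
  have h23 : Potential 23 (49011/100000:ℝ) (14289/250000:ℝ) :=
    h22.link K.k5 K.k6 (176999/190000:ℝ) (3899/57000:ℝ) (by norm_num)
  have h24 : Potential 24 (21/40:ℝ) (68739/1000000:ℝ) :=
    h23.link K.k5 K.k6 (2319/5000:ℝ) (67/125:ℝ) (by norm_num)
  intro A hA hV
  exact h24 hA hV

theorem chain25 (K : Knots) : Potential 25 (21 / 40) (13799/200000:ℝ) := by
  have h0 : Potential 0 (7/200000000:ℝ) 0 := potential_zero _
  have h1 : Potential 1 (419/1000000000:ℝ) (1/1000000:ℝ) :=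
    h0.link K.k0 K.k1 (717/1030000000:ℝ) (1/515000000:ℝ) (by norm_num)
  have h2 : Potential 2 (2721/1000000000:ℝ) (1/1000000:ℝ) :=
    h1.link K.k0 K.k1 (43057/5150000000:ℝ) (1/103000000:ℝ) (by norm_num)
  have h3 : Potential 3 (12697/1000000000:ℝ) (1/1000000:ℝ) :=
    h2.link K.k0 K.k1 (280203/5150000000:ℝ) (3/515000000:ℝ) (by norm_num)
  have h4 : Potential 4 (47611/1000000000:ℝ) (1/500000:ℝ) :=
    h3.link K.k0 K.k1 (1307571/5150000000:ℝ) (11/515000000:ℝ) (by norm_num)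
  have h5 : Potential 5 (76177/500000000:ℝ) (3/1000000:ℝ) :=
    h4.link K.k0 K.k1 (4903813/5150000000:ℝ) (3/257500000:ℝ) (by norm_num)
  have h6 : Potential 6 (431667/1000000000:ℝ) (1/200000:ℝ) :=
    h5.link K.k0 K.k1 (7846071/2575000000:ℝ) (1/32187500:ℝ) (by norm_num)
  have h7 : Potential 7 (111/100000:ℝ) (1/100000:ℝ) :=
    h6.link K.k0 K.k1 (44461581/5150000000:ℝ) (3/257500000:ℝ) (by norm_num)
  have h8 : Potential 8 (263/100000:ℝ) (11/500000:ℝ) :=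
    h7.link K.k0 K.k1 (11333/515000:ℝ) (1/10300:ℝ) (by norm_num)
  have h9 : Potential 9 (73/12500:ℝ) (47/1000000:ℝ) :=
    h8.link K.k0 K.k1 (27009/515000:ℝ) (1/12875:ℝ) (by norm_num)
  have h10 : Potential 10 (613/50000:ℝ) (3/31250:ℝ) :=
    h9.link K.k0 K.k1 (7509/64375:ℝ) (1/12875:ℝ) (by norm_num)
  have h11 : Potential 11 (2451/100000:ℝ) (19/100000:ℝ) :=
    h10.link K.k0 K.k1 (63029/257500:ℝ) (11/51500:ℝ) (by norm_num)
  have h12 : Potential 12 (4697/100000:ℝ) (363/1000000:ℝ) :=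
    h11.link K.k0 K.k1 (252273/515000:ℝ) (9/51500:ℝ) (by norm_num)
  have h13 : Potential 13 (867/10000:ℝ) (167/250000:ℝ) :=
    h12.link K.k0 K.k1 (483431/515000:ℝ) (9/25750:ℝ) (by norm_num)
  have h14 : Potential 14 (6391/50000:ℝ) (493/500000:ℝ) :=
    h13.link K.k0 K.k1 (13697/51500:ℝ) (18901/25750:ℝ) (by norm_num)
  have h15 : Potential 15 (16811/100000:ℝ) (361/200000:ℝ) :=
    h14.link K.k1 K.k2 (114041/257500:ℝ) (143397/257500:ℝ) (by norm_num)
  have h16 : Potential 16 (10371/50000:ℝ) (901/250000:ℝ) :=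
    h15.link K.k2 K.k3 (446063/545000:ℝ) (49421/272500:ℝ) (by norm_num)
  have h17 : Potential 17 (24557/100000:ℝ) (3297/500000:ℝ) :=
    h16.link K.k2 K.k3 (231661/545000:ℝ) (313179/545000:ℝ) (by norm_num)
  have h18 : Potential 18 (14133/50000:ℝ) (1317/125000:ℝ) :=
    h17.link K.k2 K.k3 (23731/545000:ℝ) (65138/68125:ℝ) (by norm_num)
  have h19 : Potential 19 (6379/20000:ℝ) (3949/250000:ℝ) :=
    h18.link K.k3 K.k4 (349867/520000:ℝ) (170047/520000:ℝ) (by norm_num)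
  have h20 : Potential 20 (35451/100000:ℝ) (5553/250000:ℝ) :=
    h19.link K.k3 K.k4 (32173/104000:ℝ) (71793/104000:ℝ) (by norm_num)
  have h21 : Potential 21 (19471/50000:ℝ) (29623/1000000:ℝ) :=
    h20.link K.k4 K.k5 (92583/97000:ℝ) (11019/242500:ℝ) (by norm_num)
  have h22 : Potential 22 (8477/20000:ℝ) (38127/1000000:ℝ) :=
    h21.link K.k4 K.k5 (29321/48500:ℝ) (23957/60625:ℝ) (by norm_num)
  have h23 : Potential 23 (45783/100000:ℝ) (11889/250000:ℝ) :=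
    h22.link K.k4 K.k5 (12613/48500:ℝ) (71743/97000:ℝ) (by norm_num)
  have h24 : Potential 24 (24573/50000:ℝ) (5783/100000:ℝ) :=
    h23.link K.k5 K.k6 (84753/95000:ℝ) (51/475:ℝ) (by norm_num)
  have h25 : Potential 25 (21/40:ℝ) (13799/200000:ℝ) :=
    h24.link K.k5 K.k6 (42141/95000:ℝ) (5281/9500:ℝ) (by norm_num)
  intro A hA hV
  exact h25 hA hV

theorem chain26 (K : Knots) : Potential 26 (21 / 40) (69131/1000000:ℝ) := by
  have h0 : Potential 0 (27/1000000000:ℝ) 0 := potential_zero _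
  have h1 : Potential 1 (63/200000000:ℝ) (1/1000000:ℝ) :=
    h0.link K.k0 K.k1 (2601/5150000000:ℝ) (9/515000000:ℝ) (by norm_num)
  have h2 : Potential 2 (511/250000000:ℝ) (1/1000000:ℝ) :=
    h1.link K.k0 K.k1 (6461/1030000000:ℝ) (7/515000000:ℝ) (by norm_num)
  have h3 : Potential 3 (149/15625000:ℝ) (1/1000000:ℝ) :=
    h2.link K.k0 K.k1 (52593/1287500000:ℝ) (1/64375000:ℝ) (by norm_num)
  have h4 : Potential 4 (35759/1000000000:ℝ) (1/1000000:ℝ) :=
    h3.link K.k0 K.k1 (61383/321875000:ℝ) (1/128750000:ℝ) (by norm_num)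
  have h5 : Potential 5 (28607/250000000:ℝ) (1/500000:ℝ) :=
    h4.link K.k0 K.k1 (3683097/5150000000:ℝ) (1/128750000:ℝ) (by norm_num)
  have h6 : Potential 6 (324211/1000000000:ℝ) (1/250000:ℝ) :=
    h5.link K.k0 K.k1 (2946471/1287500000:ℝ) (1/51500000:ℝ) (by norm_num)
  have h7 : Potential 7 (166737/200000000:ℝ) (1/125000:ℝ) :=
    h6.link K.k0 K.k1 (33393673/5150000000:ℝ) (3/515000000:ℝ) (by norm_num)
  have h8 : Potential 8 (99/50000:ℝ) (17/1000000:ℝ) :=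
    h7.link K.k0 K.k1 (17173851/1030000000:ℝ) (3/103000000:ℝ) (by norm_num)
  have h9 : Potential 9 (439/100000:ℝ) (9/250000:ℝ) :=
    h8.link K.k0 K.k1 (10107/257500:ℝ) (9/51500:ℝ) (by norm_num)
  have h10 : Potential 10 (921/100000:ℝ) (73/1000000:ℝ) :=
    h9.link K.k0 K.k1 (45037/515000:ℝ) (9/51500:ℝ) (by norm_num)
  have h11 : Potential 11 (1841/100000:ℝ) (9/62500:ℝ) :=
    h10.link K.k0 K.k1 (94643/515000:ℝ) (11/51500:ℝ) (by norm_num)
  have h12 : Potential 12 (3527/100000:ℝ) (137/500000:ℝ) :=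
    h11.link K.k0 K.k1 (189243/515000:ℝ) (19/51500:ℝ) (by norm_num)
  have h13 : Potential 13 (651/10000:ℝ) (503/1000000:ℝ) :=
    h12.link K.k0 K.k1 (362921/515000:ℝ) (9/25750:ℝ) (by norm_num)
  have h14 : Potential 14 (5257/50000:ℝ) (811/1000000:ℝ) :=
    h13.link K.k0 K.k1 (7189/10300:ℝ) (7777/25750:ℝ) (by norm_num)
  have h15 : Potential 15 (14437/100000:ℝ) (1209/1000000:ℝ) :=
    h14.link K.k1 K.k2 (230807/257500:ℝ) (26619/257500:ℝ) (by norm_num)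
  have h16 : Potential 16 (18287/100000:ℝ) (1129/500000:ℝ) :=
    h15.link K.k1 K.k2 (14453/128750:ℝ) (457129/515000:ℝ) (by norm_num)
  have h17 : Potential 17 (2203/10000:ℝ) (4451/1000000:ℝ) :=
    h16.link K.k2 K.k3 (182773/272500:ℝ) (179329/545000:ℝ) (by norm_num)
  have h18 : Potential 18 (25669/100000:ℝ) (7661/1000000:ℝ) :=
    h17.link K.k2 K.k3 (8077/27250:ℝ) (38333/54500:ℝ) (by norm_num)
  have h19 : Potential 19 (913/3125:ℝ) (11807/1000000:ℝ) :=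
    h18.link K.k3 K.k4 (242459/260000:ℝ) (17499/260000:ℝ) (by norm_num)
  have h20 : Potential 20 (8173/25000:ℝ) (17181/1000000:ℝ) :=
    h19.link K.k3 K.k4 (18777/32500:ℝ) (13717/32500:ℝ) (by norm_num)
  have h21 : Potential 21 (18051/50000:ℝ) (943/40000:ℝ) :=
    h20.link K.k3 K.k4 (4609/20000:ℝ) (15389/20000:ℝ) (by norm_num)
  have h22 : Potential 22 (7891/20000:ℝ) (30917/1000000:ℝ) :=
    h21.link K.k4 K.k5 (43131/48500:ℝ) (13409/121250:ℝ) (by norm_num)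
  have h23 : Potential 23 (10691/25000:ℝ) (19621/500000:ℝ) :=
    h22.link K.k4 K.k5 (53683/97000:ℝ) (21647/48500:ℝ) (by norm_num)
  have h24 : Potential 24 (2877/6250:ℝ) (9681/200000:ℝ) :=
    h23.link K.k4 K.k5 (2708/12125:ℝ) (94163/121250:ℝ) (by norm_num)
  have h25 : Potential 25 (4927/10000:ℝ) (58359/1000000:ℝ) :=
    h24.link K.k5 K.k6 (81697/95000:ℝ) (1327/9500:ℝ) (by norm_num)
  have h26 : Potential 26 (21/40:ℝ) (69131/1000000:ℝ) :=
    h25.link K.k5 K.k6 (2041/4750:ℝ) (65/114:ℝ) (by norm_num)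
  intro A hA hV
  exact h26 hA hV

theorem chain27 (K : Knots) : Potential 27 (21 / 40) (6937/100000:ℝ) := by
  have h0 : Potential 0 (1/50000000:ℝ) 0 := potential_zero _
  have h1 : Potential 1 (57/250000000:ℝ) (1/1000000:ℝ) :=
    h0.link K.k0 K.k1 (91/257500000:ℝ) (3/128750000:ℝ) (by norm_num)
  have h2 : Potential 2 (369/250000000:ℝ) (1/1000000:ℝ) :=
    h1.link K.k0 K.k1 (5811/1287500000:ℝ) (3/128750000:ℝ) (by norm_num)
  have h3 : Potential 3 (6887/1000000000:ℝ) (1/1000000:ℝ) :=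
    h2.link K.k0 K.k1 (4749/160937500:ℝ) (3/515000000:ℝ) (by norm_num)
  have h4 : Potential 4 (12913/500000000:ℝ) (1/1000000:ℝ) :=
    h3.link K.k0 K.k1 (709341/5150000000:ℝ) (1/515000000:ℝ) (by norm_num)
  have h5 : Potential 5 (82643/1000000000:ℝ) (1/500000:ℝ) :=
    h4.link K.k0 K.k1 (1330029/2575000000:ℝ) (1/515000000:ℝ) (by norm_num)
  have h6 : Potential 6 (234153/1000000000:ℝ) (3/1000000:ℝ) :=
    h5.link K.k0 K.k1 (8511969/5150000000:ℝ) (13/515000000:ℝ) (by norm_num)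
  have h7 : Potential 7 (301053/500000000:ℝ) (3/500000:ℝ) :=
    h6.link K.k0 K.k1 (24117519/5150000000:ℝ) (3/128750000:ℝ) (by norm_num)
  have h8 : Potential 8 (143/100000:ℝ) (13/1000000:ℝ) :=
    h7.link K.k0 K.k1 (31008319/2575000000:ℝ) (7/257500000:ℝ) (by norm_num)
  have h9 : Potential 9 (317/100000:ℝ) (27/1000000:ℝ) :=
    h8.link K.k0 K.k1 (14589/515000:ℝ) (7/51500:ℝ) (by norm_num)
  have h10 : Potential 10 (133/20000:ℝ) (27/500000:ℝ) :=
    h9.link K.k0 K.k1 (32511/515000:ℝ) (7/51500:ℝ) (by norm_num)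
  have h11 : Potential 11 (1329/100000:ℝ) (21/200000:ℝ) :=
    h10.link K.k0 K.k1 (2731/20600:ℝ) (11/51500:ℝ) (by norm_num)
  have h12 : Potential 12 (1273/50000:ℝ) (199/1000000:ℝ) :=
    h11.link K.k0 K.k1 (136587/515000:ℝ) (3/10300:ℝ) (by norm_num)
  have h13 : Potential 13 (47/1000:ℝ) (91/250000:ℝ) :=
    h12.link K.k0 K.k1 (131079/257500:ℝ) (1/12875:ℝ) (by norm_num)
  have h14 : Potential 14 (1049/12500:ℝ) (647/1000000:ℝ) :=
    h13.link K.k0 K.k1 (24193/25750:ℝ) (3/12875:ℝ) (by norm_num)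
  have h15 : Potential 15 (1527/12500:ℝ) (943/1000000:ℝ) :=
    h14.link K.k0 K.k1 (20667/64375:ℝ) (8738/12875:ℝ) (by norm_num)
  have h16 : Potential 16 (15969/100000:ℝ) (403/250000:ℝ) :=
    h15.link K.k1 K.k2 (35832/64375:ℝ) (28539/64375:ℝ) (by norm_num)
  have h17 : Potential 17 (4911/25000:ℝ) (3017/1000000:ℝ) :=
    h16.link K.k2 K.k3 (61494/68125:ℝ) (52953/545000:ℝ) (by norm_num)
  have h18 : Potential 18 (23217/100000:ℝ) (5503/1000000:ℝ) :=
    h17.link K.k2 K.k3 (145851/272500:ℝ) (126609/272500:ℝ) (by norm_num)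
  have h19 : Potential 19 (3337/12500:ℝ) (8867/1000000:ℝ) :=
    h18.link K.k2 K.k3 (48493/272500:ℝ) (447939/545000:ℝ) (by norm_num)
  have h20 : Potential 20 (1881/6250:ℝ) (6611/500000:ℝ) :=
    h19.link K.k3 K.k4 (53899/65000:ℝ) (11079/65000:ℝ) (by norm_num)
  have h21 : Potential 21 (4179/12500:ℝ) (18659/1000000:ℝ) :=
    h20.link K.k3 K.k4 (31869/65000:ℝ) (33129/65000:ℝ) (by norm_num)
  have h22 : Potential 22 (36707/100000:ℝ) (25007/1000000:ℝ) :=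
    h21.link K.k3 K.k4 (40607/260000:ℝ) (219347/260000:ℝ) (by norm_num)
  have h23 : Potential 23 (9983/25000:ℝ) (16131/500000:ℝ) :=
    h22.link K.k4 K.k5 (80263/97000:ℝ) (41743/242500:ℝ) (by norm_num)
  have h24 : Potential 24 (43117/100000:ℝ) (20203/500000:ℝ) :=
    h23.link K.k4 K.k5 (6131/12125:ℝ) (59909/121250:ℝ) (by norm_num)
  have h25 : Potential 25 (5783/12500:ℝ) (24657/500000:ℝ) :=
    h24.link K.k4 K.k5 (18203/97000:ℝ) (98479/121250:ℝ) (by norm_num)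
  have h26 : Potential 26 (24693/50000:ℝ) (29481/500000:ℝ) :=
    h25.link K.k5 K.k6 (39427/47500:ℝ) (2419/14250:ℝ) (by norm_num)
  have h27 : Potential 27 (21/40:ℝ) (6937/100000:ℝ) :=
    h26.link K.k5 K.k6 (39171/95000:ℝ) (5579/9500:ℝ) (by norm_num)
  intro A hA hV
  exact h27 hA hV

end Vale.Agent.P254.Uncond
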