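import Vale.Agent.P254.Uncond.Knots

/-!
The discrete recursion in dimensions 28 to 31: a path of steps ending at the weight `21/40`.
-/

namespace Vale.Agent.P254.Uncond

theorem chain28 (K : Knots) : Potential 28 (21 / 40) (17369/250000:ℝ) := by
  have h0 : Potential 0 (3/200000000:ℝ) 0 := potential_zero _
  have h1 : Potential 1 (87/500000000:ℝ) (1/1000000:ℝ) :=
    h0.link K.k0 K.k1 (57/206000000:ℝ) (3/257500000:ℝ) (by norm_num)
  have h2 : Potential 2 (563/500000000:ℝ) (1/1000000:ℝ) :=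
    h1.link K.k0 K.k1 (8861/2575000000:ℝ) (1/51500000:ℝ) (by norm_num)
  have h3 : Potential 3 (21/4000000:ℝ) (1/1000000:ℝ) :=
    h2.link K.k0 K.k1 (57849/2575000000:ℝ) (7/257500000:ℝ) (by norm_num)
  have h4 : Potential 4 (9843/500000000:ℝ) (1/1000000:ℝ) :=
    h3.link K.k0 K.k1 (54063/515000000:ℝ) (3/257500000:ℝ) (by norm_num)
  have h5 : Potential 5 (62993/1000000000:ℝ) (1/500000:ℝ) :=
    h4.link K.k0 K.k1 (1013719/2575000000:ℝ) (11/515000000:ℝ) (by norm_num)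
  have h6 : Potential 6 (2231/12500000:ℝ) (3/1000000:ℝ) :=
    h5.link K.k0 K.k1 (6488259/5150000000:ℝ) (1/515000000:ℝ) (by norm_num)
  have h7 : Potential 7 (114737/250000000:ℝ) (1/200000:ℝ) :=
    h6.link K.k0 K.k1 (28724/8046875:ℝ) (1/128750000:ℝ) (by norm_num)
  have h8 : Potential 8 (109/100000:ℝ) (1/100000:ℝ) :=
    h7.link K.k0 K.k1 (11817851/1287500000:ℝ) (3/128750000:ℝ) (by norm_num)
  have h9 : Potential 9 (121/50000:ℝ) (21/1000000:ℝ) :=
    h8.link K.k0 K.k1 (11187/515000:ℝ) (1/25750:ℝ) (by norm_num)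
  have h10 : Potential 10 (507/100000:ℝ) (21/500000:ℝ) :=
    h9.link K.k0 K.k1 (12343/257500:ℝ) (3/12875:ℝ) (by norm_num)
  have h11 : Potential 11 (1013/100000:ℝ) (81/1000000:ℝ) :=
    h10.link K.k0 K.k1 (52001/515000:ℝ) (11/51500:ℝ) (by norm_num)
  have h12 : Potential 12 (1941/100000:ℝ) (19/125000:ℝ) :=
    h11.link K.k0 K.k1 (104199/515000:ℝ) (7/51500:ℝ) (by norm_num)
  have h13 : Potential 13 (3583/100000:ℝ) (139/500000:ℝ) :=
    h12.link K.k0 K.k1 (199823/515000:ℝ) (1/10300:ℝ) (by norm_num)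
  have h14 : Potential 14 (6397/100000:ℝ) (247/500000:ℝ) :=
    h13.link K.k0 K.k1 (368709/515000:ℝ) (17/51500:ℝ) (by norm_num)
  have h15 : Potential 15 (633/6250:ℝ) (781/1000000:ℝ) :=
    h14.link K.k0 K.k1 (370851/515000:ℝ) (7201/25750:ℝ) (by norm_num)
  have h16 : Potential 16 (13789/100000:ℝ) (1087/1000000:ℝ) :=
    h15.link K.k1 K.k2 (62676/64375:ℝ) (1682/64375:ℝ) (by norm_num)
  have h17 : Potential 17 (8693/50000:ℝ) (1973/1000000:ℝ) :=
    h16.link K.k1 K.k2 (62317/257500:ℝ) (390333/515000:ℝ) (by norm_num)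
  have h18 : Potential 18 (653/3125:ℝ) (3757/1000000:ℝ) :=
    h17.link K.k2 K.k3 (207319/272500:ℝ) (16279/68125:ℝ) (by norm_num)
  have h19 : Potential 19 (12157/50000:ℝ) (809/125000:ℝ) :=
    h18.link K.k2 K.k3 (111759/272500:ℝ) (160711/272500:ℝ) (by norm_num)
  have h20 : Potential 20 (13823/50000:ℝ) (311/31250:ℝ) :=
    h19.link K.k2 K.k3 (18481/272500:ℝ) (126967/136250:ℝ) (by norm_num)
  have h21 : Potential 21 (966/3125:ℝ) (2893/200000:ℝ) :=
    h20.link K.k3 K.k4 (23897/32500:ℝ) (4301/16250:ℝ) (by norm_num)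
  have h22 : Potential 22 (17059/50000:ℝ) (2493/125000:ℝ) :=
    h21.link K.k3 K.k4 (53011/130000:ℝ) (76951/130000:ℝ) (by norm_num)
  have h23 : Potential 23 (9317/25000:ℝ) (13119/500000:ℝ) :=
    h22.link K.k3 K.k4 (217/2500:ℝ) (1141/1250:ℝ) (by norm_num)
  have h24 : Potential 24 (323/800:ℝ) (167/5000:ℝ) :=
    h23.link K.k4 K.k5 (9353/12125:ℝ) (27671/121250:ℝ) (by norm_num)
  have h25 : Potential 25 (8689/20000:ℝ) (4137/100000:ℝ) :=
    h24.link K.k4 K.k5 (179/388:ℝ) (2089/3880:ℝ) (by norm_num)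
  have h26 : Potential 26 (581/1250:ℝ) (25019/500000:ℝ) :=
    h25.link K.k4 K.k5 (1507/9700:ℝ) (81927/97000:ℝ) (by norm_num)
  have h27 : Potential 27 (24747/50000:ℝ) (59403/1000000:ℝ) :=
    h26.link K.k5 K.k6 (15239/19000:ℝ) (5639/28500:ℝ) (by norm_num)
  have h28 : Potential 28 (21/40:ℝ) (17369/250000:ℝ) :=
    h27.link K.k5 K.k6 (18807/47500:ℝ) (1433/2375:ℝ) (by norm_num)
  intro A hA hV
  exact h28 hA hV

theorem chain29 (K : Knots) : Potential 29 (21 / 40) (69601/1000000:ℝ) := by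
  have h0 : Potential 0 (11/1000000000:ℝ) 0 := potential_zero _
  have h1 : Potential 1 (1/7812500:ℝ) (1/1000000:ℝ) :=
    h0.link K.k0 K.k1 (1053/5150000000:ℝ) (1/128750000:ℝ) (by norm_num)
  have h2 : Potential 2 (827/1000000000:ℝ) (1/1000000:ℝ) :=
    h1.link K.k0 K.k1 (1623/643750000:ℝ) (1/51500000:ℝ) (by norm_num)
  have h3 : Potential 3 (1929/500000000:ℝ) (1/1000000:ℝ) :=
    h2.link K.k0 K.k1 (85101/5150000000:ℝ) (1/128750000:ℝ) (by norm_num)
  have h4 : Potential 4 (14467/1000000000:ℝ) (1/1000000:ℝ) :=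
    h3.link K.k0 K.k1 (198667/2575000000:ℝ) (1/257500000:ℝ) (by norm_num)
  have h5 : Potential 5 (11573/250000000:ℝ) (1/500000:ℝ) :=
    h4.link K.k0 K.k1 (1489861/5150000000:ℝ) (3/128750000:ℝ) (by norm_num)
  have h6 : Potential 6 (131159/1000000000:ℝ) (3/1000000:ℝ) :=
    h5.link K.k0 K.k1 (1191969/1287500000:ℝ) (1/51500000:ℝ) (by norm_num)
  have h7 : Potential 7 (21079/62500000:ℝ) (1/200000:ℝ) :=
    h6.link K.k0 K.k1 (13509097/5150000000:ℝ) (7/257500000:ℝ) (by norm_num)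
  have h8 : Potential 8 (801001/1000000000:ℝ) (9/1000000:ℝ) :=
    h7.link K.k0 K.k1 (2171127/321875000:ℝ) (1/64375000:ℝ) (by norm_num)
  have h9 : Potential 9 (89/50000:ℝ) (17/1000000:ℝ) :=
    h8.link K.k0 K.k1 (82502703/5150000000:ℝ) (1/25750000:ℝ) (by norm_num)
  have h10 : Potential 10 (373/100000:ℝ) (1/31250:ℝ) :=
    h9.link K.k0 K.k1 (9087/257500:ℝ) (2/12875:ℝ) (by norm_num)
  have h11 : Potential 11 (373/50000:ℝ) (61/1000000:ℝ) :=
    h10.link K.k0 K.k1 (373/5000:ℝ) (0:ℝ) (by norm_num)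
  have h12 : Potential 12 (357/25000:ℝ) (113/1000000:ℝ) :=
    h11.link K.k0 K.k1 (38199/257500:ℝ) (11/25750:ℝ) (by norm_num)
  have h13 : Potential 13 (527/20000:ℝ) (103/500000:ℝ) :=
    h12.link K.k0 K.k1 (18343/64375:ℝ) (17/51500:ℝ) (by norm_num)
  have h14 : Potential 14 (941/20000:ℝ) (73/200000:ℝ) :=
    h13.link K.k0 K.k1 (54261/103000:ℝ) (1/10300:ℝ) (by norm_num)
  have h15 : Potential 15 (1631/20000:ℝ) (63/100000:ℝ) :=
    h14.link K.k0 K.k1 (96903/103000:ℝ) (1/10300:ℝ) (by norm_num)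
  have h16 : Potential 16 (1173/10000:ℝ) (453/500000:ℝ) :=
    h15.link K.k0 K.k1 (37973/103000:ℝ) (6501/10300:ℝ) (by norm_num)
  have h17 : Potential 17 (7621/50000:ℝ) (91/62500:ℝ) :=
    h16.link K.k1 K.k2 (1683/2575:ℝ) (17833/51500:ℝ) (by norm_num)
  have h18 : Potential 18 (18693/100000:ℝ) (1273/500000:ℝ) :=
    h17.link K.k2 K.k3 (66467/68125:ℝ) (6617/272500:ℝ) (by norm_num)
  have h19 : Potential 19 (22053/100000:ℝ) (2311/500000:ℝ) :=
    h18.link K.k2 K.k3 (343569/545000:ℝ) (100683/272500:ℝ) (by norm_num)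
  have h20 : Potential 20 (25329/100000:ℝ) (7509/1000000:ℝ) :=
    h19.link K.k2 K.k3 (160449/545000:ℝ) (192243/272500:ℝ) (by norm_num)
  have h21 : Potential 21 (1783/6250:ℝ) (11119/1000000:ℝ) :=
    h20.link K.k3 K.k4 (62781/65000:ℝ) (549/16250:ℝ) (by norm_num)
  have h22 : Potential 22 (31669/100000:ℝ) (7873/500000:ℝ) :=
    h21.link K.k3 K.k4 (168013/260000:ℝ) (91913/260000:ℝ) (by norm_num)
  have h23 : Potential 23 (6951/20000:ℝ) (21237/1000000:ℝ) :=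
    h22.link K.k3 K.k4 (13261/40000:ℝ) (26721/40000:ℝ) (by norm_num)
  have h24 : Potential 24 (3779/10000:ℝ) (1373/50000:ℝ) :=
    h23.link K.k3 K.k4 (189/8000:ℝ) (7809/8000:ℝ) (by norm_num)
  have h25 : Potential 25 (10197/25000:ℝ) (8629/250000:ℝ) :=
    h24.link K.k4 K.k5 (6991/9700:ℝ) (6771/24250:ℝ) (by norm_num)
  have h26 : Potential 26 (43751/100000:ℝ) (42313/1000000:ℝ) :=
    h25.link K.k4 K.k5 (20367/48500:ℝ) (140597/242500:ℝ) (by norm_num)
  have h27 : Potential 27 (46681/100000:ℝ) (50753/1000000:ℝ) :=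
    h26.link K.k4 K.k5 (5987/48500:ℝ) (424973/485000:ℝ) (by norm_num)
  have h28 : Potential 28 (24797/50000:ℝ) (1197/20000:ℝ) :=
    h27.link K.k5 K.k6 (73621/95000:ℝ) (641/2850:ℝ) (by norm_num)
  have h29 : Potential 29 (21/40:ℝ) (69601/1000000:ℝ) :=
    h28.link K.k5 K.k6 (36569/95000:ℝ) (17519/28500:ℝ) (by norm_num)
  intro A hA hV
  exact h29 hA hV

theorem chain30 (K : Knots) : Potential 30 (21 / 40) (34887/500000:ℝ) := by
  have h0 : Potential 0 (9/1000000000:ℝ) 0 := potential_zero _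
  have h1 : Potential 1 (99/1000000000:ℝ) (1/1000000:ℝ) :=
    h0.link K.k0 K.k1 (747/5150000000:ℝ) (9/515000000:ℝ) (by norm_num)
  have h2 : Potential 2 (641/1000000000:ℝ) (1/1000000:ℝ) :=
    h1.link K.k0 K.k1 (10097/5150000000:ℝ) (1/103000000:ℝ) (by norm_num)
  have h3 : Potential 3 (2991/1000000000:ℝ) (1/1000000:ℝ) :=
    h2.link K.k0 K.k1 (66003/5150000000:ℝ) (1/515000000:ℝ) (by norm_num)
  have h4 : Potential 4 (701/62500000:ℝ) (1/1000000:ℝ) :=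
    h3.link K.k0 K.k1 (308053/5150000000:ℝ) (1/515000000:ℝ) (by norm_num)
  have h5 : Potential 5 (35889/1000000000:ℝ) (1/500000:ℝ) :=
    h4.link K.k0 K.k1 (288757/1287500000:ℝ) (11/515000000:ℝ) (by norm_num)
  have h6 : Potential 6 (20337/200000000:ℝ) (3/1000000:ℝ) :=
    h5.link K.k0 K.k1 (3696507/5150000000:ℝ) (3/515000000:ℝ) (by norm_num)
  have h7 : Potential 7 (10459/40000000:ℝ) (1/250000:ℝ) :=
    h6.link K.k0 K.k1 (2094691/1030000000:ℝ) (1/103000000:ℝ) (by norm_num)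
  have h8 : Potential 8 (621001/1000000000:ℝ) (7/1000000:ℝ) :=
    h7.link K.k0 K.k1 (5386317/1030000000:ℝ) (17/515000000:ℝ) (by norm_num)
  have h9 : Potential 9 (69/50000:ℝ) (13/1000000:ℝ) :=
    h8.link K.k0 K.k1 (63962703/5150000000:ℝ) (1/25750000:ℝ) (by norm_num)
  have h10 : Potential 10 (9/3125:ℝ) (1/40000:ℝ) :=
    h9.link K.k0 K.k1 (6927/257500:ℝ) (9/25750:ℝ) (by norm_num)
  have h11 : Potential 11 (23/4000:ℝ) (47/1000000:ℝ) :=
    h10.link K.k0 K.k1 (7361/128750:ℝ) (11/51500:ℝ) (by norm_num)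
  have h12 : Potential 12 (551/50000:ℝ) (11/125000:ℝ) :=
    h11.link K.k0 K.k1 (11841/103000:ℝ) (1/51500:ℝ) (by norm_num)
  have h13 : Potential 13 (1017/50000:ℝ) (1/6250:ℝ) :=
    h12.link K.k0 K.k1 (56693/257500:ℝ) (3/25750:ℝ) (by norm_num)
  have h14 : Potential 14 (227/6250:ℝ) (283/1000000:ℝ) :=
    h13.link K.k0 K.k1 (104731/257500:ℝ) (1/25750:ℝ) (by norm_num)
  have h15 : Potential 15 (1259/20000:ℝ) (487/1000000:ℝ) :=
    h14.link K.k0 K.k1 (93489/128750:ℝ) (7/51500:ℝ) (by norm_num)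
  have h16 : Potential 16 (9789/100000:ℝ) (189/250000:ℝ) :=
    h15.link K.k0 K.k1 (76313/103000:ℝ) (13341/51500:ℝ) (by norm_num)
  have h17 : Potential 17 (13221/100000:ℝ) (511/500000:ℝ) :=
    h16.link K.k0 K.k1 (21567/515000:ℝ) (9867/10300:ℝ) (by norm_num)
  have h18 : Potential 18 (4149/25000:ℝ) (443/250000:ℝ) :=
    h17.link K.k1 K.k2 (22887/64375:ℝ) (331857/515000:ℝ) (by norm_num)
  have h19 : Potential 19 (19901/100000:ℝ) (161/50000:ℝ) :=
    h18.link K.k2 K.k3 (457943/545000:ℝ) (87027/545000:ℝ) (by norm_num)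
  have h20 : Potential 20 (23123/100000:ℝ) (221/40000:ℝ) :=
    h19.link K.k2 K.k3 (277633/545000:ℝ) (133631/272500:ℝ) (by norm_num)
  have h21 : Potential 21 (6567/25000:ℝ) (8541/1000000:ℝ) :=
    h20.link K.k2 K.k3 (25471/136250:ℝ) (442951/545000:ℝ) (by norm_num)
  have h22 : Potential 22 (7337/25000:ℝ) (12333/1000000:ℝ) :=
    h21.link K.k3 K.k4 (113509/130000:ℝ) (16489/130000:ℝ) (by norm_num)
  have h23 : Potential 23 (16187/50000:ℝ) (4259/250000:ℝ) :=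
    h22.link K.k3 K.k4 (146763/260000:ℝ) (113183/260000:ℝ) (by norm_num)
  have h24 : Potential 24 (707/2000:ℝ) (11257/500000:ℝ) :=
    h23.link K.k3 K.k4 (68269/260000:ℝ) (191729/260000:ℝ) (by norm_num)
  have h25 : Potential 25 (38279/100000:ℝ) (5737/200000:ℝ) :=
    h24.link K.k4 K.k5 (3737/3880:ℝ) (707/19400:ℝ) (by norm_num)
  have h26 : Potential 26 (20587/50000:ℝ) (7127/200000:ℝ) :=
    h25.link K.k4 K.k5 (32483/48500:ℝ) (159917/485000:ℝ) (by norm_num)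
  have h27 : Potential 27 (44037/100000:ℝ) (21631/500000:ℝ) :=
    h26.link K.k4 K.k5 (1477/3880:ℝ) (300167/485000:ℝ) (by norm_num)
  have h28 : Potential 28 (4687/10000:ℝ) (25739/500000:ℝ) :=
    h27.link K.k4 K.k5 (2331/24250:ℝ) (438361/485000:ℝ) (by norm_num)
  have h29 : Potential 29 (6211/12500:ℝ) (15081/250000:ℝ) :=
    h28.link K.k5 K.k6 (14181/19000:ℝ) (7211/28500:ℝ) (by norm_num)
  have h30 : Potential 30 (21/40:ℝ) (34887/500000:ℝ) :=
    h29.link K.k5 K.k6 (8837/23750:ℝ) (4471/7125:ℝ) (by norm_num)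
  intro A hA hV
  exact h30 hA hV

theorem chain31 (K : Knots) : Potential 31 (21 / 40) (699/10000:ℝ) := by
  have h0 : Potential 0 (7/1000000000:ℝ) 0 := potential_zero _
  have h1 : Potential 1 (37/500000000:ℝ) (1/1000000:ℝ) :=
    h0.link K.k0 K.k1 (521/5150000000:ℝ) (1/51500000:ℝ) (by norm_num)
  have h2 : Potential 2 (479/1000000000:ℝ) (1/1000000:ℝ) :=
    h1.link K.k0 K.k1 (3771/2575000000:ℝ) (1/128750000:ℝ) (by norm_num)
  have h3 : Potential 3 (2233/1000000000:ℝ) (1/1000000:ℝ) :=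
    h2.link K.k0 K.k1 (49197/5150000000:ℝ) (7/515000000:ℝ) (by norm_num)
  have h4 : Potential 4 (8371/1000000000:ℝ) (1/1000000:ℝ) :=
    h3.link K.k0 K.k1 (229779/5150000000:ℝ) (11/515000000:ℝ) (by norm_num)
  have h5 : Potential 5 (26787/1000000000:ℝ) (1/1000000:ℝ) :=
    h4.link K.k0 K.k1 (862193/5150000000:ℝ) (1/515000000:ℝ) (by norm_num)
  have h6 : Potential 6 (9487/125000000:ℝ) (1/500000:ℝ) :=
    h5.link K.k0 K.k1 (2759001/5150000000:ℝ) (3/515000000:ℝ) (by norm_num)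
  have h7 : Potential 7 (195159/1000000000:ℝ) (3/1000000:ℝ) :=
    h6.link K.k0 K.k1 (1954247/1287500000:ℝ) (3/103000000:ℝ) (by norm_num)
  have h8 : Potential 8 (463501/1000000000:ℝ) (1/200000:ℝ) :=
    h7.link K.k0 K.k1 (20101117/5150000000:ℝ) (13/515000000:ℝ) (by norm_num)
  have h9 : Potential 9 (103/100000:ℝ) (1/100000:ℝ) :=
    h8.link K.k0 K.k1 (47740203/5150000000:ℝ) (1/25750000:ℝ) (by norm_num)
  have h10 : Potential 10 (27/12500:ℝ) (19/1000000:ℝ) :=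
    h9.link K.k0 K.k1 (10549/515000:ℝ) (3/51500:ℝ) (by norm_num)
  have h11 : Potential 11 (431/100000:ℝ) (9/250000:ℝ) :=
    h10.link K.k0 K.k1 (5507/128750:ℝ) (11/51500:ℝ) (by norm_num)
  have h12 : Potential 12 (33/4000:ℝ) (33/500000:ℝ) :=
    h11.link K.k0 K.k1 (44133/515000:ℝ) (13/51500:ℝ) (by norm_num)
  have h13 : Potential 13 (1523/100000:ℝ) (3/25000:ℝ) :=
    h12.link K.k0 K.k1 (16991/103000:ℝ) (1/51500:ℝ) (by norm_num)
  have h14 : Potential 14 (1359/50000:ℝ) (53/250000:ℝ) :=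
    h13.link K.k0 K.k1 (156409/515000:ℝ) (23/51500:ℝ) (by norm_num)
  have h15 : Potential 15 (4711/100000:ℝ) (73/200000:ℝ) :=
    h14.link K.k0 K.k1 (139947/257500:ℝ) (3/51500:ℝ) (by norm_num)
  have h16 : Potential 16 (7949/100000:ℝ) (307/500000:ℝ) :=
    h15.link K.k0 K.k1 (484973/515000:ℝ) (13/51500:ℝ) (by norm_num)
  have h17 : Potential 17 (2261/20000:ℝ) (873/1000000:ℝ) :=
    h16.link K.k0 K.k1 (211007/515000:ℝ) (30387/51500:ℝ) (by norm_num)
  have h18 : Potential 18 (2921/20000:ℝ) (1327/1000000:ℝ) :=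
    h17.link K.k1 K.k2 (19009/25750:ℝ) (26937/103000:ℝ) (by norm_num)
  have h19 : Potential 19 (17853/100000:ℝ) (223/100000:ℝ) :=
    h18.link K.k1 K.k2 (2017/25750:ℝ) (94909/103000:ℝ) (by norm_num)
  have h20 : Potential 20 (657/3125:ℝ) (991/250000:ℝ) :=
    h19.link K.k2 K.k3 (389349/545000:ℝ) (77793/272500:ℝ) (by norm_num)
  have h21 : Potential 21 (24119/100000:ℝ) (403/62500:ℝ) :=
    h20.link K.k2 K.k3 (216267/545000:ℝ) (328563/545000:ℝ) (by norm_num)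
  have h22 : Potential 22 (3393/12500:ℝ) (9559/1000000:ℝ) :=
    h21.link K.k2 K.k3 (47777/545000:ℝ) (62141/68125:ℝ) (by norm_num)
  have h23 : Potential 23 (941/3125:ℝ) (13497/1000000:ℝ) :=
    h22.link K.k3 K.k4 (25483/32500:ℝ) (7003/32500:ℝ) (by norm_num)
  have h24 : Potential 24 (33031/100000:ℝ) (18251/1000000:ℝ) :=
    h23.link K.k3 K.k4 (31723/65000:ℝ) (33263/65000:ℝ) (by norm_num)
  have h25 : Potential 25 (35903/100000:ℝ) (11853/500000:ℝ) :=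
    h24.link K.k3 K.k4 (101737/520000:ℝ) (418077/520000:ℝ) (by norm_num)
  have h26 : Potential 26 (7747/20000:ℝ) (29827/1000000:ℝ) :=
    h25.link K.k4 K.k5 (2206/2425:ℝ) (43799/485000:ℝ) (by norm_num)
  have h27 : Potential 27 (8307/20000:ℝ) (36663/1000000:ℝ) :=
    h26.link K.k4 K.k5 (1516/2425:ℝ) (36331/97000:ℝ) (by norm_num)
  have h28 : Potential 28 (8861/20000:ℝ) (44123/1000000:ℝ) :=
    h27.link K.k4 K.k5 (837/2425:ℝ) (63491/97000:ℝ) (by norm_num)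
  have h29 : Potential 29 (23523/50000:ℝ) (13033/250000:ℝ) :=
    h28.link K.k4 K.k5 (6521/97000:ℝ) (9043/9700:ℝ) (by norm_num)
  have h30 : Potential 30 (3111/6250:ℝ) (15183/250000:ℝ) :=
    h29.link K.k5 K.k6 (17229/23750:ℝ) (1303/4750:ℝ) (by norm_num)
  have h31 : Potential 31 (21/40:ℝ) (699/10000:ℝ) :=
    h30.link K.k5 K.k6 (17133/47500:ℝ) (607/950:ℝ) (by norm_num)
  intro A hA hV
  exact h31 hA hV

end Vale.Agent.P254.Uncond
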