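import Vale.Agent.P254.Uncond.ProfileVar
import Mathlib

/-!
Numerical facts for evaluating certificates: a lower bound for Euler's constant, the exponential
integral of the logarithm, and exponential integrals of affine functions.
-/

open MeasureTheory Set Filter Topology

namespace Vale.Agent.P254.Uncond

/-- `H n - log n - 1 / (2 n)`, shifted by one. -/
noncomputable def eulerLow (n : ℕ) : ℝ :=
  (harmonic (n + 1) : ℝ) - Real.log ((n:ℝ) + 1) - 1 / (2 * ((n:ℝ) + 1))

lemma eulerLow_mono : Monotone eulerLow := by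
  refine monotone_nat_of_le_succ fun n => ?_
  have hn : (0:ℝ) < (n:ℝ) + 1 := by positivity
  set x : ℝ := ((n:ℝ) + 2) / ((n:ℝ) + 1) with hx
  have hx1 : 1 ≤ x := by rw [hx, le_div_iff₀ hn]; linarith
  have h := Real.self_le_sinh_iff.2 (Real.log_nonneg hx1)
  rw [Real.sinh_log (by linarith), hx, Real.log_div (by positivity) hn.ne'] at h
  simp only [eulerLow, harmonic_succ (n + 1)]
  push_cast
  have e : ((n:ℝ) + 1 + 1) = (n:ℝ) + 2 := by ring
  rw [e]
  have e2 : (((n:ℝ) + 2) / ((n:ℝ) + 1) - (((n:ℝ) + 2) / ((n:ℝ) + 1))⁻¹) / 2 =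
      ((n:ℝ) + 2)⁻¹ - 1 / (2 * ((n:ℝ) + 2)) + 1 / (2 * ((n:ℝ) + 1)) := by
    field_simp
    ring
  linarith

lemma eulerLow_le (n : ℕ) : eulerLow n ≤ Real.eulerMascheroniConstant := by
  refine eulerLow_mono.ge_of_tendsto ?_ n
  have h1 := Real.tendsto_harmonic_sub_log.comp (tendsto_add_atTop_nat 1)
  have h2 : Tendsto (fun n : ℕ => 1 / (2 * ((n:ℝ) + 1))) atTop (𝓝 0) := by
    have := (tendsto_one_div_add_atTop_nhds_zero_nat (𝕜 := ℝ)).const_mul (1 / 2)
    simpa [div_eq_mul_inv, mul_inv, mul_comm] using this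
  have := h1.sub h2
  simp only [sub_zero] at this
  refine this.congr fun n => ?_
  simp only [eulerLow, Function.comp_apply]
  push_cast
  rfl

/-- A lower bound for Euler's constant. -/
theorem euler_lower : (57718 / 100000 : ℝ) ≤ Real.eulerMascheroniConstant := by
  refine le_trans ?_ (eulerLow_le 63)
  have h64 : Real.log (((63:ℕ):ℝ) + 1) = 6 * Real.log 2 := by
    rw [show (((63:ℕ):ℝ) + 1) = (2:ℝ) ^ 6 by norm_num, Real.log_pow]; norm_num
  have hH : harmonic (63 + 1) = ∑ i ∈ Finset.range 64, ((i:ℚ) + 1)⁻¹ := by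
    simp [harmonic]
  have hq : (57718 / 100000 + 6 * (6931471808 / 10000000000) + 1 / 128 : ℚ) ≤
      ∑ i ∈ Finset.range 64, ((i:ℚ) + 1)⁻¹ := by
    norm_num [Finset.sum_range_succ]
  rw [← hH] at hq
  have hq' : ((57718 / 100000 + 6 * (6931471808 / 10000000000) + 1 / 128 : ℚ) : ℝ) ≤
      (harmonic (63 + 1) : ℝ) := Rat.cast_le.2 hq
  push_cast at hq'
  have hl := Real.log_two_lt_d9
  rw [eulerLow, h64]
  norm_num at hl hq' ⊢
  linarith

lemma integrableOn_exp_log : IntegrableOn (fun u => Real.exp (-u) * Real.log u) (Ioi 0) :=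
  integrableOn_exp_mul_log.mono' (by fun_prop) (Eventually.of_forall fun u => by
    simp [Real.abs_exp])

/-- The exponential integral of the logarithm is minus Euler's constant. -/
theorem integral_exp_log :
    IntegrableOn (fun u => Real.exp (-u) * Real.log u) (Ioi 0) ∧
      ∫ u in Ioi (0:ℝ), Real.exp (-u) * Real.log u = -Real.eulerMascheroniConstant := by
  refine ⟨integrableOn_exp_log, ?_⟩
  have h1 : HasDerivAt Complex.GammaIntegral (-(Real.eulerMascheroniConstant : ℂ)) 1 := by
    refine Complex.hasDerivAt_Gamma_one.congr_of_eventuallyEq ?_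
    filter_upwards [(isOpen_lt continuous_const Complex.continuous_re).mem_nhds
      (show (0:ℝ) < (1:ℂ).re by simp)] with s hs
    exact (Complex.Gamma_eq_integral hs).symm
  have h2 := h1.unique (Complex.hasDerivAt_GammaIntegral (s := 1) (by simp))
  have e : ∫ t in Ioi (0:ℝ), (t:ℂ) ^ ((1:ℂ) - 1) * ((Real.log t : ℂ) * (Real.exp (-t) : ℂ)) =
      ((∫ u in Ioi (0:ℝ), Real.exp (-u) * Real.log u : ℝ) : ℂ) := by
    rw [← integral_complex_ofReal]
    refine setIntegral_congr_fun measurableSet_Ioi fun t _ => ?_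
    rw [sub_self, Complex.cpow_zero, one_mul]
    push_cast
    ring
  rw [e] at h2
  exact_mod_cast h2.symm

lemma hasDerivAt_exp_affine (m0 m1 u : ℝ) :
    HasDerivAt (fun u => -(Real.exp (-u) * (m0 + m1 + m1 * u)))
      (Real.exp (-u) * (m0 + m1 * u)) u := by
  refine (((hasDerivAt_id u).fun_neg.exp.fun_mul
    (((hasDerivAt_id u).const_mul m1).const_add (m0 + m1))).fun_neg).congr_deriv ?_
  simp only [id]
  ring

/-- The exponential integral of an affine function over an interval. -/
theorem integral_exp_affine {a b : ℝ} (hab : a ≤ b) (m0 m1 : ℝ) :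
    IntegrableOn (fun u => Real.exp (-u) * (m0 + m1 * u)) (Ico a b) ∧
      ∫ u in Ico a b, Real.exp (-u) * (m0 + m1 * u) =
        Real.exp (-a) * (m0 + m1 + m1 * a) - Real.exp (-b) * (m0 + m1 + m1 * b) := by
  have hc : Continuous fun u => Real.exp (-u) * (m0 + m1 * u) := by fun_prop
  refine ⟨hc.integrableOn_Icc.mono_set Ico_subset_Icc_self, ?_⟩
  rw [← integral_Icc_eq_integral_Ico, integral_Icc_eq_integral_Ioc,
    ← intervalIntegral.integral_of_le hab,
    intervalIntegral.integral_eq_sub_of_hasDerivAt (fun u _ => hasDerivAt_exp_affine m0 m1 u)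
      (hc.intervalIntegrable a b)]
  ring

/-- The exponential integral of an affine function over a half-line. -/
theorem integral_exp_affine_Ici {a : ℝ} (ha : 0 ≤ a) (m0 m1 : ℝ) :
    IntegrableOn (fun u => Real.exp (-u) * (m0 + m1 * u)) (Ici a) ∧
      ∫ u in Ici a, Real.exp (-u) * (m0 + m1 * u) = Real.exp (-a) * (m0 + m1 + m1 * a) := by
  have hi : IntegrableOn (fun u => Real.exp (-u) * (m0 + m1 * u)) (Ioi a) := by
    refine IntegrableOn.mono_set ?_ (Ioi_subset_Ioi ha)
    have h : IntegrableOn (fun u => m0 * Real.exp (-u) + m1 * (Real.exp (-u) * u)) (Ioi 0) :=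
      ((integrableOn_exp_neg_Ioi 0).const_mul m0).add (integrableOn_exp_mul_id.const_mul m1)
    exact h.congr_fun (fun u _ => by ring) measurableSet_Ioi
  have hlim : Tendsto (fun u : ℝ => -(Real.exp (-u) * (m0 + m1 + m1 * u))) atTop (𝓝 0) := by
    have := (((Real.tendsto_pow_mul_exp_neg_atTop_nhds_zero 0).const_mul (m0 + m1)).add
      ((Real.tendsto_pow_mul_exp_neg_atTop_nhds_zero 1).const_mul m1)).neg
    simp only [mul_zero, add_zero, neg_zero] at this
    refine this.congr fun u => ?_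
    ring
  refine ⟨(integrableOn_Ici_iff_integrableOn_Ioi).2 hi, ?_⟩
  rw [integral_Ici_eq_integral_Ioi,
    integral_Ioi_of_hasDerivAt_of_tendsto' (fun u _ => hasDerivAt_exp_affine m0 m1 u) hi hlim]
  ring

end Vale.Agent.P254.Uncond
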