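import Vale.Agent.P254.Uncond.Defs
import Mathlib

/-!
Calculus of decreasing log-concave profiles: the hazard `u`, the ratios `r` and `v`, their bounds
and derivatives, and the substitution `u = haz g t`.
-/

open MeasureTheory Set Filter Topology

namespace Vale.Agent.P254.Uncond

variable {g : ℝ → ℝ} {R : ℝ}

namespace Prof

variable (hg : Prof g R)
include hg

lemma le_zero {t : ℝ} (ht : 0 ≤ t) : g t ≤ g 0 :=
  hg.anti (mem_Ici.2 le_rfl) (mem_Ici.2 ht) ht

lemma intervalInt {a b : ℝ} (ha : 0 ≤ a) (hb : 0 ≤ b) : IntervalIntegrable g volume a b :=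
  (hg.anti.mono fun _ hx => (le_inf ha hb).trans hx.1).intervalIntegrable

lemma integrableOn_Ioi : IntegrableOn g (Ioi 0) := by
  have h1 : IntegrableOn g (Icc 0 R) :=
    (hg.anti.mono Icc_subset_Ici_self).integrableOn_isCompact isCompact_Icc
  have h2 : IntegrableOn g (Ioi R) :=
    integrableOn_zero.congr_fun (fun t ht => (hg.beyond t ht).symm) measurableSet_Ioi
  refine (h1.union h2).mono_set fun t ht => ?_
  rcases le_or_gt t R with h | h
  · exact Or.inl ⟨le_of_lt ht, h⟩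
  · exact Or.inr h

lemma integral_Ioi_eq {t : ℝ} (ht : 0 ≤ t) (f : ℝ → ℝ) :
    ∫ s in Ioi t, g s * f s = ∫ s in Ioc t R, g s * f s := by
  refine setIntegral_eq_of_subset_of_forall_sdiff_eq_zero measurableSet_Ioi
    (fun s hs => hs.1) fun s hs => ?_
  have h : R < s := not_le.1 fun h => hs.2 ⟨hs.1, h⟩
  rw [hg.beyond s h, zero_mul]

lemma avg_eq (f : ℝ → ℝ) : avg g f = (∫ t in Ioo 0 R, g t * f t) / tot g := by
  rw [avg, hg.integral_Ioi_eq le_rfl, integral_Ioc_eq_integral_Ioo]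

lemma tail_eq {t : ℝ} (ht : 0 ≤ t) (htR : t ≤ R) : tail g t = ∫ s in t..R, g s := by
  have := hg.integral_Ioi_eq ht fun _ => 1
  simp only [mul_one] at this
  rw [tail, this, intervalIntegral.integral_of_le htR]

lemma tail_R : tail g R = 0 := by simp [hg.tail_eq hg.R_pos.le le_rfl]

omit hg in
lemma tail_zero : tail g 0 = tot g := rfl

lemma tail_continuousOn : ContinuousOn (tail g) (Icc 0 R) := by
  have h : IntegrableOn g (uIcc 0 R) := by
    rw [uIcc_of_le hg.R_pos.le]
    exact (hg.anti.mono Icc_subset_Ici_self).integrableOn_isCompact isCompact_Icc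
  have := intervalIntegral.continuousOn_primitive_interval_left h
  rw [uIcc_of_le hg.R_pos.le] at this
  exact this.congr fun t ht => hg.tail_eq ht.1 ht.2

lemma tail_pos {t : ℝ} (ht : 0 ≤ t) (htR : t < R) : 0 < tail g t := by
  rw [hg.tail_eq ht htR.le]
  exact intervalIntegral.intervalIntegral_pos_of_pos_on (hg.intervalInt ht hg.R_pos.le)
    (fun s hs => hg.pos s (ht.trans hs.1.le) hs.2) htR

lemma tot_pos : 0 < tot g := hg.tail_pos le_rfl hg.R_pos

lemma tot_sub_tail {t : ℝ} (ht : 0 ≤ t) (htR : t ≤ R) :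
    tot g - tail g t = ∫ s in (0:ℝ)..t, g s := by
  rw [← tail_zero, hg.tail_eq le_rfl hg.R_pos.le, hg.tail_eq ht htR,
    intervalIntegral.integral_interval_sub_interval_comm' (hg.intervalInt le_rfl hg.R_pos.le)
      (hg.intervalInt ht hg.R_pos.le) (hg.intervalInt le_rfl ht)]
  simp [intervalIntegral.integral_symm 0 t]

lemma mul_le_tot_sub {t : ℝ} (ht : 0 ≤ t) (htR : t ≤ R) : t * g t ≤ tot g - tail g t := by
  rw [hg.tot_sub_tail ht htR]
  have h := intervalIntegral.integral_mono_on ht (intervalIntegrable_const (c := g t))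
    (hg.intervalInt le_rfl ht) fun s hs => hg.anti (mem_Ici.2 hs.1) (mem_Ici.2 ht) hs.2
  simpa using h

lemma continuousOn_phi : ContinuousOn (fun t => -Real.log (g t)) (Ioo 0 R) := by
  have := hg.convex.continuousOn_interior
  rwa [interior_Ico] at this

lemma continuousOn_g : ContinuousOn g (Ioo 0 R) := by
  refine ((hg.continuousOn_phi.neg).rexp).congr fun t ht => ?_
  simp [Real.exp_log (hg.pos t ht.1.le ht.2)]

lemma continuousAt_g {t : ℝ} (ht : t ∈ Ioo 0 R) : ContinuousAt g t :=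
  hg.continuousOn_g.continuousAt (Ioo_mem_nhds ht.1 ht.2)

lemma g_pos {t : ℝ} (ht : t ∈ Ioo 0 R) : 0 < g t := hg.pos t ht.1.le ht.2

lemma tail_pos' {t : ℝ} (ht : t ∈ Ioo 0 R) : 0 < tail g t := hg.tail_pos ht.1.le ht.2

lemma tail_hasDerivAt {t : ℝ} (ht : t ∈ Ioo 0 R) : HasDerivAt (tail g) (-g t) t := by
  have h := intervalIntegral.integral_hasDerivAt_left (hg.intervalInt ht.1.le hg.R_pos.le)
    (hg.meas.stronglyMeasurable.stronglyMeasurableAtFilter) (hg.continuousAt_g ht)
  refine h.congr_of_eventuallyEq ?_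
  filter_upwards [Ioo_mem_nhds ht.1 ht.2] with s hs
  exact hg.tail_eq hs.1.le hs.2.le

/-! ### The hazard -/

lemma haz_zero : haz g 0 = 0 := by
  rw [haz, tail_zero, div_self hg.tot_pos.ne', Real.log_one]

lemma haz_eq {t : ℝ} (ht : 0 ≤ t) (htR : t < R) :
    haz g t = Real.log (tot g) - Real.log (tail g t) :=
  Real.log_div hg.tot_pos.ne' (hg.tail_pos ht htR).ne'

lemma exp_neg_haz {t : ℝ} (ht : 0 ≤ t) (htR : t < R) :
    Real.exp (-haz g t) = tail g t / tot g := by
  rw [haz, Real.exp_neg, Real.exp_log (div_pos hg.tot_pos (hg.tail_pos ht htR)), inv_div]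

lemma exp_haz {t : ℝ} (ht : 0 ≤ t) (htR : t < R) :
    Real.exp (haz g t) = tot g / tail g t := by
  rw [haz, Real.exp_log (div_pos hg.tot_pos (hg.tail_pos ht htR))]

lemma haz_pos {t : ℝ} (ht : t ∈ Ioo 0 R) : 0 < haz g t := by
  refine Real.log_pos ((one_lt_div (hg.tail_pos' ht)).2 ?_)
  nlinarith [hg.mul_le_tot_sub ht.1.le ht.2.le, hg.g_pos ht, ht.1]

lemma haz_nonneg {t : ℝ} (ht : 0 ≤ t) (htR : t < R) : 0 ≤ haz g t := by
  rcases ht.eq_or_lt with rfl | h
  · exact hg.haz_zero.ge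
  · exact (hg.haz_pos ⟨h, htR⟩).le

lemma haz_continuousOn : ContinuousOn (haz g) (Ico 0 R) :=
  (continuousOn_const.div (hg.tail_continuousOn.mono Ico_subset_Icc_self)
    fun t ht => (hg.tail_pos ht.1 ht.2).ne').log
      fun t ht => (div_pos hg.tot_pos (hg.tail_pos ht.1 ht.2)).ne'

lemma haz_hasDerivAt {t : ℝ} (ht : t ∈ Ioo 0 R) :
    HasDerivAt (haz g) (g t / tail g t) t := by
  have h := ((hg.tail_hasDerivAt ht).log (hg.tail_pos' ht).ne').const_sub (Real.log (tot g))
  rw [neg_div, neg_neg] at h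
  refine h.congr_of_eventuallyEq ?_
  filter_upwards [Ioo_mem_nhds ht.1 ht.2] with s hs
  exact hg.haz_eq hs.1.le hs.2

lemma haz_strictMonoOn : StrictMonoOn (haz g) (Ioo 0 R) := by
  refine strictMonoOn_of_deriv_pos (convex_Ioo 0 R)
    (hg.haz_continuousOn.mono Ioo_subset_Ico_self) fun t ht => ?_
  rw [interior_Ioo] at ht
  rw [(hg.haz_hasDerivAt ht).deriv]
  exact div_pos (hg.g_pos ht) (hg.tail_pos' ht)

lemma haz_image : haz g '' Ioo 0 R = Ioi 0 := by
  refine subset_antisymm ?_ fun y (hy : 0 < y) => ?_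
  · rintro _ ⟨t, ht, rfl⟩
    exact hg.haz_pos ht
  · have hV := hg.tot_pos
    have hlt : tot g * Real.exp (-y) < tot g := by
      have := Real.exp_lt_one_iff.2 (neg_lt_zero.2 hy)
      nlinarith
    obtain ⟨t, ht, he⟩ := intermediate_value_Ioo' hg.R_pos.le hg.tail_continuousOn
      (show tot g * Real.exp (-y) ∈ Ioo (tail g R) (tail g 0) from
        ⟨by rw [hg.tail_R]; positivity, by rw [tail_zero]; exact hlt⟩)
    refine ⟨t, ht, ?_⟩
    rw [hg.haz_eq ht.1.le ht.2, he, Real.log_mul hV.ne' (Real.exp_pos _).ne', Real.log_exp]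
    ring

lemma tendsto_haz_zero : Tendsto (haz g) (𝓝[>] (0:ℝ)) (𝓝 0) := by
  have h := hg.haz_continuousOn 0 ⟨le_rfl, hg.R_pos⟩
  rw [ContinuousWithinAt, hg.haz_zero] at h
  refine h.mono_left ?_
  rw [← nhdsWithin_Ioo_eq_nhdsGT hg.R_pos]
  exact nhdsWithin_mono _ Ioo_subset_Ico_self

lemma tendsto_haz_R : Tendsto (haz g) (𝓝[<] R) atTop := by
  rw [← nhdsWithin_Ioo_eq_nhdsLT hg.R_pos]
  have h := hg.tail_continuousOn R ⟨hg.R_pos.le, le_rfl⟩
  rw [ContinuousWithinAt, hg.tail_R] at h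
  have h' : Tendsto (tail g) (𝓝[Ioo 0 R] R) (𝓝[>] 0) :=
    tendsto_nhdsWithin_iff.2 ⟨h.mono_left (nhdsWithin_mono _ Ioo_subset_Icc_self),
      eventually_mem_nhdsWithin.mono fun t ht => hg.tail_pos' ht⟩
  have h2 := (Real.tendsto_log_nhdsGT_zero.comp h')
  refine ((tendsto_neg_atBot_atTop.comp h2).atTop_add
    (tendsto_const_nhds (x := Real.log (tot g)))).congr' ?_
  filter_upwards [eventually_mem_nhdsWithin] with t ht
  simp only [Function.comp_apply, hg.haz_eq ht.1.le ht.2]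
  ring

/-- The substitution `u = haz g t`: integrability. -/
lemma integrable_haz_iff (f : ℝ → ℝ) :
    IntegrableOn (fun t => g t * f (haz g t)) (Ioo 0 R) ↔
      IntegrableOn (fun s => Real.exp (-s) * f s) (Ioi 0) := by
  have h := integrableOn_image_iff_integrableOn_abs_deriv_smul measurableSet_Ioo
    (fun t ht => (hg.haz_hasDerivAt ht).hasDerivWithinAt) hg.haz_strictMonoOn.injOn
    (fun s => Real.exp (-s) * f s)
  rw [hg.haz_image] at h
  rw [h, integrableOn_congr_fun (f := fun t => |g t / tail g t| • (Real.exp (-haz g t) * f (haz g t)))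
    (g := fun t => (tot g)⁻¹ * (g t * f (haz g t))) ?_ measurableSet_Ioo]
  · constructor
    · exact fun h => h.const_mul _
    · intro h
      have := h.const_mul (tot g)
      refine (integrableOn_congr_fun (fun t _ => ?_) measurableSet_Ioo).1 this
      field_simp [hg.tot_pos.ne']
  · intro t ht
    simp only [smul_eq_mul, hg.exp_neg_haz ht.1.le ht.2,
      abs_of_pos (div_pos (hg.g_pos ht) (hg.tail_pos' ht))]
    field_simp [(hg.tail_pos' ht).ne', hg.tot_pos.ne']

/-- The substitution `u = haz g t`. -/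
lemma integral_haz (f : ℝ → ℝ) :
    ∫ t in Ioo 0 R, g t * f (haz g t) = tot g * ∫ s in Ioi (0:ℝ), Real.exp (-s) * f s := by
  have h := integral_image_eq_integral_abs_deriv_smul measurableSet_Ioo
    (fun t ht => (hg.haz_hasDerivAt ht).hasDerivWithinAt) hg.haz_strictMonoOn.injOn
    (fun s => Real.exp (-s) * f s)
  rw [hg.haz_image] at h
  rw [h, ← integral_const_mul]
  refine setIntegral_congr_fun measurableSet_Ioo fun t ht => ?_
  simp only [smul_eq_mul, hg.exp_neg_haz ht.1.le ht.2,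
    abs_of_pos (div_pos (hg.g_pos ht) (hg.tail_pos' ht))]
  field_simp [(hg.tail_pos' ht).ne', hg.tot_pos.ne']

/-! ### The slope and the ratio `r` -/

lemma slope_hasDeriv {t : ℝ} (ht : t ∈ Ioo 0 R) :
    HasDerivWithinAt (fun s => -Real.log (g s)) (slope g t) (Ioi t) t :=
  hg.convex.hasDerivWithinAt_rightDeriv_of_mem_interior (by rwa [interior_Ico])

lemma slope_nonneg {t : ℝ} (ht : t ∈ Ioo 0 R) : 0 ≤ slope g t := by
  refine ge_of_tendsto ((hasDerivWithinAt_iff_tendsto_slope' self_notMem_Ioi).1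
    (hg.slope_hasDeriv ht)) ?_
  filter_upwards [self_mem_nhdsWithin, Ioo_mem_nhdsGT ht.2] with s (hs : t < s) hs2
  rw [slope_def_field]
  refine div_nonneg ?_ (by linarith)
  have := Real.log_le_log (hg.pos s (ht.1.le.trans hs.le) hs2.2)
    (hg.anti (mem_Ici.2 ht.1.le) (mem_Ici.2 (ht.1.le.trans hs.le)) hs.le)
  linarith

lemma g_le_exp {t s : ℝ} (ht : t ∈ Ioo 0 R) (hts : t < s) (hs : s < R) :
    g s ≤ g t * Real.exp (-(slope g t * (s - t))) := by
  have h := hg.convex.rightDeriv_le_slope_of_mem_interior (x := t) (y := s)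
    (by rwa [interior_Ico]) ⟨ht.1.le.trans hts.le, hs⟩ hts
  rw [slope_def_field, le_div_iff₀ (by linarith)] at h
  change slope g t * (s - t) ≤ _ at h
  calc g s = Real.exp (Real.log (g s)) := (Real.exp_log (hg.pos s (by linarith [ht.1]) hs)).symm
    _ ≤ Real.exp (Real.log (g t) + -(slope g t * (s - t))) := Real.exp_le_exp.2 (by linarith)
    _ = _ := by rw [Real.exp_add, Real.exp_log (hg.g_pos ht)]

lemma slope_mul_tail_le {t : ℝ} (ht : t ∈ Ioo 0 R) : slope g t * tail g t ≤ g t := by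
  set a := slope g t with ha
  have h := intervalIntegral.integral_le_sub_of_hasDeriv_right_of_le
    (g := fun s => -(g t * Real.exp (-(a * (s - t)))))
    (g' := fun s => a * (g t * Real.exp (-(a * (s - t))))) (φ := fun s => a * g s) ht.2.le
    (by fun_prop) (fun s _ => ?_) ?_
    fun s hs => mul_le_mul_of_nonneg_left (hg.g_le_exp ht hs.1 hs.2) (hg.slope_nonneg ht)
  · rw [intervalIntegral.integral_const_mul, ← hg.tail_eq ht.1.le ht.2.le] at h
    simp only [sub_self, mul_zero, neg_zero, Real.exp_zero, mul_one] at h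
    nlinarith [Real.exp_pos (-(a * (R - t))), hg.g_pos ht]
  · refine (HasDerivAt.hasDerivWithinAt ?_)
    have := ((((hasDerivAt_id s).sub_const t).const_mul a).fun_neg.exp.const_mul (g t)).fun_neg
    simpa [mul_comm, mul_assoc, mul_left_comm] using this
  · exact ((hg.anti.mono fun x hx => ht.1.le.trans hx.1).integrableOn_isCompact
      isCompact_Icc).const_mul a

lemma rate_nonneg {t : ℝ} (ht : t ∈ Ioo 0 R) : 0 ≤ rate g t :=
  div_nonneg (mul_nonneg (hg.slope_nonneg ht) (hg.tail_pos' ht).le) (hg.g_pos ht).le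

lemma rate_le_one {t : ℝ} (ht : t ∈ Ioo 0 R) : rate g t ≤ 1 :=
  (div_le_one (hg.g_pos ht)).2 (hg.slope_mul_tail_le ht)

lemma g_hasDerivRight {t : ℝ} (ht : t ∈ Ioo 0 R) :
    HasDerivWithinAt g (-(slope g t * g t)) (Ioi t) t := by
  have h := (hg.slope_hasDeriv ht).fun_neg.exp
  simp only [neg_neg, Real.exp_log (hg.g_pos ht), mul_neg] at h
  rw [mul_comm] at h
  refine h.congr_of_eventuallyEq ?_ (Real.exp_log (hg.g_pos ht)).symm
  filter_upwards [Ioo_mem_nhdsGT ht.2] with s hs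
  exact (Real.exp_log (hg.pos s (ht.1.le.trans hs.1.le) hs.2)).symm

lemma hazrate_hasDerivRight {t : ℝ} (ht : t ∈ Ioo 0 R) :
    HasDerivWithinAt (fun s => g s / tail g s) ((g t / tail g t) ^ 2 * (1 - rate g t)) (Ioi t) t := by
  refine ((hg.g_hasDerivRight ht).div (hg.tail_hasDerivAt ht).hasDerivWithinAt
    (hg.tail_pos' ht).ne').congr_deriv ?_
  rw [rate]
  field_simp [(hg.g_pos ht).ne', (hg.tail_pos' ht).ne']
  ring

/-! ### The ratio `v` -/

lemma vrat_pos {t : ℝ} (ht : t ∈ Ioo 0 R) : 0 < vrat g t :=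
  div_pos (mul_pos ht.1 (hg.g_pos ht)) (hg.tail_pos' ht)

lemma vrat_hasDerivRight {t : ℝ} (ht : t ∈ Ioo 0 R) :
    HasDerivWithinAt (vrat g) (g t / tail g t * (1 + (1 - rate g t) * vrat g t)) (Ioi t) t := by
  have h := (hasDerivWithinAt_id t (Ioi t)).fun_mul (hg.hazrate_hasDerivRight ht)
  have e : vrat g = fun s => id s * (g s / tail g s) := by
    funext s; simp [vrat, mul_div_assoc]
  rw [e]
  refine h.congr_deriv ?_
  simp only [id]
  ring

lemma vrat_continuousOn : ContinuousOn (vrat g) (Ioo 0 R) :=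
  (continuousOn_id.mul hg.continuousOn_g).div
    (hg.tail_continuousOn.mono Ioo_subset_Icc_self) fun _ ht => (hg.tail_pos' ht).ne'

lemma haz_le_vrat {t : ℝ} (ht : t ∈ Ioo 0 R) : haz g t ≤ vrat g t := by
  have key : ∀ a ∈ Ioo 0 t, -haz g a ≤ vrat g t - haz g t := by
    intro a ha
    have hsub : Icc a t ⊆ Ioo 0 R := Icc_subset_Ioo ha.1 ht.2
    have h := intervalIntegral.integral_le_sub_of_hasDeriv_right_of_le
      (g := fun s => vrat g s - haz g s)
      (g' := fun s => g s / tail g s * (1 + (1 - rate g s) * vrat g s) - g s / tail g s)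
      (φ := fun _ => (0:ℝ)) ha.2.le
      ((hg.vrat_continuousOn.mono hsub).sub
        (hg.haz_continuousOn.mono (hsub.trans Ioo_subset_Ico_self)))
      (fun s hs => (hg.vrat_hasDerivRight (hsub (Ioo_subset_Icc_self hs))).fun_sub
        (hg.haz_hasDerivAt (hsub (Ioo_subset_Icc_self hs))).hasDerivWithinAt)
      integrableOn_zero fun s hs => ?_
    · have hva := hg.vrat_pos (hsub (left_mem_Icc.2 ha.2.le))
      simp only [intervalIntegral.integral_zero] at h
      linarith
    · have hs' := hsub (Ioo_subset_Icc_self hs)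
      have := mul_nonneg (div_nonneg (hg.g_pos hs').le (hg.tail_pos' hs').le)
        (mul_nonneg (sub_nonneg.2 (hg.rate_le_one hs')) (hg.vrat_pos hs').le)
      linarith
  have hlim : Tendsto (fun a => -haz g a) (𝓝[>] (0:ℝ)) (𝓝 0) := by
    simpa using hg.tendsto_haz_zero.neg
  have := le_of_tendsto hlim (eventually_of_mem (Ioo_mem_nhdsGT ht.1) key)
  linarith

lemma vrat_le_exp {t : ℝ} (ht : t ∈ Ioo 0 R) : vrat g t ≤ Real.exp (haz g t) - 1 := by
  rw [hg.exp_haz ht.1.le ht.2, vrat, div_le_iff₀ (hg.tail_pos' ht)]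
  have := hg.mul_le_tot_sub ht.1.le ht.2.le
  field_simp [(hg.tail_pos' ht).ne']
  linarith

/-- The range of `z = u / v`. -/
lemma zrat_mem {t : ℝ} (ht : t ∈ Ioo 0 R) :
    0 < haz g t / vrat g t ∧ haz g t / vrat g t ≤ 1 ∧
      haz g t ≤ haz g t / vrat g t * (Real.exp (haz g t) - 1) := by
  have hv := hg.vrat_pos ht
  refine ⟨div_pos (hg.haz_pos ht) hv, (div_le_one hv).2 (hg.haz_le_vrat ht), ?_⟩
  rw [div_mul_eq_mul_div, le_div_iff₀ hv]
  exact mul_le_mul_of_nonneg_left (hg.vrat_le_exp ht) (hg.haz_pos ht).le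

lemma exp_neg_le_zrat {t : ℝ} (ht : t ∈ Ioo 0 R) :
    Real.exp (-haz g t) ≤ haz g t / vrat g t := by
  set u := haz g t
  rw [le_div_iff₀ (hg.vrat_pos ht)]
  have h1 : vrat g t ≤ u * Real.exp u := by
    refine (hg.vrat_le_exp ht).trans ?_
    have h := mul_le_mul_of_nonneg_left (Real.add_one_le_exp (-u)) (Real.exp_pos u).le
    rw [← Real.exp_add, add_neg_cancel, Real.exp_zero] at h
    nlinarith
  calc Real.exp (-u) * vrat g t ≤ Real.exp (-u) * (u * Real.exp u) :=
        mul_le_mul_of_nonneg_left h1 (Real.exp_pos _).le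
    _ = u := by rw [mul_left_comm, ← Real.exp_add]; simp

lemma abs_log_vrat {t : ℝ} (ht : t ∈ Ioo 0 R) :
    |Real.log (vrat g t)| ≤ |Real.log (haz g t)| + haz g t := by
  have hu := hg.haz_pos ht
  have hv := hg.vrat_pos ht
  have h1 := Real.log_le_log hu (hg.haz_le_vrat ht)
  have h2 : Real.log (vrat g t) ≤ haz g t := by
    rw [Real.log_le_iff_le_exp hv]
    linarith [hg.vrat_le_exp ht]
  have h3 := neg_abs_le (Real.log (haz g t))
  have h4 := abs_nonneg (Real.log (haz g t))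
  exact abs_le.2 ⟨by linarith, by linarith⟩

end Prof

end Vale.Agent.P254.Uncond
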