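import Vale.Agent.P254.Uncond.Cert
import Vale.Agent.P254.Uncond.ProfileBasic

/-!
The requirement follows from a certificate: the pointwise inequality is integrated along a
profile, after the change of variables to the cumulative hazard.
-/

open MeasureTheory Set Filter Topology Real
open scoped Topology

namespace Vale.Agent.P254.Uncond.Req

variable {g : ℝ → ℝ} {R : ℝ}

/-- The ratio `z`. -/
noncomputable def zr (g : ℝ → ℝ) (t : ℝ) : ℝ := haz g t / vrat g t

section

variable (hg : Prof g R)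
include hg

lemma zr_deriv {t : ℝ} (ht : t ∈ Ioo 0 R) : HasDerivWithinAt (zr g)
    (g t / tail g t * (zr g t * ((1 - zr g t) / haz g t - 1 + rate g t))) (Ioi t) t := by
  have hv := hg.vrat_hasDerivRight ht
  refine ((hg.haz_hasDerivAt ht).hasDerivWithinAt.div hv (hg.vrat_pos ht).ne').congr_deriv ?_
  have := hg.tail_pos' ht
  have := (hg.haz_pos ht).ne'
  have := (hg.vrat_pos ht).ne'
  simp only [zr]
  field_simp
  ring

lemma haz_tendsto_R : Tendsto (haz g) (𝓝[<] R) atTop := by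
  have hev : ∀ᶠ t in 𝓝[<] R, t ∈ Ioo 0 R := Ioo_mem_nhdsLT hg.R_pos
  have h0 : Tendsto (tail g) (𝓝[<] R) (𝓝 0) := by
    have := ((hg.tail_continuousOn R (right_mem_Icc.2 hg.R_pos.le)).mono_of_mem_nhdsWithin
      (Icc_mem_nhdsLT hg.R_pos)).tendsto
    rwa [hg.tail_R] at this
  have h1 : Tendsto (tail g) (𝓝[<] R) (𝓝[>] 0) :=
    tendsto_nhdsWithin_iff.2 ⟨h0, hev.mono fun t ht => hg.tail_pos' ht⟩
  have h2 : Tendsto (fun t => log (tot g) + -log (tail g t)) (𝓝[<] R) atTop :=
    tendsto_atTop_add_const_left _ _ (tendsto_neg_atBot_atTop.comp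
      (tendsto_log_nhdsGT_zero.comp h1))
  refine h2.congr' (hev.mono fun t ht => ?_)
  rw [haz, log_div hg.tot_pos.ne' (hg.tail_pos' ht).ne']
  ring

lemma integrable_mul {f : ℝ → ℝ} (hf : IntegrableOn f (Ioo 0 R)) :
    IntegrableOn (fun t => g t * f t) (Ioo 0 R) := by
  refine Integrable.bdd_mul (c := g 0) hf hg.meas.aestronglyMeasurable ?_
  refine (ae_restrict_mem measurableSet_Ioo).mono fun t ht => ?_
  rw [norm_of_nonneg (hg.nonneg t)]
  exact hg.anti self_mem_Ici (mem_Ici.2 ht.1.le) ht.1.le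

lemma integral_self : ∫ t in Ioo 0 R, g t = tot g := by
  rw [← Prof.tail_zero, hg.tail_eq le_rfl hg.R_pos.le, intervalIntegral.integral_of_le hg.R_pos.le,
    integral_Ioc_eq_integral_Ioo]

lemma log_sub_monotone :
    MonotoneOn (fun s => log s - log (1 - exp (-haz g s))) (Ioo 0 R) := by
  have hq : ∀ s ∈ Ioo 0 R, 0 < 1 - exp (-haz g s) := fun s hs => by
    linarith [exp_lt_one_iff.2 (neg_neg_of_pos (hg.haz_pos hs))]
  have hd : ∀ s ∈ Ioo 0 R, HasDerivAt (fun s => log s - log (1 - exp (-haz g s)))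
      (1 / s - exp (-haz g s) * (g s / tail g s) / (1 - exp (-haz g s))) s := fun s hs => by
    exact ((hasDerivAt_log hs.1.ne').sub
      ((((hg.haz_hasDerivAt hs).neg).exp.const_sub 1).log (hq s hs).ne')).congr_deriv (by
        simp [one_div])
  refine monotoneOn_of_hasDerivWithinAt_nonneg (convex_Ioo 0 R)
    (fun s hs => (hd s hs).continuousAt.continuousWithinAt)
    (f' := fun s => 1 / s - exp (-haz g s) * (g s / tail g s) / (1 - exp (-haz g s)))
    (fun s hs => ?_) fun s hs => ?_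
  all_goals rw [interior_Ioo] at hs
  · exact (hd s hs).hasDerivWithinAt
  · rw [sub_nonneg, div_le_div_iff₀ (hq s hs) hs.1, one_mul]
    have h1 := mul_le_mul_of_nonneg_left (hg.vrat_le_exp hs) (exp_pos (-haz g s)).le
    rw [mul_sub, ← exp_add, neg_add_cancel, exp_zero, mul_one, vrat] at h1
    have e : exp (-haz g s) * (g s / tail g s) * s
        = exp (-haz g s) * (s * g s / tail g s) := by ring
    linarith

/-- The logarithm of the variable stays between its two extreme primitives. -/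
lemma log_range {t₁ t : ℝ} (h₁ : t₁ ∈ Ioo 0 R) (ht : t ∈ Ioo 0 R) :
    (min (log (haz g t / haz g t₁))
        (log ((1 - exp (-haz g t)) / (1 - exp (-haz g t₁)))) ≤ log (t / t₁)) ∧
      log (t / t₁) ≤ max (log (haz g t / haz g t₁))
        (log ((1 - exp (-haz g t)) / (1 - exp (-haz g t₁)))) := by
  have hq : ∀ s ∈ Ioo 0 R, 0 < 1 - exp (-haz g s) := fun s hs => by
    linarith [exp_lt_one_iff.2 (neg_neg_of_pos (hg.haz_pos hs))]
  have hA : MonotoneOn (fun s => log (haz g s) - log s) (Ioo 0 R) := by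
    have hd : ∀ s ∈ Ioo 0 R, HasDerivAt (fun s => log (haz g s) - log s)
        (g s / tail g s / haz g s - 1 / s) s := fun s hs => by
      exact (((hg.haz_hasDerivAt hs).log (hg.haz_pos hs).ne').sub
        (hasDerivAt_log hs.1.ne')).congr_deriv (by rw [one_div])
    refine monotoneOn_of_hasDerivWithinAt_nonneg (convex_Ioo 0 R)
      (fun s hs => (hd s hs).continuousAt.continuousWithinAt)
      (f' := fun s => g s / tail g s / haz g s - 1 / s) (fun s hs => ?_) fun s hs => ?_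
    all_goals rw [interior_Ioo] at hs
    · exact (hd s hs).hasDerivWithinAt
    · rw [sub_nonneg, div_le_div_iff₀ hs.1 (hg.haz_pos hs), one_mul]
      have := hg.haz_le_vrat hs
      rw [vrat, mul_div_assoc] at this
      linarith
  have hB := log_sub_monotone hg
  have hu := hg.haz_pos ht
  rw [log_div hu.ne' (hg.haz_pos h₁).ne', log_div (hq t ht).ne' (hq t₁ h₁).ne',
    log_div ht.1.ne' h₁.1.ne']
  rcases le_total t t₁ with hle | hle
  · have a := hA ht h₁ hle
    have b := hB ht h₁ hle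
    simp only at a b
    exact ⟨min_le_of_left_le (by linarith), le_max_of_le_right (by linarith)⟩
  · have a := hA h₁ ht hle
    have b := hB h₁ ht hle
    simp only at a b
    exact ⟨min_le_of_right_le (by linarith), le_max_of_le_left (by linarith)⟩

lemma haz_le_mul {t₁ t : ℝ} (h₁ : t₁ ∈ Ioo 0 R) (ht : t ∈ Ioo 0 R) (hle : t ≤ t₁) :
    haz g t ≤ haz g t₁ / t₁ * t := by
  have hd : ∀ s ∈ Ioo 0 R, HasDerivAt (fun s => haz g s / s)
      ((g s / tail g s * s - haz g s * 1) / s ^ 2) s := fun s hs =>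
    (hg.haz_hasDerivAt hs).div (hasDerivAt_id s) hs.1.ne'
  have hm : MonotoneOn (fun s => haz g s / s) (Ioo 0 R) := by
    refine monotoneOn_of_hasDerivWithinAt_nonneg (convex_Ioo 0 R)
      (fun s hs => (hd s hs).continuousAt.continuousWithinAt)
      (f' := fun s => (g s / tail g s * s - haz g s * 1) / s ^ 2) (fun s hs => ?_) fun s hs => ?_
    all_goals rw [interior_Ioo] at hs
    · exact (hd s hs).hasDerivWithinAt
    · refine div_nonneg ?_ (sq_nonneg s)
      have := hg.haz_le_vrat hs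
      rw [vrat, mul_div_assoc] at this
      linarith
  have := hm ht h₁ hle
  simpa [div_le_iff₀ ht.1] using this

end

lemma one_add_sq {u : ℝ} (hu : 0 ≤ u) : exp (-u) * (1 + u) ^ 2 ≤ 16 * exp (-(1 / 2) * u) := by
  have h1 : 1 + u ≤ 4 * exp (u / 4) := by linarith [add_one_le_exp (u / 4)]
  calc exp (-u) * (1 + u) ^ 2 ≤ exp (-u) * (4 * exp (u / 4)) ^ 2 := by gcongr
    _ = 16 * exp (-(1 / 2) * u) := by
        rw [mul_pow, sq (exp _), ← exp_add, mul_left_comm, ← exp_add]
        norm_num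
        ring_nf

/-- A primitive of a square integrable function is small near the origin. -/
lemma primitive_sqrt {w Γ : ℝ → ℝ} (hd : ∀ u, 0 < u → HasDerivAt Γ (w u) u)
    (hw : ContinuousOn w (Ioi 0)) (hi : IntegrableOn (fun u => exp (-u) * w u ^ 2) (Ioi 0))
    (hc : ContinuousOn Γ (Ici 0)) (h0 : Γ 0 = 0) :
    ∃ K, 0 ≤ K ∧ ∀ u, 0 < u → u ≤ 1 → |Γ u| ≤ K * √u := by
  have hi1 : IntegrableOn (fun u => w u ^ 2) (Ioc 0 1) := by
    refine Integrable.mono' ((hi.mono_set Ioc_subset_Ioi_self).const_mul (exp 1))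
      (((hw.pow 2).mono Ioc_subset_Ioi_self).aestronglyMeasurable measurableSet_Ioc)
      ((ae_restrict_mem measurableSet_Ioc).mono fun u hu => ?_)
    rw [norm_of_nonneg (sq_nonneg _), ← mul_assoc, ← exp_add]
    exact le_mul_of_one_le_left (sq_nonneg _) (one_le_exp (by linarith [hu.2]))
  set J := ∫ u in Ioc (0:ℝ) 1, w u ^ 2 with hJ
  have hJ0 : 0 ≤ J := integral_nonneg fun u => sq_nonneg _
  refine ⟨(J + 1) / 2, by positivity, fun u hu hu1 => ?_⟩
  have key : ∀ a ∈ Ioo 0 u, |Γ u - Γ a| ≤ (J + 1) / 2 * √u := by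
    intro a ha
    have hcw : ContinuousOn w (Icc a u) := hw.mono fun x hx => lt_of_lt_of_le ha.1 hx.1
    rw [← intervalIntegral.integral_eq_sub_of_hasDerivAt
      (fun x hx => hd x (by rw [uIcc_of_le ha.2.le] at hx; exact lt_of_lt_of_le ha.1 hx.1))
      (hcw.intervalIntegrable_of_Icc ha.2.le)]
    have hs : 0 < √u := sqrt_pos.2 hu
    have i2 := (hcw.pow 2).intervalIntegrable_of_Icc ha.2.le (μ := volume)
    refine (intervalIntegral.abs_integral_le_integral_abs ha.2.le).trans ?_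
    calc ∫ x in a..u, |w x| ≤ ∫ x in a..u, (√u / 2 * w x ^ 2 + 1 / (2 * √u)) := by
          refine intervalIntegral.integral_mono_on ha.2.le
            (hcw.abs.intervalIntegrable_of_Icc ha.2.le)
            ((i2.const_mul _).add intervalIntegrable_const) fun x _ => ?_
          have e : √u / 2 * w x ^ 2 + 1 / (2 * √u) - |w x|
              = (√u * |w x| - 1) ^ 2 / (2 * √u) := by
            rw [← sq_abs (w x)]; field_simp; ring
          linarith [div_nonneg (sq_nonneg (√u * |w x| - 1)) (by positivity : 0 ≤ 2 * √u)]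
      _ = √u / 2 * (∫ x in a..u, w x ^ 2) + (u - a) * (1 / (2 * √u)) := by
          rw [intervalIntegral.integral_add (f := fun x => √u / 2 * w x ^ 2) (i2.const_mul _)
            intervalIntegrable_const,
            intervalIntegral.integral_const_mul, intervalIntegral.integral_const, smul_eq_mul]
      _ ≤ √u / 2 * J + u * (1 / (2 * √u)) := by
          gcongr
          · rw [intervalIntegral.integral_of_le ha.2.le]
            exact setIntegral_mono_set hi1 (Eventually.of_forall fun x => sq_nonneg _)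
              (Ioc_subset_Ioc ha.1.le hu1).eventuallyLE
          · linarith [ha.1]
      _ = (J + 1) / 2 * √u := by
          field_simp
          rw [sq_sqrt hu.le]
          ring
  haveI := nhdsWithin_Ioi_neBot (le_refl (0 : ℝ))
  have ht : Tendsto (fun a => |Γ u - Γ a|) (𝓝[>] 0) (𝓝 |Γ u - Γ 0|) :=
    (tendsto_const_nhds.sub ((hc 0 self_mem_Ici).mono_left
      (nhdsWithin_mono _ Ioi_subset_Ici_self))).abs
  have := le_of_tendsto ht (eventually_of_mem (Ioo_mem_nhdsGT hu) key)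
  simpa [h0] using this

lemma log_sq_integrable {R : ℝ} (hR : 0 < R) :
    IntegrableOn (fun t => log t ^ 2) (Ioo 0 R) := by
  have h : IntegrableOn (fun t : ℝ => 16 * t ^ (-(1/2) : ℝ) + log R ^ 2) (Ioo 0 R) := by
    refine (Integrable.const_mul ?_ 16).add (integrable_const _)
    exact (intervalIntegral.intervalIntegrable_rpow' (a := 0) (b := R) (by norm_num)).1.mono_set
      Ioo_subset_Ioc_self
  refine h.mono' ((measurable_log.pow_const 2).aestronglyMeasurable)
    ((ae_restrict_mem measurableSet_Ioo).mono fun t ht => ?_)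
  rw [norm_of_nonneg (sq_nonneg _)]
  have h0 : 0 ≤ t ^ (-(1/2) : ℝ) := rpow_nonneg ht.1.le _
  rcases le_total t 1 with h1 | h1
  · have h2 := abs_log_mul_self_rpow_lt t (1/4) ht.1 h1 (by norm_num)
    have h3 : log t ^ 2 = (log t * t ^ (1/4 : ℝ)) ^ 2 * t ^ (-(1/2) : ℝ) := by
      rw [mul_pow, ← rpow_natCast (t ^ (1/4 : ℝ)) 2, ← rpow_mul ht.1.le, mul_assoc,
        ← rpow_add ht.1]
      norm_num
    have h4 : (log t * t ^ (1/4 : ℝ)) ^ 2 ≤ 4 ^ 2 := by
      rw [← sq_abs]
      exact pow_le_pow_left₀ (abs_nonneg _) (h2.le.trans_eq (by norm_num)) 2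
    rw [h3]
    nlinarith [mul_le_mul_of_nonneg_right h4 h0, sq_nonneg (log R)]
  · have h2 := log_nonneg h1
    have h3 := log_le_log ht.1 ht.2.le
    nlinarith [pow_le_pow_left₀ h2 h3 2]

variable {D : ReqData}

/-- The test function for the variance. -/
noncomputable def phi (D : ReqData) (u : ℝ) : ℝ := D.Γ u - D.w u

lemma phi_facts (hD : D.Regular) : ContinuousOn (phi D) (Ioi 0) ∧
    IntegrableOn (fun u => exp (-u) * phi D u) (Ioi 0) ∧
    IntegrableOn (fun u => exp (-u) * phi D u ^ 2) (Ioi 0) ∧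
    ∫ u in Ioi (0:ℝ), exp (-u) * phi D u = 0 := by
  obtain ⟨cΓ, hcΓ⟩ := hD.Γ_bound
  have hcΓ0 : 0 ≤ cΓ := by have := hcΓ 0 le_rfl; simp [hD.Γ_zero] at this; linarith
  -- integrability in the hazard variable
  have hE : IntegrableOn (fun u : ℝ => exp (-(1 / 2) * u)) (Ioi 0) :=
    exp_neg_integrableOn_Ioi 0 (by norm_num)
  have hφc : ContinuousOn (phi D) (Ioi 0) := (hD.Γ_cont.mono Ioi_subset_Ici_self).sub hD.w_cont
  have hec : ContinuousOn (fun u : ℝ => exp (-u)) (Ioi 0) := by fun_prop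
  have hi2 : IntegrableOn (fun u => exp (-u) * phi D u ^ 2) (Ioi 0) := by
    refine Integrable.mono' ((hE.const_mul (32 * cΓ ^ 2)).add (hD.w_int.const_mul 2))
      ((hec.mul (hφc.pow 2)).aestronglyMeasurable measurableSet_Ioi)
      ((ae_restrict_mem measurableSet_Ioi).mono fun u hu => ?_)
    rw [norm_of_nonneg (by positivity)]
    have hu0 : 0 ≤ u := le_of_lt hu
    have h1 : D.Γ u ^ 2 ≤ cΓ ^ 2 * (1 + u) ^ 2 := by
      rw [← mul_pow, ← sq_abs]; exact pow_le_pow_left₀ (abs_nonneg _) (hcΓ u hu0) 2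
    have h2 : phi D u ^ 2 ≤ 2 * cΓ ^ 2 * (1 + u) ^ 2 + 2 * D.w u ^ 2 := by
      simp only [phi]; nlinarith [sq_nonneg (D.Γ u + D.w u)]
    have := mul_le_mul_of_nonneg_left h2 (exp_pos (-u)).le
    have := mul_le_mul_of_nonneg_left (one_add_sq hu0) (mul_nonneg zero_le_two (sq_nonneg cΓ))
    simp only [Pi.add_apply]
    linarith
  have hi1 : IntegrableOn (fun u => exp (-u) * phi D u) (Ioi 0) := by
    refine Integrable.mono' ((hi2.add (exp_neg_integrableOn_Ioi 0 one_pos)))
      ((hec.mul hφc).aestronglyMeasurable measurableSet_Ioi)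
      ((ae_restrict_mem measurableSet_Ioi).mono fun u _ => ?_)
    rw [norm_eq_abs, abs_mul, abs_of_pos (exp_pos _), Pi.add_apply, neg_one_mul]
    nlinarith [mul_nonneg (exp_pos (-u)).le (sq_nonneg (|phi D u| - 1)), sq_abs (phi D u),
      mul_nonneg (exp_pos (-u)).le (abs_nonneg (phi D u))]
  have hφ0 : ∫ u in Ioi (0:ℝ), exp (-u) * phi D u = 0 := by
    have hlim : Tendsto (fun u => -(exp (-u) * D.Γ u)) atTop (𝓝 0) := by
      refine squeeze_zero_norm' (a := fun u => 16 * cΓ * exp (-(1 / 2) * u)) ?_ ?_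
      · filter_upwards [eventually_ge_atTop (0:ℝ)] with u hu
        rw [norm_neg, norm_eq_abs, abs_mul, abs_of_pos (exp_pos _)]
        have h1 : |D.Γ u| ≤ cΓ * (1 + u) ^ 2 :=
          (hcΓ u hu).trans (mul_le_mul_of_nonneg_left (by nlinarith) hcΓ0)
        have := mul_le_mul_of_nonneg_left h1 (exp_pos (-u)).le
        have := mul_le_mul_of_nonneg_left (one_add_sq hu) hcΓ0
        linarith
      · simpa using (tendsto_exp_atBot.comp (tendsto_id.const_mul_atTop_of_neg
          (by norm_num : (-(1/2) : ℝ) < 0))).const_mul (16 * cΓ)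
    have hd : ∀ u ∈ Ioi (0:ℝ), HasDerivAt (fun u => -(exp (-u) * D.Γ u)) (exp (-u) * phi D u) u := by
      intro u hu
      refine (((hasDerivAt_id u).neg.exp).mul (hD.Γ_deriv u hu)).neg.congr_deriv ?_
      simp only [phi, id, Pi.neg_apply]; ring
    have hcont : ContinuousWithinAt (fun u => -(exp (-u) * D.Γ u)) (Ici 0) 0 :=
      (((by fun_prop : Continuous fun u : ℝ => exp (-u)).continuousWithinAt).mul
        (hD.Γ_cont 0 self_mem_Ici)).neg
    rw [integral_Ioi_of_hasDerivAt_of_tendsto hcont hd hi1 hlim]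
    simp [hD.Γ_zero]
  exact ⟨hφc, hi1, hi2, hφ0⟩

/-- The potential, times the tail. -/
noncomputable def pot (D : ReqData) (c : ℝ) (g : ℝ → ℝ) (t₁ t : ℝ) : ℝ :=
  tail g t * (D.β (haz g t) * zr g t + D.γ (haz g t) * zr g t ^ 2
    + (D.p (haz g t) + 2 * c * D.Γ (haz g t)) * (log t - log t₁)
    + D.q (haz g t) * (log t - log t₁) ^ 2 - c * D.Γ (haz g t) ^ 2)

/-- The quantity whose average is to be bounded below. -/
noncomputable def loss (D : ReqData) (c : ℝ) (g : ℝ → ℝ) (t₁ t : ℝ) : ℝ :=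
  c * (2 * (g t * ((log t - log t₁) * phi D (haz g t))) - g t * phi D (haz g t) ^ 2)
    + g t * (log t - log t₁) - 1 / (2 * D.S₀ * t₁ ^ 2) * (g t * t ^ 2)

lemma pot_deriv (hD : D.Regular) {c t₁ t : ℝ} (hg : Prof g R) (h₁ : 0 < t₁) (ht : t ∈ Ioo 0 R) :
    HasDerivWithinAt (pot D c g t₁)
      (g t * D.psi c (haz g t) (zr g t) (rate g t) (log t - log t₁) - loss D c g t₁ t)
      (Ioi t) t := by
  set y : ℝ → ℝ := fun t => log t - log t₁ with hy
  set U := haz g t with hU
  have hU0 : 0 < U := hg.haz_pos ht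
  have du := (hg.haz_hasDerivAt ht).hasDerivWithinAt (s := Ioi t)
  have dz := zr_deriv hg ht
  have dy : HasDerivWithinAt y (1 / t) (Ioi t) t := by
    simpa [hy] using ((hasDerivAt_log ht.1.ne').sub_const (log t₁)).hasDerivWithinAt
  have dΓ := (hD.Γ_deriv U hU0).comp_hasDerivWithinAt t du
  have d := (hg.tail_hasDerivAt ht).hasDerivWithinAt.mul
    (((((((hD.β_deriv U hU0).comp_hasDerivWithinAt t du).mul dz).add
      (((hD.γ_deriv U hU0).comp_hasDerivWithinAt t du).mul (dz.pow 2))).add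
      ((((hD.p_deriv U hU0).comp_hasDerivWithinAt t du).add (dΓ.const_mul (2 * c))).mul dy)).add
      (((hD.q_deriv U hU0).comp_hasDerivWithinAt t du).mul (dy.pow 2))).sub
      ((dΓ.pow 2).const_mul c))
  refine d.congr_deriv ?_
  have := hg.tail_pos' ht
  have := hg.g_pos ht
  have := ht.1
  have := h₁
  have := hD.S₀_pos
  have e : exp (2 * y t) = t ^ 2 / t₁ ^ 2 := by
    rw [hy, mul_sub, exp_sub, two_mul, two_mul, exp_add, exp_add, exp_log ht.1,
      exp_log h₁]
    ring
  have et : tail g t * (1 / t) = g t * (zr g t / U) := by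
    simp only [zr, vrat, ← hU]
    field_simp
  have ek : g t = tail g t * (g t / tail g t) := by field_simp
  rw [show log t - log t₁ = y t from rfl]
  simp only [ReqData.psi, loss, phi, e, ← hU, Function.comp_apply, Pi.add_apply, Pi.mul_apply,
    Pi.sub_apply, Pi.pow_apply, pow_one, Nat.add_one_sub_one, Nat.cast_ofNat]
  rw [show log t - log t₁ = y t from rfl]
  generalize hk : g t / tail g t = k at ek ⊢
  rw [ek] at et ⊢
  linear_combination (D.p U + 2 * c * D.Γ U + 2 * D.q U * y t) * et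

lemma pot_step (hD : D.Regular) {c t₁ a b : ℝ} (hg : Prof g R) (h₁ : t₁ ∈ Ioo 0 R)
    (hV : ∀ t ∈ Ioo 0 R,
      D.m (haz g t) ≤ D.psi c (haz g t) (zr g t) (rate g t) (log t - log t₁))
    (hi : IntegrableOn (fun t => g t * D.m (haz g t) - loss D c g t₁ t) (Ioo 0 R))
    (ha : 0 < a) (hab : a ≤ b) (hb : b < R) :
    ∫ t in a..b, (g t * D.m (haz g t) - loss D c g t₁ t) ≤
      pot D c g t₁ b - pot D c g t₁ a := by
  have hUc : ContinuousOn (haz g) (Ioo 0 R) := hg.haz_continuousOn.mono Ioo_subset_Ico_self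
  have hyc : ContinuousOn (fun t => log t - log t₁) (Ioo 0 R) :=
    (continuousOn_log.mono fun t ht => ht.1.ne').sub continuousOn_const
  have hzc : ContinuousOn (zr g) (Ioo 0 R) := by
    refine hUc.div ?_ fun t ht => (hg.vrat_pos ht).ne'
    exact (continuousOn_id.mul hg.continuousOn_g).div
      (fun t ht => (hg.tail_hasDerivAt ht).continuousAt.continuousWithinAt)
      fun t ht => (hg.tail_pos' ht).ne'
  have hmaps : MapsTo (haz g) (Ioo 0 R) (Ici 0) := fun t ht => (hg.haz_pos ht).le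
  have hHc : ContinuousOn (pot D c g t₁) (Ioo 0 R) := by
    refine ContinuousOn.mul (fun t ht => (hg.tail_hasDerivAt ht).continuousAt.continuousWithinAt) ?_
    exact (((((hD.β_cont.comp hUc hmaps).mul hzc).add
      ((hD.γ_cont.comp hUc hmaps).mul (hzc.pow 2))).add
      (((hD.p_cont.comp hUc hmaps).add (continuousOn_const.mul (hD.Γ_cont.comp hUc hmaps))).mul
        hyc)).add ((hD.q_cont.comp hUc hmaps).mul (hyc.pow 2))).sub
      (continuousOn_const.mul ((hD.Γ_cont.comp hUc hmaps).pow 2))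
  have hsub : Icc a b ⊆ Ioo 0 R := fun t ht =>
    ⟨lt_of_lt_of_le ha ht.1, lt_of_le_of_lt ht.2 hb⟩
  refine intervalIntegral.integral_le_sub_of_hasDeriv_right_of_le hab (hHc.mono hsub)
    (fun t ht => pot_deriv hD hg h₁.1 (hsub (Ioo_subset_Icc_self ht))) (hi.mono_set hsub) fun t ht => ?_
  have ht' := hsub (Ioo_subset_Icc_self ht)
  exact sub_le_sub_right (mul_le_mul_of_nonneg_left (hV t ht') (hg.nonneg t)) _

lemma pot_zero (hD : D.Regular) {c t₁ : ℝ} (hg : Prof g R) (h₁ : t₁ ∈ Ioo 0 R) :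
    Tendsto (pot D c g t₁) (𝓝[>] 0) (𝓝 (tot g * (D.β 0 + D.γ 0))) := by
  have hR := hg.R_pos
  set y : ℝ → ℝ := fun t => log t - log t₁ with hy
  obtain ⟨K, hK0, hK⟩ := primitive_sqrt hD.Γ_deriv hD.w_cont hD.w_int hD.Γ_cont hD.Γ_zero
  obtain ⟨cp, hcp⟩ := hD.p_bound
  obtain ⟨cq, hcq⟩ := hD.q_bound
  obtain ⟨cb, hcb⟩ := hD.β_bound
  obtain ⟨cg, hcg⟩ := hD.γ_bound
  set M := haz g t₁ / t₁ with hM
  have hM0 : 0 < M := div_pos (hg.haz_pos h₁) h₁.1
  have hU0 := hg.tendsto_haz_zero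
  have hz0 : Tendsto (zr g) (𝓝[>] 0) (𝓝 1) := by
    refine tendsto_of_tendsto_of_tendsto_of_le_of_le' (g := fun t => exp (-haz g t))
      (h := fun _ => 1) ?_ tendsto_const_nhds ?_ ?_
    · simpa [Function.comp_def] using (continuous_exp.tendsto _).comp hU0.neg
    all_goals filter_upwards [Ioo_mem_nhdsGT hR] with t ht
    · exact hg.exp_neg_le_zrat ht
    · exact (hg.zrat_mem ht).2.1
  have hs0 : Tendsto (fun t => √t * y t) (𝓝[>] 0) (𝓝 0) := by
    have h1 := tendsto_log_mul_rpow_nhdsGT_zero (r := 1 / 2) (by norm_num)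
    have h2 : Tendsto (fun t : ℝ => √t) (𝓝[>] 0) (𝓝 0) := by
      simpa using (continuous_sqrt.tendsto 0).mono_left nhdsWithin_le_nhds
    have := h1.sub (h2.const_mul (log t₁))
    rw [mul_zero, sub_zero] at this
    refine this.congr fun t => ?_
    simp only [hy, sqrt_eq_rpow]; ring
  have hsq0 : Tendsto (fun t : ℝ => √t) (𝓝[>] 0) (𝓝 0) := by
    simpa using (continuous_sqrt.tendsto 0).mono_left nhdsWithin_le_nhds
  have hUI : Tendsto (haz g) (𝓝[>] 0) (𝓝[Ici 0] 0) :=
    tendsto_nhdsWithin_iff.2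
      ⟨hU0, eventually_of_mem (Ioo_mem_nhdsGT hR) fun t ht => (hg.haz_pos ht).le⟩
  have hnear : ∀ᶠ t in 𝓝[>] (0:ℝ), t ∈ Ioo 0 R ∧ haz g t ≤ M * t ∧ haz g t ≤ 1 := by
    filter_upwards [Ioo_mem_nhdsGT h₁.1, hU0.eventually (ge_mem_nhds one_pos)] with t ht h2
    exact ⟨⟨ht.1, ht.2.trans h₁.2⟩, haz_le_mul hg h₁ ⟨ht.1, ht.2.trans h₁.2⟩ ht.2.le, h2⟩
  have hp0 : Tendsto (fun t => D.p (haz g t) * y t) (𝓝[>] 0) (𝓝 0) := by
    refine squeeze_zero_norm' (a := fun t => |cp| * M * √t * |√t * y t|) ?_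
      (by simpa using (hsq0.const_mul (|cp| * M)).mul hs0.abs)
    filter_upwards [hnear] with t ⟨ht, hUM, _⟩
    rw [norm_eq_abs, abs_mul, abs_mul (√t), abs_of_nonneg (sqrt_nonneg t),
      show |cp| * M * √t * (√t * |y t|) = |cp| * M * (√t * √t) * |y t| by ring,
      mul_self_sqrt ht.1.le]
    refine mul_le_mul_of_nonneg_right ?_ (abs_nonneg _)
    calc |D.p (haz g t)| ≤ cp * haz g t := hcp _ (hg.haz_pos ht).le
      _ ≤ |cp| * haz g t := mul_le_mul_of_nonneg_right (le_abs_self _) (hg.haz_pos ht).le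
      _ ≤ |cp| * (M * t) := mul_le_mul_of_nonneg_left hUM (abs_nonneg _)
      _ = _ := by ring
  have hΓ0 : Tendsto (fun t => D.Γ (haz g t) * y t) (𝓝[>] 0) (𝓝 0) := by
    refine squeeze_zero_norm' (a := fun t => K * √M * |√t * y t|) ?_
      (by simpa using hs0.abs.const_mul (K * √M))
    filter_upwards [hnear] with t ⟨ht, hUM, hU1⟩
    rw [norm_eq_abs, abs_mul, abs_mul (√t), abs_of_nonneg (sqrt_nonneg t), ← mul_assoc]
    refine mul_le_mul_of_nonneg_right ((hK _ (hg.haz_pos ht) hU1).trans ?_) (abs_nonneg _)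
    rw [mul_assoc, ← sqrt_mul hM0.le]
    exact mul_le_mul_of_nonneg_left (sqrt_le_sqrt hUM) hK0
  have hq0 : Tendsto (fun t => D.q (haz g t) * y t ^ 2) (𝓝[>] 0) (𝓝 0) := by
    refine squeeze_zero_norm' (a := fun t => |cq| * M * (√t * y t) ^ 2) ?_
      (by simpa using (hs0.pow 2).const_mul (|cq| * M))
    filter_upwards [hnear] with t ⟨ht, hUM, _⟩
    rw [norm_eq_abs, abs_mul, abs_pow, sq_abs, mul_pow, sq_sqrt ht.1.le, ← mul_assoc]
    refine mul_le_mul_of_nonneg_right ?_ (sq_nonneg _)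
    calc |D.q (haz g t)| ≤ cq * haz g t := hcq _ (hg.haz_pos ht).le
      _ ≤ |cq| * haz g t := mul_le_mul_of_nonneg_right (le_abs_self _) (hg.haz_pos ht).le
      _ ≤ |cq| * (M * t) := mul_le_mul_of_nonneg_left hUM (abs_nonneg _)
      _ = _ := by ring
  refine Tendsto.mul ?_ ?_
  · have := ((hg.tail_continuousOn 0 (left_mem_Icc.2 hR.le)).mono_of_mem_nhdsWithin
      (Icc_mem_nhdsGT hR)).tendsto
    exact this
  have hb := ((hD.β_cont 0 self_mem_Ici).tendsto.comp hUI).mul hz0
  have hg' := ((hD.γ_cont 0 self_mem_Ici).tendsto.comp hUI).mul (hz0.pow 2)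
  have hG' := ((hD.Γ_cont 0 self_mem_Ici).tendsto.comp hUI).pow 2
  rw [hD.Γ_zero] at hG'
  have := (((hb.add hg').add (hp0.add (hΓ0.const_mul (2 * c)))).add hq0).sub
    (hG'.const_mul c)
  simp only [mul_one, one_pow, mul_zero, add_zero, zero_pow two_ne_zero, sub_zero] at this
  refine this.congr fun t => ?_
  simp only [Function.comp_apply, hy]; ring

lemma pot_R (hD : D.Regular) {c t₁ : ℝ} (hc : 0 ≤ c) (hg : Prof g R) (h₁ : t₁ ∈ Ioo 0 R) :
    Tendsto (pot D c g t₁) (𝓝[<] R) (𝓝 0) := by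
  set T := tot g with hT
  have hT0 : 0 < T := hg.tot_pos
  set y : ℝ → ℝ := fun t => log t - log t₁ with hy
  obtain ⟨cp, hcp⟩ := hD.p_bound
  obtain ⟨cq, hcq⟩ := hD.q_bound
  obtain ⟨cb, hcb⟩ := hD.β_bound
  obtain ⟨cg, hcg⟩ := hD.γ_bound
  obtain ⟨cΓ, hcΓ⟩ := hD.Γ_bound
  have hcΓ0 : 0 ≤ cΓ := by have := hcΓ 0 le_rfl; simp [hD.Γ_zero] at this; linarith
  set Y := |log R - log t₁| with hY
  set C := |cb| + |cg| + (|cp| + 2 * c * cΓ) * Y + |cq| * Y ^ 2 + c * cΓ ^ 2 with hC
  refine squeeze_zero_norm' (a := fun t => T * (16 * C * exp (-(1 / 2) * haz g t))) ?_ ?_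
  · filter_upwards [Ioo_mem_nhdsLT h₁.2] with t ht
    have ht' : t ∈ Ioo 0 R := ⟨h₁.1.trans ht.1, ht.2⟩
    set U := haz g t with hU
    have hU0 : 0 ≤ U := (hg.haz_pos ht').le
    have hU1 : (1:ℝ) ≤ 1 + U := by linarith
    have z0 : 0 ≤ zr g t := (hg.zrat_mem ht').1.le
    have z1 : zr g t ≤ 1 := (hg.zrat_mem ht').2.1
    have hyY : |y t| ≤ Y := by
      simp only [hy, hY]
      have a := log_le_log h₁.1 ht.1.le
      have b := log_le_log ht'.1 ht.2.le
      rw [abs_of_nonneg (by linarith), abs_of_nonneg (by linarith)]; linarith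
    have b1 : |D.β U * zr g t| ≤ |cb| := by
      rw [abs_mul, abs_of_nonneg z0]
      exact (mul_le_of_le_one_right (abs_nonneg _) z1).trans ((hcb U hU0).trans (le_abs_self _))
    have b2 : |D.γ U * zr g t ^ 2| ≤ |cg| := by
      rw [abs_mul, abs_of_nonneg (sq_nonneg (zr g t))]
      exact (mul_le_of_le_one_right (abs_nonneg _) (pow_le_one₀ z0 z1)).trans
        ((hcg U hU0).trans (le_abs_self _))
    have b3 : |(D.p U + 2 * c * D.Γ U) * y t| ≤ (|cp| + 2 * c * cΓ) * (1 + U) * Y := by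
      rw [abs_mul]
      refine mul_le_mul ?_ hyY (abs_nonneg _) (by positivity)
      refine (abs_add_le _ _).trans ?_
      rw [abs_mul, abs_of_nonneg (by positivity : 0 ≤ 2 * c)]
      have := (hcp U hU0).trans (mul_le_mul (le_abs_self cp) (by linarith : U ≤ 1 + U) hU0
        (abs_nonneg _))
      have := mul_le_mul_of_nonneg_left (hcΓ U hU0) (by positivity : 0 ≤ 2 * c)
      linarith
    have b4 : |D.q U * y t ^ 2| ≤ |cq| * (1 + U) * Y ^ 2 := by
      rw [abs_mul, abs_pow]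
      refine mul_le_mul ((hcq U hU0).trans (mul_le_mul (le_abs_self cq) (by linarith) hU0
        (abs_nonneg _))) (pow_le_pow_left₀ (abs_nonneg _) hyY 2) (by positivity) (by positivity)
    have b5 : |c * D.Γ U ^ 2| ≤ c * cΓ ^ 2 * (1 + U) ^ 2 := by
      rw [abs_mul, abs_of_nonneg hc, abs_pow, mul_assoc, ← mul_pow]
      exact mul_le_mul_of_nonneg_left (pow_le_pow_left₀ (abs_nonneg _) (hcΓ U hU0) 2) hc
    set Φ := D.β U * zr g t + D.γ U * zr g t ^ 2 + (D.p U + 2 * c * D.Γ U) * y t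
        + D.q U * y t ^ 2 - c * D.Γ U ^ 2 with hΦ
    have hb : |Φ| ≤ C * (1 + U) ^ 2 := by
      simp only [hΦ]
      refine (abs_sub _ _).trans ?_
      have := abs_add_le (D.β U * zr g t + D.γ U * zr g t ^ 2
        + (D.p U + 2 * c * D.Γ U) * y t) (D.q U * y t ^ 2)
      have := abs_add_le (D.β U * zr g t + D.γ U * zr g t ^ 2) ((D.p U + 2 * c * D.Γ U) * y t)
      have := abs_add_le (D.β U * zr g t) (D.γ U * zr g t ^ 2)
      have h12 : (1:ℝ) ≤ (1 + U) ^ 2 := one_le_pow₀ hU1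
      have h13 : 1 + U ≤ (1 + U) ^ 2 := by nlinarith
      have c1 := le_mul_of_one_le_right (abs_nonneg cb) h12
      have c2 := le_mul_of_one_le_right (abs_nonneg cg) h12
      have c3 := mul_le_mul_of_nonneg_left h13
        (by positivity : 0 ≤ (|cp| + 2 * c * cΓ) * Y)
      have c4 := mul_le_mul_of_nonneg_left h13 (by positivity : 0 ≤ |cq| * Y ^ 2)
      simp only [hC]
      linarith
    rw [norm_eq_abs, show pot D c g t₁ t = tail g t * Φ from rfl, abs_mul, abs_of_pos (hg.tail_pos' ht')]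
    have e : tail g t = T * exp (-U) := by rw [hU, hg.exp_neg_haz ht'.1.le ht'.2, ← hT]; field_simp
    rw [e, mul_assoc]
    refine mul_le_mul_of_nonneg_left ?_ hT0.le
    calc exp (-U) * |Φ| ≤ exp (-U) * (C * (1 + U) ^ 2) := by gcongr
      _ = C * (exp (-U) * (1 + U) ^ 2) := by ring
      _ ≤ C * (16 * exp (-(1 / 2) * U)) :=
          mul_le_mul_of_nonneg_left (one_add_sq hU0) (by positivity)
      _ = _ := by ring
  · simpa using (((tendsto_exp_atBot.comp (tendsto_id.const_mul_atTop_of_neg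
      (by norm_num : (-(1/2) : ℝ) < 0))).comp (haz_tendsto_R hg)).const_mul (16 * C)).const_mul T

/-- A certificate bounds the requirement as soon as its inequality holds along the profile. -/
theorem requirement_of_cert {c e : ℝ} (hc : 0 ≤ c) (hD : D.Regular)
    (hV : ∀ t₁ ∈ Ioo 0 R, haz g t₁ = D.u₁ → ∀ t ∈ Ioo 0 R,
      D.m (haz g t) ≤ D.psi c (haz g t) (zr g t) (rate g t) (log t - log t₁))
    (he : e ≤ D.β 0 + D.γ 0 - c + log 2 + 1 / 2 - log D.S₀ / 2
        + ∫ u in Ioi (0:ℝ), exp (-u) * D.m u) (hg : Prof g R) :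
    log (avg g fun t => t ^ 2) / 2 + e ≤ pmean g + log 2 + c * (pvar g - 1) := by
  have hR := hg.R_pos
  obtain ⟨t₁, h₁, hu₁⟩ : D.u₁ ∈ haz g '' Ioo 0 R := by rw [hg.haz_image]; exact hD.u₁_pos
  set T := tot g with hT
  have hT0 : 0 < T := hg.tot_pos
  set φ : ℝ → ℝ := phi D with hφ
  obtain ⟨hφc, hi1, hi2, hφ0⟩ := phi_facts hD
  have hlog : IntegrableOn log (Ioo 0 R) :=
    (intervalIntegral.intervalIntegrable_log' (a := 0) (b := R)).1.mono_set Ioo_subset_Ioc_self
  set μ := pmean g with hμ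
  set y : ℝ → ℝ := fun t => log t - log t₁ with hy
  have gy2 : ∀ a : ℝ, IntegrableOn (fun t => g t * (log t - a) ^ 2) (Ioo 0 R) := by
    intro a
    refine integrable_mul hg ?_
    have := ((log_sq_integrable hR).sub (hlog.const_mul (2 * a))).add
      (integrable_const (c := a ^ 2))
    refine this.congr (Eventually.of_forall fun t => ?_)
    simp only [Pi.add_apply, Pi.sub_apply]; ring
  have gy : IntegrableOn (fun t => g t * y t) (Ioo 0 R) :=
    integrable_mul hg (hlog.sub (integrable_const _))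
  have gE : IntegrableOn (fun t => g t * t ^ 2) (Ioo 0 R) :=
    integrable_mul hg ((by fun_prop : Continuous fun t : ℝ => t ^ 2).integrableOn_Ioc.mono_set
      Ioo_subset_Ioc_self)
  have gφ := And.intro ((hg.integrable_haz_iff φ).2 hi1) (hg.integral_haz φ)
  have gφ2 := And.intro ((hg.integrable_haz_iff fun u => φ u ^ 2).2 hi2) (hg.integral_haz fun u => φ u ^ 2)
  have gm := And.intro ((hg.integrable_haz_iff D.m).2 hD.m_int) (hg.integral_haz D.m)
  have hUc : ContinuousOn (haz g) (Ioo 0 R) :=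
    fun t ht => (hg.haz_hasDerivAt ht).continuousAt.continuousWithinAt
  have hUmaps : MapsTo (haz g) (Ioo 0 R) (Ioi 0) := fun t ht => hg.haz_pos ht
  have hyc : ContinuousOn y (Ioo 0 R) :=
    (continuousOn_log.mono fun t ht => ht.1.ne').sub continuousOn_const
  have gyφ : IntegrableOn (fun t => g t * (y t * φ (haz g t))) (Ioo 0 R) := by
    refine Integrable.mono' ((gy2 (log t₁)).add gφ2.1)
      ((hg.continuousOn_g.mul (hyc.mul (hφc.comp hUc hUmaps))).aestronglyMeasurable measurableSet_Ioo)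
      ((ae_restrict_mem measurableSet_Ioo).mono fun t ht => ?_)
    rw [norm_eq_abs, abs_mul, abs_of_nonneg (hg.nonneg t), Pi.add_apply, ← mul_add]
    refine mul_le_mul_of_nonneg_left ?_ (hg.nonneg t)
    simp only [hy]
    rw [abs_le]
    constructor <;> nlinarith [sq_nonneg (log t - log t₁ + φ (haz g t)),
      sq_nonneg (log t - log t₁ - φ (haz g t))]
  set k := 1 / (2 * D.S₀ * t₁ ^ 2) with hk
  set L : ℝ → ℝ := loss D c g t₁ with hL
  have hLi : IntegrableOn L (Ioo 0 R) :=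
    ((((gyφ.const_mul 2).sub gφ2.1).const_mul c).add gy).sub (gE.const_mul k)
  set N : ℝ → ℝ := fun t => g t * D.m (haz g t) - L t with hN
  have hNi : IntegrableOn N (Ioo 0 R) := gm.1.sub hLi
  set H : ℝ → ℝ := pot D c g t₁ with hH
  have hstep : ∀ a b, 0 < a → a ≤ b → b < R → ∫ t in a..b, N t ≤ H b - H a :=
    fun a b => pot_step hD hg h₁ (hV t₁ h₁ hu₁) hNi
  have hH0 := pot_zero hD (c := c) hg h₁
  have hHR := pot_R hD hc hg h₁
  -- the integrated inequality
  have hInt : ∫ t in Ioo 0 R, N t ≤ 0 - T * (D.β 0 + D.γ 0) := by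
    have hii : IntervalIntegrable N volume 0 R :=
      (intervalIntegrable_iff_integrableOn_Ioo_of_le hR.le).2 hNi
    set P : ℝ → ℝ := fun x => ∫ t in (0:ℝ)..x, N t with hP
    have hPc : ContinuousOn P (Icc 0 R) := by
      simpa [uIcc_of_le hR.le] using
        intervalIntegral.continuousOn_primitive_interval' hii left_mem_uIcc
    have hstep' : ∀ a b, 0 < a → a ≤ b → b < R → P b - P a ≤ H b - H a := by
      intro a b ha hab hb
      have hsub : ∀ x ∈ Icc 0 R, IntervalIntegrable N volume 0 x := fun x hx =>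
        hii.mono_set (by rw [uIcc_of_le hR.le, uIcc_of_le hx.1]; exact Icc_subset_Icc le_rfl hx.2)
      simp only [hP]
      rw [intervalIntegral.integral_interval_sub_left (hsub b ⟨by linarith, hb.le⟩)
        (hsub a ⟨ha.le, by linarith⟩)]
      exact hstep a b ha hab hb
    haveI := nhdsWithin_Ioi_neBot (le_refl (0 : ℝ))
    haveI := nhdsWithin_Iio_neBot (le_refl R)
    have hP0 : Tendsto P (𝓝[>] 0) (𝓝 0) := by
      have := ((hPc 0 (left_mem_Icc.2 hR.le)).mono_of_mem_nhdsWithin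
        (Icc_mem_nhdsGT hR)).tendsto
      simpa [hP] using this
    have hPR : Tendsto P (𝓝[<] R) (𝓝 (P R)) :=
      ((hPc R (right_mem_Icc.2 hR.le)).mono_of_mem_nhdsWithin (Icc_mem_nhdsLT hR)).tendsto
    have h2 : ∀ b ∈ Ioo 0 R, P b - 0 ≤ H b - T * (D.β 0 + D.γ 0) := fun b hb =>
      le_of_tendsto_of_tendsto (tendsto_const_nhds.sub hP0) (tendsto_const_nhds.sub hH0)
        (eventually_of_mem (Ioo_mem_nhdsGT hb.1) fun a ha => hstep' a b ha.1 ha.2.le hb.2)
    have h3 := le_of_tendsto_of_tendsto (hPR.sub_const 0) (hHR.sub_const _)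
      (eventually_of_mem (Ioo_mem_nhdsLT hR) h2)
    rw [← integral_Ioc_eq_integral_Ioo, ← intervalIntegral.integral_of_le hR.le]
    simpa [hP] using h3
  -- the averages
  set Iy := ∫ t in Ioo 0 R, g t * y t with hIy
  set IE := ∫ t in Ioo 0 R, g t * t ^ 2 with hIE
  set Ic := ∫ t in Ioo 0 R, g t * (y t * φ (haz g t)) with hIc
  set I2 := ∫ t in Ioo 0 R, g t * φ (haz g t) ^ 2 with hI2
  set Im := ∫ u in Ioi (0:ℝ), exp (-u) * D.m u with hIm
  have hNe : ∫ t in Ioo 0 R, N t = T * Im - (c * (2 * Ic - I2) + Iy - k * IE) := by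
    have i1 : ∫ t in Ioo 0 R, L t = c * (2 * Ic - I2) + Iy - k * IE := by
      have j0 : IntegrableOn (fun t => 2 * (g t * (y t * φ (haz g t)))) (Ioo 0 R) := gyφ.const_mul 2
      have j1 : IntegrableOn
          (fun t => c * (2 * (g t * (y t * φ (haz g t))) - g t * φ (haz g t) ^ 2)) (Ioo 0 R) :=
        (j0.sub gφ2.1).const_mul c
      have j2 : IntegrableOn (fun t => c * (2 * (g t * (y t * φ (haz g t)))
          - g t * φ (haz g t) ^ 2) + g t * y t) (Ioo 0 R) := j1.add gy
      change ∫ t in Ioo 0 R, (c * (2 * (g t * (y t * φ (haz g t))) - g t * φ (haz g t) ^ 2)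
          + g t * y t - k * (g t * t ^ 2)) = _
      rw [integral_sub j2 (gE.const_mul k), integral_add j1 gy, integral_const_mul,
        integral_sub j0 gφ2.1, integral_const_mul, integral_const_mul]
    simp only [hN]
    rw [integral_sub gm.1 hLi, i1, gm.2]
  have hμy : T * μ = Iy + T * log t₁ := by
    have e : ∫ t in Ioo 0 R, g t * log t = Iy + T * log t₁ := by
      rw [hT, ← integral_self hg, ← integral_mul_const, hIy, ← integral_add gy
        ((integrable_mul hg (integrable_const _)).congr (Eventually.of_forall fun t => rfl))]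
      exact integral_congr_ae (Eventually.of_forall fun t => by simp only [hy]; ring)
    rw [hμ, pmean, hg.avg_eq, ← e, ← hT]
    field_simp
  have hvar : 2 * Ic - I2 ≤ T * pvar g := by
    have e : T * pvar g = ∫ t in Ioo 0 R, g t * (log t - μ) ^ 2 := by
      rw [pvar, hg.avg_eq, ← hμ, ← hT]; field_simp
    rw [e]
    have hcross : ∫ t in Ioo 0 R, g t * φ (haz g t) = 0 := by rw [gφ.2, hφ0, mul_zero]
    have hlow : ∫ t in Ioo 0 R, (2 * (g t * (y t * φ (haz g t)))
        + (2 * (log t₁ - μ)) * (g t * φ (haz g t)) - g t * φ (haz g t) ^ 2)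
        ≤ ∫ t in Ioo 0 R, g t * (log t - μ) ^ 2 := by
      refine setIntegral_mono_on (((gyφ.const_mul 2).add (gφ.1.const_mul _)).sub gφ2.1)
        (gy2 μ) measurableSet_Ioo fun t _ => ?_
      simp only [hy]
      nlinarith [mul_nonneg (hg.nonneg t) (sq_nonneg (log t - μ - φ (haz g t)))]
    rw [integral_sub (f := fun t => 2 * (g t * (y t * φ (haz g t)))
        + (2 * (log t₁ - μ)) * (g t * φ (haz g t)))
        ((gyφ.const_mul 2).add (gφ.1.const_mul _)) gφ2.1,
      integral_add (gyφ.const_mul 2) (gφ.1.const_mul _), integral_const_mul, integral_const_mul,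
      hcross] at hlow
    linarith
  have hsec : avg g (fun t => t ^ 2) = IE / T := by rw [hg.avg_eq]
  have hIE0 : 0 < IE := by
    rw [hIE, setIntegral_pos_iff_support_of_nonneg_ae
      (Eventually.of_forall fun t => mul_nonneg (hg.nonneg t) (sq_nonneg t)) gE]
    have : Ioo 0 R ⊆ (Function.support fun t => g t * t ^ 2) ∩ Ioo 0 R := fun t ht =>
      ⟨(mul_pos (hg.g_pos ht) (pow_pos ht.1 2)).ne', ht⟩
    refine lt_of_lt_of_le ?_ (measure_mono this)
    simp [hR]
  have hS := log_le_sub_one_of_pos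
    (div_pos (div_pos hIE0 hT0) (mul_pos hD.S₀_pos (pow_pos h₁.1 2)))
  rw [log_div (div_pos hIE0 hT0).ne' (mul_pos hD.S₀_pos (pow_pos h₁.1 2)).ne',
    log_mul hD.S₀_pos.ne' (pow_pos h₁.1 2).ne', log_pow, ← hsec] at hS
  push_cast at hS
  have hkey : D.β 0 + D.γ 0 + Im ≤ c * pvar g + (μ - log t₁) - k * (IE / T) := by
    rw [hNe] at hInt
    have h1 := mul_le_mul_of_nonneg_left hvar hc
    have h2 : T * (D.β 0 + D.γ 0 + Im) ≤ T * (c * pvar g + (μ - log t₁) - k * (IE / T)) := by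
      rw [mul_sub, mul_left_comm T k, mul_div_cancel₀ _ hT0.ne', mul_add T (c * _), mul_sub T μ,
        hμy]
      linarith
    exact le_of_mul_le_mul_left h2 hT0
  have hk2 : avg g (fun t => t ^ 2) / (D.S₀ * t₁ ^ 2) / 2 = k * (IE / T) := by
    rw [hsec, hk]
    have := h₁.1.ne'
    have := hD.S₀_pos.ne'
    field_simp
  linarith

end Vale.Agent.P254.Uncond.Req

namespace Vale.Agent.P254.Uncond

/-- A certificate for the requirement is sound. -/
theorem reqSound : ReqSound :=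
  fun D c e hc hD hV he g R hg =>
    Req.requirement_of_cert hc hD (fun t₁ h₁ hu₁ t ht => by
      obtain ⟨y0, y1⟩ := Req.log_range hg h₁ ht
      rw [hu₁, Real.log_div ht.1.ne' h₁.1.ne'] at y0 y1
      exact hV _ _ _ _ (hg.haz_pos ht) (hg.zrat_mem ht).1.le (hg.zrat_mem ht).2.1
        (hg.zrat_mem ht).2.2 (hg.rate_nonneg ht) (hg.rate_le_one ht) y0 y1) he hg

end Vale.Agent.P254.Uncond
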