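import Vale.Agent.P254.Orlicz.Defs
import Vale.Agent.P254.Sym.Slice

/-!
Interfaces for unconditional bodies in all large dimensions: logarithmic moments of convex
downsets, one-variable profiles, and the statements which the modules of this folder prove.
-/

open MeasureTheory Set

namespace Vale.Agent.P254.Uncond

open Vale.Agent.P254.Sym

variable {n : ℕ}

/-- The mean of `log x_i` over `A`. -/
noncomputable def lmean (A : Set (Fin n → ℝ)) (i : Fin n) : ℝ :=
  (∫ x in A, Real.log (x i)) / volume.real A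

/-- The variance of `log x_i` over `A`. -/
noncomputable def lvar (A : Set (Fin n → ℝ)) (i : Fin n) : ℝ :=
  (∫ x in A, (Real.log (x i) - lmean A i) ^ 2) / volume.real A

/-- The mean of `log (x_i + ε)` over `A`. -/
noncomputable def emean (ε : ℝ) (A : Set (Fin n → ℝ)) (i : Fin n) : ℝ :=
  (∫ x in A, Real.log (x i + ε)) / volume.real A

/-- A decreasing log-concave profile on the half-line, positive exactly up to `R`. -/
structure Prof (g : ℝ → ℝ) (R : ℝ) : Prop where
  R_pos : 0 < R
  nonneg : ∀ t, 0 ≤ g t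
  anti : AntitoneOn g (Ici 0)
  beyond : ∀ t, R < t → g t = 0
  pos : ∀ t, 0 ≤ t → t < R → 0 < g t
  convex : ConvexOn ℝ (Ico 0 R) fun t => -Real.log (g t)
  meas : Measurable g

/-- Total mass of a profile. -/
noncomputable def tot (g : ℝ → ℝ) : ℝ := ∫ t in Ioi (0:ℝ), g t

/-- Mass beyond `t`. -/
noncomputable def tail (g : ℝ → ℝ) (t : ℝ) : ℝ := ∫ s in Ioi t, g s

/-- The cumulative hazard `u`. -/
noncomputable def haz (g : ℝ → ℝ) (t : ℝ) : ℝ := Real.log (tot g / tail g t)

/-- The right derivative of `-log g`. -/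
noncomputable def slope (g : ℝ → ℝ) (t : ℝ) : ℝ :=
  derivWithin (fun s => -Real.log (g s)) (Ioi t) t

/-- The ratio `r`, in `[0, 1]` for profiles. -/
noncomputable def rate (g : ℝ → ℝ) (t : ℝ) : ℝ := slope g t * tail g t / g t

/-- The ratio `v`, between `u` and `exp u - 1` for profiles. -/
noncomputable def vrat (g : ℝ → ℝ) (t : ℝ) : ℝ := t * g t / tail g t

/-- Average with respect to the law with density `g / tot g`. -/
noncomputable def avg (g : ℝ → ℝ) (f : ℝ → ℝ) : ℝ := (∫ t in Ioi (0:ℝ), g t * f t) / tot g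

/-- Mean of the logarithm. -/
noncomputable def pmean (g : ℝ → ℝ) : ℝ := avg g Real.log

/-- Variance of the logarithm. -/
noncomputable def pvar (g : ℝ → ℝ) : ℝ := avg g fun t => (Real.log t - pmean g) ^ 2

/-- The curvature functional `K`. -/
noncomputable def curv (g : ℝ → ℝ) : ℝ :=
  avg g fun t => rate g t * (2 * haz g t - 1) - rate g t ^ 2 * haz g t

/-- The entropy gain `h(X) - E log X - 1`. -/
noncomputable def gain (g : ℝ → ℝ) : ℝ :=
  avg g (fun t => -Real.log (g t / tot g)) - pmean g - 1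

/-- The gain written through `v` (proved in the profile calculus). -/
def GainVrat : Prop :=
  ∀ {g : ℝ → ℝ} {R : ℝ}, Prof g R → gain g = avg g fun t => -Real.log (vrat g t)

/-- Two convex downsets and their midpoints: Brunn-Minkowski with the gain from the
logarithmic means. -/
def GapBound : Prop :=
  ∀ {n : ℕ} {A B C : Set (Fin n → ℝ)}, Down A → Down B → Down C →
    0 < volume.real A → 0 < volume.real B →
    (∀ x ∈ A, ∀ y ∈ B, (1 / 2 : ℝ) • (x + y) ∈ C) →
    ∀ (ε R w : ℝ) (θ : Fin n → ℝ), 0 < ε → w < 1 / 2 →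
      (∀ x ∈ A, ∀ j, x j ≤ R) → (∀ x ∈ B, ∀ j, x j ≤ R) →
      (∀ j, |θ j| * Real.log ((R + ε) / ε) ≤ w) →
      ∑ j, θ j * (emean ε B j - emean ε A j) ≤
        Real.log (volume.real C) - (Real.log (volume.real A) + Real.log (volume.real B)) / 2 +
          4 * (∑ j, θ j ^ 2) / (1 - 4 * w ^ 2)

/-- Conditioning on one coordinate lowers the total variance of the logarithms by at most twice
the curvature functional of its section function. -/
def DropBound : Prop :=
  ∀ {n : ℕ} {A : Set (Fin (n + 1) → ℝ)}, Down A → 0 < volume.real A → ∀ i : Fin (n + 1),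
    ∑ j, lvar A (i.succAbove j) - 2 * curv (sectAt A i) ≤
      (∫ t in Ioi (0:ℝ), sectAt A i t * ∑ j, lvar (slAt A i t) j) / volume.real A

/-- The one-variable inequality with weights `A`, `C` and slack `a`. -/
def OneDim (A C a : ℝ) : Prop :=
  ∀ {g : ℝ → ℝ} {R : ℝ}, Prof g R → -a ≤ gain g - A * (pvar g - 1) - C * curv g

/-- The final one-variable requirement. -/
def Requirement (c e : ℝ) : Prop :=
  ∀ {g : ℝ → ℝ} {R : ℝ}, Prof g R →
    Real.log (avg g fun t => t ^ 2) / 2 + e ≤ pmean g + Real.log 2 + c * (pvar g - 1)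

/-- The induction statement in dimension `n`. -/
def Potential (n : ℕ) (c d : ℝ) : Prop :=
  ∀ {A : Set (Fin n → ℝ)}, Down A → 0 < volume.real A →
    ∑ i, (lmean A i + 1 + c * (lvar A i - 1)) - n * d ≤ Real.log (volume.real A)

/-- Facts about section functions and logarithmic moments needed by several modules. -/
structure SectionFacts : Prop where
  prof : ∀ {n : ℕ} {A : Set (Fin (n + 1) → ℝ)}, Down A → 0 < volume.real A →
    ∀ i, ∃ R, Prof (sectAt A i) R
  mean : ∀ {n : ℕ} {A : Set (Fin (n + 1) → ℝ)}, Down A → 0 < volume.real A →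
    ∀ i, lmean A i = pmean (sectAt A i)
  var : ∀ {n : ℕ} {A : Set (Fin (n + 1) → ℝ)}, Down A → 0 < volume.real A →
    ∀ i, lvar A i = pvar (sectAt A i)
  second : ∀ {n : ℕ} {A : Set (Fin (n + 1) → ℝ)}, Down A → 0 < volume.real A →
    ∀ i, (∫ x in A, x i ^ 2) / volume.real A = avg (sectAt A i) fun t => t ^ 2
  split : ∀ {n : ℕ} {A : Set (Fin (n + 1) → ℝ)}, Down A → 0 < volume.real A →
    ∀ i j, lmean A (i.succAbove j) * volume.real A =
      ∫ t in Ioi (0:ℝ), sectAt A i t * lmean (slAt A i t) j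
  step : ∀ {n : ℕ} {A : Set (Fin (n + 1) → ℝ)}, Down A → 0 < volume.real A → ∀ i,
    ∫ t in Ioi (0:ℝ), sectAt A i t * Real.log (sectAt A i t) =
      volume.real A * (Real.log (volume.real A) - gain (sectAt A i) - lmean A i - 1)

end Vale.Agent.P254.Uncond
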