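import Vale.Agent.P254.Uncond.DropMain
import Vale.Agent.P254.Uncond.ProfileBasic

/-!
Conditioning on one coordinate lowers the total variance of the logarithms of the others by at most
twice the curvature functional of the section function.
-/

open MeasureTheory Set Filter Topology

namespace Vale.Agent.P254.Uncond

namespace Drop

open Vale.Agent.P254.Sym

variable {n : ℕ} {A : Set (Fin (n + 1) → ℝ)} {i : Fin (n + 1)} {R : ℝ}

lemma abs_log_add_le {z ε Rc : ℝ} (hz : 0 < z) (hzR : z ≤ Rc) (hε : 0 ≤ ε) (hε1 : ε ≤ 1) :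
    |Real.log (z + ε)| ≤ |Real.log z| + Real.log (Rc + 1) := by
  have hK : 0 ≤ Real.log (Rc + 1) := Real.log_nonneg (by linarith)
  rcases le_or_gt (z + ε) 1 with h | h
  · have h1 := Real.log_le_log hz (show z ≤ z + ε by linarith)
    rw [abs_of_nonpos (Real.log_nonpos (by linarith) h),
      abs_of_nonpos (Real.log_nonpos hz.le (by linarith))]
    linarith
  · rw [abs_of_pos (Real.log_pos h)]
    have := Real.log_le_log (by linarith) (show z + ε ≤ Rc + 1 by linarith)
    linarith [abs_nonneg (Real.log z)]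

lemma ae_pos {B : Set (Fin n → ℝ)} (hB : Down B) (j : Fin n) :
    ∀ᵐ z ∂(volume.restrict B), 0 < z j ∧ z ∈ B := by
  have h0 : ∀ᵐ z : Fin n → ℝ, z j ≠ 0 := by
    rw [ae_iff]
    simp only [ne_eq, not_not]
    rw [volume_pi]
    exact Measure.pi_hyperplane _ j 0
  filter_upwards [ae_restrict_mem hB.measurable, ae_restrict_of_ae h0] with z hz hne
  exact ⟨lt_of_le_of_ne (hB.nonneg z hz j) (Ne.symm hne), hz⟩

lemma tendsto_emean {B : Set (Fin n → ℝ)} (hB : Down B) (j : Fin n) :
    Tendsto (fun ε => emean ε B j) (𝓝[>] 0) (𝓝 (lmean B j)) := by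
  obtain ⟨Rc, hRc0, hRc⟩ := hB.bound
  refine Tendsto.div_const ?_ _
  refine tendsto_integral_filter_of_dominated_convergence
    (fun z => |Real.log (z j)| + Real.log (Rc + 1)) ?_ ?_ ?_ ?_
  · refine Eventually.of_forall fun ε => Measurable.aestronglyMeasurable ?_
    fun_prop
  · filter_upwards [Ioo_mem_nhdsGT one_pos] with ε hε
    filter_upwards [ae_pos hB j] with z hz
    rw [Real.norm_eq_abs]
    exact abs_log_add_le hz.1 (hRc z hz.2 j) hε.1.le hε.2.le
  · exact (integrableOn_log_coord hB j).abs.add (integrableOn_const hB.finite)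
  · filter_upwards [ae_pos hB j] with z hz
    have h : ContinuousAt (fun ε : ℝ => Real.log (z j + ε)) 0 :=
      (continuousAt_const.add continuousAt_id).log (by simpa using hz.1.ne')
    simpa using h.tendsto.mono_left nhdsWithin_le_nhds

/-- The regularised means of the slices are uniformly bounded on compact intervals. -/
lemma emean_bound (hA : Down A) (hP : Prof (sectAt A i) R) {β : ℝ} (hβ : β < R) (j : Fin n) :
    ∃ K : ℝ, ∀ ε ∈ Ioo (0:ℝ) 1, ∀ t ∈ Icc 0 β, ‖emean ε (slAt A i t) j‖ ≤ K := by
  obtain ⟨Rc, hRc0, hRc⟩ := hA.bound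
  have hK : 0 ≤ Real.log (Rc + 1) := Real.log_nonneg (by linarith)
  set f : (Fin n → ℝ) → ℝ := fun z => |Real.log (z j)| + Real.log (Rc + 1)
  have hf0 : ∀ z, 0 ≤ f z := fun z => add_nonneg (abs_nonneg _) hK
  have hfi : IntegrableOn f (slAt A i 0) :=
    (integrableOn_log_coord (slAt_down hA i 0) j).abs.add
      (integrableOn_const (slAt_down hA i 0).finite)
  refine ⟨(∫ z in slAt A i 0, f z) / sectAt A i β, fun ε hε t ht => ?_⟩
  have hβ0 : 0 ≤ β := ht.1.trans ht.2
  have hgβ : 0 < sectAt A i β := hP.pos β hβ0 hβ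
  have hgt : sectAt A i β ≤ sectAt A i t := hP.anti ht.1 hβ0 ht.2
  rw [emean, norm_div, Real.norm_eq_abs (volume.real _), abs_of_nonneg measureReal_nonneg]
  refine div_le_div₀ (integral_nonneg hf0) ?_ hgβ hgt
  refine (norm_integral_le_of_norm_le (hfi.mono_set (slAt_anti hA i le_rfl ht.1)) ?_).trans
    (setIntegral_mono_set hfi (Eventually.of_forall hf0)
      (slAt_anti hA i le_rfl ht.1).eventuallyLE)
  filter_upwards [ae_pos (slAt_down hA i t) j] with z hz
  rw [Real.norm_eq_abs]
  exact abs_log_add_le hz.1 (slice_bound hRc z hz.2 j) hε.1.le hε.2.le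

/-- The variance bound for the logarithmic means on a compact interval. -/
theorem interval_lmean (hG : GapBound) (hA : Down A) (hP : Prof (sectAt A i) R) {α β : ℝ}
    (hα : 0 < α) (hab : α ≤ β) (hβ : β < R) :
    ∑ j, ((∫ t in α..β, sectAt A i t) *
          (∫ t in α..β, sectAt A i t * lmean (slAt A i t) j ^ 2) -
        (∫ t in α..β, sectAt A i t * lmean (slAt A i t) j) ^ 2) ≤
      2 * tot (sectAt A i) * ((∫ t in α..β, sectAt A i t * curvFun (sectAt A i) t) +
        haz (sectAt A i) β * tail (sectAt A i) β) := by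
  set g := sectAt A i
  have hsub : ∀ x ∈ Icc α β, x ∈ Ioo 0 R := fun x hx =>
    ⟨hα.trans_le hx.1, hx.2.trans_lt hβ⟩
  have hcg : ContinuousOn g (Icc α β) := (continuousOn_g hP).mono hsub
  have hlim : Tendsto (fun ε => ∑ j, ((∫ t in α..β, g t) *
        (∫ t in α..β, g t * emean ε (slAt A i t) j ^ 2) -
        (∫ t in α..β, g t * emean ε (slAt A i t) j) ^ 2)) (𝓝[>] 0)
      (𝓝 (∑ j, ((∫ t in α..β, g t) * (∫ t in α..β, g t * lmean (slAt A i t) j ^ 2) -
        (∫ t in α..β, g t * lmean (slAt A i t) j) ^ 2))) := by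
    refine tendsto_finsetSum _ fun j _ => ?_
    obtain ⟨K, hK⟩ := emean_bound hA hP hβ j
    refine (Tendsto.const_mul _ ?_).sub (Tendsto.pow ?_ 2)
    · refine intervalIntegral.tendsto_integral_filter_of_dominated_convergence
        (fun t => |g t| * K ^ 2) ?_ ?_
        (hcg.abs.mul continuousOn_const |>.intervalIntegrable_of_Icc hab)
        (Eventually.of_forall fun t ht => ?_)
      · filter_upwards [self_mem_nhdsWithin] with ε hε
        rw [uIoc_of_le hab]
        exact ((hcg.mul (((continuousOn_emean hG hA hP hε j).mono hsub).pow 2)).mono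
          Ioc_subset_Icc_self).aestronglyMeasurable measurableSet_Ioc
      · filter_upwards [Ioo_mem_nhdsGT one_pos] with ε hε
        refine Eventually.of_forall fun t ht => ?_
        rw [uIoc_of_le hab] at ht
        rw [norm_mul, norm_pow, Real.norm_eq_abs]
        exact mul_le_mul_of_nonneg_left (pow_le_pow_left₀ (norm_nonneg _)
          (hK ε hε t ⟨(hα.trans ht.1).le, ht.2⟩) 2) (abs_nonneg _)
      · exact ((tendsto_emean (slAt_down hA i t) j).pow 2).const_mul _
    · refine intervalIntegral.tendsto_integral_filter_of_dominated_convergence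
        (fun t => |g t| * K) ?_ ?_
        (hcg.abs.mul continuousOn_const |>.intervalIntegrable_of_Icc hab)
        (Eventually.of_forall fun t ht => ?_)
      · filter_upwards [self_mem_nhdsWithin] with ε hε
        rw [uIoc_of_le hab]
        exact ((hcg.mul ((continuousOn_emean hG hA hP hε j).mono hsub)).mono
          Ioc_subset_Icc_self).aestronglyMeasurable measurableSet_Ioc
      · filter_upwards [Ioo_mem_nhdsGT one_pos] with ε hε
        refine Eventually.of_forall fun t ht => ?_
        rw [uIoc_of_le hab] at ht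
        rw [norm_mul, Real.norm_eq_abs]
        exact mul_le_mul_of_nonneg_left (hK ε hε t ⟨(hα.trans ht.1).le, ht.2⟩) (abs_nonneg _)
      · exact (tendsto_emean (slAt_down hA i t) j).const_mul _
  refine le_of_tendsto hlim ?_
  filter_upwards [self_mem_nhdsWithin] with ε hε
  refine (interval_emean hG hA hP hε hα hab hβ).trans (mul_le_mul_of_nonneg_left ?_ ?_)
  · linarith [slope_mul_wgt_le hP (hα.trans_le hab) hβ]
  · exact mul_nonneg zero_le_two (tot_pos hP).le

variable {g : ℝ → ℝ}

lemma integrableOn_curvFun (hP : Prof g R) :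
    IntegrableOn (fun t => g t * curvFun g t) (Ioc 0 R) := by
  rw [integrableOn_Ioc_iff_integrableOn_Ioo]
  have h1 : IntegrableOn (fun s => Real.exp (-s) * s) (Ioi (0:ℝ)) :=
    (Real.GammaIntegral_convergent (s := 2) two_pos).congr_fun
      (fun x _ => by norm_num) measurableSet_Ioi
  have h2 : IntegrableOn (fun s => Real.exp (-s) * (2 * s + 1)) (Ioi (0:ℝ)) :=
    IntegrableOn.congr_fun ((h1.const_mul 2).add (integrableOn_exp_neg_Ioi 0))
      (fun x _ => by simp only [Pi.add_apply]; ring) measurableSet_Ioi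
  have hb := (hP.integrable_haz_iff fun s => 2 * s + 1).2 h2
  have hm : AEMeasurable (fun t => g t * curvFun g t) (volume.restrict (Ioo 0 R)) := by
    have hs : AEMeasurable (Uncond.slope g) (volume.restrict (Ioo 0 R)) :=
      aemeasurable_restrict_of_monotoneOn measurableSet_Ioo (slope_mono hP)
    have hu : AEMeasurable (haz g) (volume.restrict (Ioo 0 R)) :=
      (continuousOn_haz hP).aemeasurable measurableSet_Ioo
    have ht : AEMeasurable (tail g) (volume.restrict (Ioo 0 R)) :=
      (continuousOn_tail hP).aemeasurable measurableSet_Ioo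
    have hr : AEMeasurable (rate g) (volume.restrict (Ioo 0 R)) :=
      (hs.mul ht).div hP.meas.aemeasurable
    exact hP.meas.aemeasurable.mul
      ((hr.mul ((hu.const_mul 2).sub_const 1)).sub ((hr.pow_const 2).mul hu))
  refine Integrable.mono' hb hm.aestronglyMeasurable ((ae_restrict_iff' measurableSet_Ioo).2
    (Eventually.of_forall fun t ht => ?_))
  rw [norm_mul, Real.norm_eq_abs, Real.norm_eq_abs, abs_of_nonneg (hP.nonneg t)]
  refine mul_le_mul_of_nonneg_left ?_ (hP.nonneg t)
  obtain ⟨r0, r1⟩ := rate_mem hP ht.1 ht.2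
  have u0 := haz_nonneg hP ht.1.le ht.2
  have a : 0 ≤ rate g t * haz g t := mul_nonneg r0 u0
  have b : rate g t * haz g t ≤ haz g t := mul_le_of_le_one_left u0 r1
  have c : rate g t ^ 2 * haz g t ≤ rate g t * haz g t := by
    nlinarith [mul_nonneg a (sub_nonneg.2 r1)]
  have d : 0 ≤ rate g t ^ 2 * haz g t := mul_nonneg (sq_nonneg _) u0
  rw [abs_le, curvFun]
  constructor <;> linarith

/-- The boundary term tends to zero. -/
lemma tendsto_boundary (hP : Prof g R) {β : ℕ → ℝ} (hβ : ∀ k, β k ∈ Ioo 0 R)
    (hl : Tendsto β atTop (𝓝 R)) :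
    Tendsto (fun k => haz g (β k) * tail g (β k)) atTop (𝓝 0) := by
  have hc : ContinuousOn (fun t => tail g t * Real.log (tot g) - tail g t * Real.log (tail g t))
      (Icc 0 R) :=
    (hP.tail_continuousOn.mul continuousOn_const).sub
      (Real.continuous_mul_log.comp_continuousOn hP.tail_continuousOn)
  have h := (hc R ⟨hP.R_pos.le, le_rfl⟩).tendsto.comp
    (tendsto_nhdsWithin_iff.2 ⟨hl, Eventually.of_forall fun k => Ioo_subset_Icc_self (hβ k)⟩)
  simp only [Function.comp_def, hP.tail_R, zero_mul, sub_zero] at h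
  refine h.congr fun k => ?_
  rw [hP.haz_eq (hβ k).1.le (hβ k).2]
  ring

/-- Interval integrals exhausting `(0, R)`. -/
lemma tendsto_exhaust {f : ℝ → ℝ} (hR : 0 < R) (hf : IntegrableOn f (Ioc 0 R))
    {α β : ℕ → ℝ} (hα : ∀ k, α k ∈ Icc 0 R) (hβ : ∀ k, β k ∈ Icc 0 R)
    (hαl : Tendsto α atTop (𝓝 0)) (hβl : Tendsto β atTop (𝓝 R)) :
    Tendsto (fun k => ∫ t in α k..β k, f t) atTop (𝓝 (∫ t in Ioc 0 R, f t)) := by
  have hfi : IntegrableOn f (uIcc 0 R) := by
    rwa [uIcc_of_le hR.le, integrableOn_Icc_iff_integrableOn_Ioc]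
  have hc := intervalIntegral.continuousOn_primitive_interval (μ := volume) hfi
  rw [uIcc_of_le hR.le] at hc
  have l1 := (hc R ⟨hR.le, le_rfl⟩).tendsto.comp
    (tendsto_nhdsWithin_iff.2 ⟨hβl, Eventually.of_forall hβ⟩)
  have l2 := (hc 0 ⟨le_rfl, hR.le⟩).tendsto.comp
    (tendsto_nhdsWithin_iff.2 ⟨hαl, Eventually.of_forall hα⟩)
  have h := l1.sub l2
  simp only [Function.comp_def, intervalIntegral.integral_same, sub_zero] at h
  rw [intervalIntegral.integral_of_le hR.le] at h
  refine h.congr fun k => ?_
  have hi : ∀ {x}, x ∈ Icc 0 R → IntervalIntegrable f volume 0 x := fun hx =>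
    ((intervalIntegrable_iff_integrableOn_Ioc_of_le hR.le).2 hf).mono_set (by
      rw [uIcc_of_le hx.1, uIcc_of_le hR.le]; exact Icc_subset_Icc_right hx.2)
  exact intervalIntegral.integral_interval_sub_left (hi (hβ k)) (hi (hα k))

/-- The second moment of `log z_j` about `m` over a slice. -/
lemma slice_second (hA : Down A) (j : Fin n) (m t : ℝ) :
    ∫ z in slAt A i t, (Real.log (z j) - m) ^ 2 =
      sectAt A i t * lvar (slAt A i t) j + sectAt A i t * (lmean (slAt A i t) j - m) ^ 2 := by
  set B := slAt A i t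
  have hB : Down B := slAt_down hA i t
  rcases (sectAt_nonneg A i t).eq_or_lt with h | h
  · have h0 : volume B = 0 := (measureReal_eq_zero_iff hB.finite).1 h.symm
    rw [← h, zero_mul, zero_mul, Measure.restrict_eq_zero.2 h0, integral_zero_measure, add_zero]
  · set M := lmean B j with hM
    have i1 := integrableOn_log_sq_coord hB j M
    have i2 : IntegrableOn (fun z : Fin n → ℝ => (2 * (M - m)) * (Real.log (z j) - M)) B :=
      ((integrableOn_log_coord hB j).sub (integrableOn_const hB.finite)).const_mul _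
    have i3 : IntegrableOn (fun _ : Fin n → ℝ => (M - m) ^ 2) B := integrableOn_const hB.finite
    have e : (fun z : Fin n → ℝ => (Real.log (z j) - m) ^ 2) = fun z =>
        (Real.log (z j) - M) ^ 2 + (2 * (M - m)) * (Real.log (z j) - M) + (M - m) ^ 2 := by
      funext z; ring
    have z0 : ∫ z in B, (Real.log (z j) - M) = 0 := by
      rw [integral_sub (integrableOn_log_coord hB j) (integrableOn_const hB.finite),
        setIntegral_const, slice_log hA i j t, smul_eq_mul]
      exact sub_self _
    have i12 : IntegrableOn (fun z : Fin n → ℝ =>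
        (Real.log (z j) - M) ^ 2 + (2 * (M - m)) * (Real.log (z j) - M)) B := i1.add i2
    rw [e, integral_add i12 i3, integral_add i1 i2, integral_const_mul, z0,
      setIntegral_const, smul_eq_mul, mul_zero, add_zero, lvar, ← hM]
    show _ = sectAt A i t * ((∫ z in B, (Real.log (z j) - M) ^ 2) / sectAt A i t) + _
    rw [mul_div_cancel₀ _ h.ne']
    rfl

/-- The law of total variance along the coordinate `i`. -/
lemma total_variance (hA : Down A) (hV : 0 < volume.real A) (j : Fin n) :
    IntegrableOn (fun t => sectAt A i t * lvar (slAt A i t) j) (Ioi 0) ∧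
    IntegrableOn (fun t => sectAt A i t *
      (lmean (slAt A i t) j - lmean A (i.succAbove j)) ^ 2) (Ioi 0) ∧
    lvar A (i.succAbove j) * volume.real A =
      (∫ t in Ioi (0:ℝ), sectAt A i t * lvar (slAt A i t) j) +
        ∫ t in Ioi (0:ℝ), sectAt A i t *
          (lmean (slAt A i t) j - lmean A (i.succAbove j)) ^ 2 := by
  set m := lmean A (i.succAbove j)
  set g := sectAt A i
  have h := slice_integral_gen hA i (integrableOn_log_sq_coord hA (i.succAbove j) m)
  simp only [Fin.insertNth_apply_succAbove, slice_second (i := i) hA j m] at h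
  obtain ⟨hi, he⟩ := h
  have hvn : ∀ t, 0 ≤ g t * lvar (slAt A i t) j := fun t =>
    mul_nonneg (sectAt_nonneg A i t)
      (div_nonneg (integral_nonneg fun z => sq_nonneg _) measureReal_nonneg)
  have hmeas : AEMeasurable (fun t => g t * (lmean (slAt A i t) j - m) ^ 2)
      (volume.restrict (Ioi 0)) := by
    have e : (fun t => g t * (lmean (slAt A i t) j - m) ^ 2) = fun t =>
        (g t * lmean (slAt A i t) j - m * g t) ^ 2 / g t := by
      funext t
      rcases eq_or_ne (g t) 0 with h0 | h0
      · simp [h0]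
      · field_simp
    rw [e]
    exact (((sect_split hA hV i j).1.aemeasurable).sub
      ((sectAt_measurable hA i).aemeasurable.const_mul m)).pow_const 2 |>.div
        (sectAt_measurable hA i).aemeasurable
  have h2 : IntegrableOn (fun t => g t * (lmean (slAt A i t) j - m) ^ 2) (Ioi 0) := by
    refine Integrable.mono' hi hmeas.aestronglyMeasurable (Eventually.of_forall fun t => ?_)
    rw [Real.norm_eq_abs, abs_of_nonneg (mul_nonneg (sectAt_nonneg A i t) (sq_nonneg _))]
    exact le_add_of_nonneg_left (hvn t)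
  have h1 : IntegrableOn (fun t => g t * lvar (slAt A i t) j) (Ioi 0) :=
    IntegrableOn.congr_fun (Integrable.sub hi h2) (fun t _ => by
      simp only [Pi.sub_apply]; exact add_sub_cancel_right _ _) measurableSet_Ioi
  refine ⟨h1, h2, ?_⟩
  rw [← integral_add h1 h2, ← he, lvar, div_mul_cancel₀ _ hV.ne']

/-- The conditional means have variance at most twice the curvature functional. -/
theorem mean_variance (hG : GapBound) (hA : Down A) (hV : 0 < volume.real A)
    (hP : Prof (sectAt A i) R) :
    (∑ j, ∫ t in Ioi (0:ℝ), sectAt A i t *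
      (lmean (slAt A i t) j - lmean A (i.succAbove j)) ^ 2) ≤
      2 * curv (sectAt A i) * volume.real A := by
  set g := sectAt A i with hg
  set V := volume.real A with hVdef
  have hR := hP.R_pos
  have htot : tot g = V := tot_sect hA i
  set α : ℕ → ℝ := fun k => R / (k + 3)
  set β : ℕ → ℝ := fun k => R - R / (k + 3)
  have hαm : ∀ k : ℕ, 0 < α k ∧ α k ≤ R / 3 := fun k => ⟨div_pos hR (by positivity),
    div_le_div_of_nonneg_left hR.le (by norm_num) (by simp)⟩
  have hαl : Tendsto α atTop (𝓝 0) :=
    tendsto_const_nhds.div_atTop (tendsto_atTop_add_const_right _ 3 tendsto_natCast_atTop_atTop)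
  have hβl : Tendsto β atTop (𝓝 R) := by simpa [β] using tendsto_const_nhds.sub hαl
  have hα' : ∀ k, α k ∈ Icc 0 R := fun k => ⟨(hαm k).1.le, by linarith [(hαm k).2]⟩
  have hβ' : ∀ k, β k ∈ Ioo 0 R := fun k => by
    have := hαm k
    simp only [α] at this
    exact ⟨by simp only [β]; linarith, by simp only [β]; linarith⟩
  have hβ'' : ∀ k, β k ∈ Icc 0 R := fun k => Ioo_subset_Icc_self (hβ' k)
  have hab : ∀ k, α k ≤ β k := fun k => by
    have := hαm k
    simp only [α] at this
    simp only [α, β]
    linarith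
  have hIoc : ∀ {f : ℝ → ℝ}, IntegrableOn f (Ioi 0) → IntegrableOn f (Ioc 0 R) :=
    fun h => h.mono_set Ioc_subset_Ioi_self
  have hIv : ∀ {f : ℝ → ℝ}, IntegrableOn f (Ioi 0) → ∀ k, IntervalIntegrable f volume (α k) (β k) :=
    fun h k => (intervalIntegrable_iff_integrableOn_Ioc_of_le (hab k)).2
      (h.mono_set fun x hx => (hαm k).1.trans hx.1)
  have hgi : IntegrableOn g (Ioi 0) := integrableOn_g hP
  have htail : ∫ t in Ioc 0 R, g t = V := by
    have := hP.integral_Ioi_eq le_rfl fun _ => 1
    simp only [mul_one] at this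
    rw [← this, ← htot]
    rfl
  -- the interval bound, centred at the global mean
  set L : Fin n → ℝ → ℝ := fun j t => lmean (slAt A i t) j with hLdef
  set m : Fin n → ℝ := fun j => lmean A (i.succAbove j) with hmdef
  have key : ∀ k, ∑ j, ((∫ t in α k..β k, g t) * (∫ t in α k..β k, g t * (L j t - m j) ^ 2) -
      (∫ t in α k..β k, (g t * L j t - m j * g t)) ^ 2) ≤
      2 * tot g * ((∫ t in α k..β k, g t * curvFun g t) + haz g (β k) * tail g (β k)) := by
    intro k
    refine (le_of_eq (Finset.sum_congr rfl fun j _ => ?_)).trans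
      (interval_lmean hG hA hP (hαm k).1 (hab k) (hβ' k).2)
    have i0 := hIv hgi k
    have i1 : IntervalIntegrable (fun t => g t * L j t) volume (α k) (β k) :=
      hIv (sect_split hA hV i j).1 k
    have i2 : IntervalIntegrable (fun t => g t * (L j t - m j) ^ 2) volume (α k) (β k) :=
      hIv (total_variance hA hV j).2.1 k
    have x1 : (∫ t in α k..β k, (g t * L j t - m j * g t)) =
        (∫ t in α k..β k, g t * L j t) - m j * ∫ t in α k..β k, g t := by
      rw [intervalIntegral.integral_sub i1 (i0.const_mul _), intervalIntegral.integral_const_mul]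
    have x2 : (∫ t in α k..β k, g t * L j t ^ 2) = (∫ t in α k..β k, g t * (L j t - m j) ^ 2) +
        2 * m j * (∫ t in α k..β k, g t * L j t) - m j ^ 2 * ∫ t in α k..β k, g t := by
      rw [← intervalIntegral.integral_const_mul, ← intervalIntegral.integral_const_mul,
        ← intervalIntegral.integral_add i2 (i1.const_mul _),
        ← intervalIntegral.integral_sub (i2.add (i1.const_mul _)) (i0.const_mul _)]
      refine intervalIntegral.integral_congr fun t _ => ?_
      ring
    show _ = (∫ t in α k..β k, g t) * (∫ t in α k..β k, g t * L j t ^ 2) -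
      (∫ t in α k..β k, g t * L j t) ^ 2
    rw [x1, x2]
    ring
  have hzero : ∀ j, (∫ t in Ioc 0 R, (g t * L j t - m j * g t)) = 0 := by
    intro j
    rw [integral_sub (hIoc (sect_split hA hV i j).1) ((hIoc hgi).const_mul _), integral_const_mul,
      htail, ← hP.integral_Ioi_eq le_rfl, ← (sect_split hA hV i j).2]
    exact sub_self _
  have hL : Tendsto (fun k => ∑ j, ((∫ t in α k..β k, g t) *
        (∫ t in α k..β k, g t * (L j t - m j) ^ 2) -
        (∫ t in α k..β k, (g t * L j t - m j * g t)) ^ 2)) atTop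
      (𝓝 (∑ j, (V * (∫ t in Ioi (0:ℝ), g t * (L j t - m j) ^ 2) - 0 ^ 2))) := by
    refine tendsto_finsetSum _ fun j _ => ?_
    have a := tendsto_exhaust hR (hIoc hgi) hα' hβ'' hαl hβl
    have b := tendsto_exhaust hR (hIoc (total_variance (i := i) hA hV j).2.1) hα' hβ'' hαl hβl
    have c := tendsto_exhaust hR
      (Integrable.sub (hIoc (sect_split hA hV i j).1) ((hIoc hgi).const_mul (m j))) hα' hβ'' hαl hβl
    rw [htail] at a
    rw [← hP.integral_Ioi_eq le_rfl] at b
    simp only [Pi.sub_apply] at c
    rw [hzero j] at c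
    exact (a.mul b).sub (c.pow 2)
  have hRt : Tendsto (fun k => 2 * tot g *
      ((∫ t in α k..β k, g t * curvFun g t) + haz g (β k) * tail g (β k))) atTop
      (𝓝 (2 * tot g * ((∫ t in Ioc 0 R, g t * curvFun g t) + 0))) :=
    ((tendsto_exhaust hR (integrableOn_curvFun hP) hα' hβ'' hαl hβl).add
      (tendsto_boundary hP hβ' hβl)).const_mul _
  have h := le_of_tendsto_of_tendsto hL hRt (Eventually.of_forall key)
  have hc : (∫ t in Ioc 0 R, g t * curvFun g t) = curv g * V := by
    rw [curv_eq, htot, div_mul_cancel₀ _ hV.ne', hP.integral_Ioi_eq le_rfl]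
  rw [hc, add_zero, htot] at h
  simp only [ne_eq, OfNat.ofNat_ne_zero, not_false_eq_true, zero_pow, sub_zero,
    ← Finset.mul_sum] at h
  refine le_of_mul_le_mul_left ?_ hV
  linarith

end Drop

open Vale.Agent.P254.Sym

/-- Conditioning on one coordinate lowers the total variance by at most twice the curvature
functional. -/
theorem dropBound (hG : GapBound) (hS : SectionFacts) : DropBound := by
  intro n A hA hV i
  obtain ⟨R, hP⟩ := hS.prof hA hV i
  have h := Drop.mean_variance hG hA hV hP
  have e : ∑ j, lvar A (i.succAbove j) * volume.real A =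
      (∫ t in Ioi (0:ℝ), sectAt A i t * ∑ j, lvar (slAt A i t) j) +
        ∑ j, ∫ t in Ioi (0:ℝ), sectAt A i t *
          (lmean (slAt A i t) j - lmean A (i.succAbove j)) ^ 2 := by
    simp only [Finset.mul_sum]
    rw [integral_finsetSum _ fun j _ => (Drop.total_variance (i := i) hA hV j).1,
      ← Finset.sum_add_distrib]
    exact Finset.sum_congr rfl fun j _ => (Drop.total_variance (i := i) hA hV j).2.2
  rw [← Finset.sum_mul] at e
  rw [le_div_iff₀ hV, sub_mul, e]
  linarith

end Vale.Agent.P254.Uncond
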