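import Vale.Agent.P254.Uncond.Defs

/-!
One-sided calculus of a profile and of the weight `u G ^ 2 / g`.
-/

open MeasureTheory Set Filter Topology

namespace Vale.Agent.P254.Uncond.Drop

variable {g : ℝ → ℝ} {R : ℝ}

/-- Minus the logarithm of the profile. -/
noncomputable def phi (g : ℝ → ℝ) (t : ℝ) : ℝ := -Real.log (g t)

lemma slope_eq (g : ℝ → ℝ) (t : ℝ) : Uncond.slope g t = derivWithin (phi g) (Ioi t) t := rfl

lemma exp_phi (hP : Prof g R) {t : ℝ} (h0 : 0 ≤ t) (h1 : t < R) :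
    g t = Real.exp (-phi g t) := by
  rw [phi, neg_neg, Real.exp_log (hP.pos t h0 h1)]

lemma phi_mono (hP : Prof g R) {s t : ℝ} (h0 : 0 ≤ s) (hst : s ≤ t) (h1 : t < R) :
    phi g s ≤ phi g t := by
  have := Real.log_le_log (hP.pos t (h0.trans hst) h1) (hP.anti h0 (h0.trans hst) hst)
  simp only [phi]
  linarith

lemma hasDeriv_phi (hP : Prof g R) {t : ℝ} (h0 : 0 < t) (h1 : t < R) :
    HasDerivWithinAt (phi g) (Uncond.slope g t) (Ioi t) t := by
  rw [slope_eq]
  exact hP.convex.hasDerivWithinAt_rightDeriv_of_mem_interior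
    (by rw [interior_Ico]; exact ⟨h0, h1⟩)

lemma slope_le_secant (hP : Prof g R) {t s : ℝ} (h0 : 0 < t) (hts : t < s) (h1 : s < R) :
    Uncond.slope g t * (s - t) ≤ phi g s - phi g t := by
  have h := hP.convex.le_slope_of_hasDerivWithinAt_Ioi (x := t) (y := s)
    ⟨h0.le, hts.trans h1⟩ ⟨(h0.trans hts).le, h1⟩ hts (hasDeriv_phi hP h0 (hts.trans h1))
  rw [slope_def_field, le_div_iff₀ (sub_pos.2 hts)] at h
  exact h

lemma secant_le_slope (hP : Prof g R) {s t : ℝ} (h0 : 0 ≤ s) (hst : s < t) (h1 : t < R) :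
    phi g t - phi g s ≤ Uncond.slope g t * (t - s) := by
  have ht : 0 < t := h0.trans_lt hst
  have hlim := hasDerivWithinAt_iff_tendsto_slope.1 (hasDeriv_phi hP ht h1)
  rw [sdiff_singleton_eq_self (by simp)] at hlim
  have hev : ∀ᶠ y in 𝓝[>] t, (phi g t - phi g s) / (t - s) ≤ _root_.slope (phi g) t y := by
    filter_upwards [Ioo_mem_nhdsGT h1] with y hy
    rw [slope_def_field]
    exact hP.convex.slope_mono_adjacent (x := s) (y := t) (z := y) ⟨h0, hst.trans h1⟩
      ⟨(ht.trans hy.1).le, hy.2⟩ hst hy.1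
  have h := ge_of_tendsto hlim hev
  rwa [div_le_iff₀ (sub_pos.2 hst)] at h

lemma slope_nonneg (hP : Prof g R) {t : ℝ} (h0 : 0 < t) (h1 : t < R) : 0 ≤ Uncond.slope g t := by
  have h := secant_le_slope hP le_rfl h0 h1
  have h2 := phi_mono hP le_rfl h0.le h1
  rw [sub_zero] at h
  nlinarith

lemma slope_mono (hP : Prof g R) : MonotoneOn (Uncond.slope g) (Ioo 0 R) := by
  intro s hs t ht hst
  rcases hst.eq_or_lt with rfl | hlt
  · exact le_rfl
  have a := slope_le_secant hP hs.1 hlt ht.2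
  have b := secant_le_slope hP hs.1.le hlt ht.2
  exact le_of_mul_le_mul_right (a.trans b) (sub_pos.2 hlt)

lemma phi_lip (hP : Prof g R) {s t b : ℝ} (h0 : 0 ≤ s) (hst : s ≤ t) (htb : t ≤ b)
    (hb : b < R) (hb0 : 0 < b) : phi g t - phi g s ≤ Uncond.slope g b * (t - s) := by
  rcases hst.eq_or_lt with rfl | hlt
  · simp
  have h1 := secant_le_slope hP h0 hlt (htb.trans_lt hb)
  have ht0 : 0 < t := h0.trans_lt hlt
  exact h1.trans (mul_le_mul_of_nonneg_right
    (slope_mono hP ⟨ht0, htb.trans_lt hb⟩ ⟨hb0, hb⟩ htb) (sub_pos.2 hlt).le)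

lemma phi_midpoint (hP : Prof g R) {t h : ℝ} (h0 : 0 ≤ t - h) (hh : 0 ≤ h) (h1 : t + h < R) :
    0 ≤ phi g (t + h) + phi g (t - h) - 2 * phi g t := by
  have h2 := hP.convex.2 (show t - h ∈ Ico 0 R from ⟨h0, by linarith⟩)
    (show t + h ∈ Ico 0 R from ⟨by linarith, h1⟩) (show (0:ℝ) ≤ 1 / 2 by norm_num)
    (show (0:ℝ) ≤ 1 / 2 by norm_num) (by norm_num)
  simp only [smul_eq_mul] at h2
  rw [show 1 / 2 * (t - h) + 1 / 2 * (t + h) = t by ring] at h2
  simp only [phi]
  linarith

lemma continuousOn_phi (hP : Prof g R) : ContinuousOn (phi g) (Ioo 0 R) :=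
  (hP.convex.subset Ioo_subset_Ico_self (convex_Ioo _ _)).continuousOn isOpen_Ioo

lemma continuousOn_g (hP : Prof g R) : ContinuousOn g (Ioo 0 R) :=
  ((continuousOn_phi hP).neg.rexp).congr fun _ ht => exp_phi hP ht.1.le ht.2

lemma hasDeriv_g (hP : Prof g R) {t : ℝ} (h0 : 0 < t) (h1 : t < R) :
    HasDerivWithinAt g (-(g t * Uncond.slope g t)) (Ioi t) t := by
  have h := ((hasDeriv_phi hP h0 h1).neg).exp
  refine (h.congr_of_eventuallyEq ?_ (exp_phi hP h0.le h1)).congr_deriv ?_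
  · filter_upwards [Ioo_mem_nhdsGT h1] with s hs
    exact exp_phi hP (h0.trans hs.1).le hs.2
  · simp only [Pi.neg_apply]
    rw [← exp_phi hP h0.le h1]
    ring

lemma le_zero_bound (hP : Prof g R) {t : ℝ} (h0 : 0 ≤ t) : g t ≤ g 0 :=
  hP.anti (mem_Ici.2 le_rfl) h0 h0

lemma integrableOn_g (hP : Prof g R) : IntegrableOn g (Ioi 0) := by
  have h1 : IntegrableOn g (Ioc 0 R) := by
    refine Integrable.mono' (integrableOn_const (C := g 0) measure_Ioc_lt_top.ne)
      hP.meas.aestronglyMeasurable ((ae_restrict_iff' measurableSet_Ioc).2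
        (Eventually.of_forall fun t ht => ?_))
    rw [Real.norm_eq_abs, abs_of_nonneg (hP.nonneg t)]
    exact le_zero_bound hP ht.1.le
  have h2 : IntegrableOn g (Ioi R) :=
    (integrableOn_zero : IntegrableOn (fun _ : ℝ => (0:ℝ)) (Ioi R)).congr_fun
      (fun t ht => (hP.beyond t ht).symm) measurableSet_Ioi
  have h := h1.union h2
  rwa [Ioc_union_Ioi_eq_Ioi hP.R_pos.le] at h

lemma intervalIntegrable_g (hP : Prof g R) {a b : ℝ} (ha : 0 ≤ a) (hb : 0 ≤ b) :
    IntervalIntegrable g volume a b := by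
  refine intervalIntegrable_iff.2 ((integrableOn_g hP).mono_set ?_)
  intro x hx
  exact lt_of_le_of_lt (le_min ha hb) hx.1

lemma tail_split (hP : Prof g R) {a b : ℝ} (ha : 0 ≤ a) (hab : a ≤ b) :
    tail g a = (∫ s in a..b, g s) + tail g b := by
  rw [intervalIntegral.integral_of_le hab, Uncond.tail, Uncond.tail,
    ← setIntegral_union (Ioc_disjoint_Ioi_same) measurableSet_Ioi
      ((integrableOn_g hP).mono_set fun x hx => lt_of_le_of_lt ha hx.1)
      ((integrableOn_g hP).mono_set fun x hx => lt_of_le_of_lt (ha.trans hab) hx),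
    Ioc_union_Ioi_eq_Ioi hab]

lemma tail_R (hP : Prof g R) : tail g R = 0 :=
  setIntegral_eq_zero_of_forall_eq_zero fun t ht => hP.beyond t ht

lemma tail_anti (hP : Prof g R) {a b : ℝ} (ha : 0 ≤ a) (hab : a ≤ b) : tail g b ≤ tail g a := by
  rw [tail_split hP ha hab]
  have := intervalIntegral.integral_nonneg hab (μ := volume) (f := g) fun x _ => hP.nonneg x
  linarith

lemma tail_pos (hP : Prof g R) {t : ℝ} (h0 : 0 ≤ t) (h1 : t < R) : 0 < tail g t := by
  rw [tail_split hP h0 h1.le, tail_R hP, add_zero]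
  refine intervalIntegral.intervalIntegral_pos_of_pos_on
    (intervalIntegrable_g hP h0 hP.R_pos.le) (fun x hx => ?_) h1
  exact hP.pos x (h0.trans hx.1.le) hx.2

lemma tot_pos (hP : Prof g R) : 0 < tot g := by
  have := tail_pos hP le_rfl hP.R_pos
  simpa [Uncond.tail, Uncond.tot] using this

lemma tail_le_tot (hP : Prof g R) {t : ℝ} (h0 : 0 ≤ t) : tail g t ≤ tot g := by
  have := tail_anti hP le_rfl h0
  simpa [Uncond.tail, Uncond.tot] using this

lemma tail_le_width (hP : Prof g R) {t : ℝ} (h0 : 0 ≤ t) (h1 : t ≤ R) :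
    tail g t ≤ g 0 * (R - t) := by
  rw [tail_split hP h0 h1, tail_R hP, add_zero]
  have h := intervalIntegral.integral_mono_on h1 (intervalIntegrable_g hP h0 hP.R_pos.le)
    intervalIntegrable_const (g := fun _ => g 0) fun x hx => le_zero_bound hP (h0.trans hx.1)
  simp only [intervalIntegral.integral_const, smul_eq_mul] at h
  linarith

lemma hasDeriv_tail (hP : Prof g R) {t : ℝ} (h0 : 0 < t) (h1 : t < R) :
    HasDerivAt (tail g) (-(g t)) t := by
  have hc : ContinuousAt g t := (continuousOn_g hP).continuousAt (Ioo_mem_nhds h0 h1)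
  have h : HasDerivAt (fun s => tail g (t / 2) - ∫ x in (t/2)..s, g x) (-(g t)) t :=
    (intervalIntegral.integral_hasDerivAt_right (intervalIntegrable_g hP (by linarith) h0.le)
      hP.meas.stronglyMeasurable.stronglyMeasurableAtFilter hc).const_sub _
  refine h.congr_of_eventuallyEq ?_
  filter_upwards [Ioi_mem_nhds (show t / 2 < t by linarith)] with s hs
  have := tail_split hP (show 0 ≤ t / 2 by linarith) hs.le
  linarith

lemma hasDeriv_haz (hP : Prof g R) {t : ℝ} (h0 : 0 < t) (h1 : t < R) :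
    HasDerivAt (haz g) (g t / tail g t) t := by
  have hG := tail_pos hP h0.le h1
  have h := ((hasDeriv_tail hP h0 h1).log hG.ne').const_sub (Real.log (tot g))
  refine (h.congr_of_eventuallyEq ?_).congr_deriv (by ring)
  filter_upwards [Ioo_mem_nhds h0 h1] with s hs
  rw [haz, Real.log_div (tot_pos hP).ne' (tail_pos hP hs.1.le hs.2).ne']

lemma haz_nonneg (hP : Prof g R) {t : ℝ} (h0 : 0 ≤ t) (h1 : t < R) : 0 ≤ haz g t := by
  refine Real.log_nonneg ?_
  rw [le_div_iff₀ (tail_pos hP h0 h1), one_mul]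
  exact tail_le_tot hP h0

lemma haz_mono (hP : Prof g R) {a b : ℝ} (ha : 0 ≤ a) (hab : a ≤ b) (hb : b < R) :
    haz g a ≤ haz g b := by
  refine Real.log_le_log (div_pos (tot_pos hP) (tail_pos hP ha (hab.trans_lt hb))) ?_
  exact div_le_div_of_nonneg_left (tot_pos hP).le (tail_pos hP (ha.trans hab) hb)
    (tail_anti hP ha hab)

/-- The tail times its hazard, bounded by the total mass times `u e^{-u}`. -/
lemma exp_haz (hP : Prof g R) {t : ℝ} (h0 : 0 ≤ t) (h1 : t < R) :
    tail g t = tot g * Real.exp (-haz g t) := by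
  have hG := tail_pos hP h0 h1
  have hV := tot_pos hP
  rw [haz, Real.exp_neg, Real.exp_log (div_pos hV hG)]
  field_simp

lemma slope_mul_tail_le (hP : Prof g R) {t : ℝ} (h0 : 0 < t) (h1 : t < R) :
    Uncond.slope g t * tail g t ≤ g t := by
  set p := Uncond.slope g t with hp
  rcases (slope_nonneg hP h0 h1).eq_or_lt with h | hpos
  · rw [hp, ← h, zero_mul]; exact hP.nonneg t
  have hexp : ∀ s, HasDerivAt (fun s => -(g t * Real.exp (-(p * (s - t)))))
      (p * (g t * Real.exp (-(p * (s - t))))) s := fun s =>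
    (((((hasDerivAt_id' s).sub_const t).const_mul p).neg.exp).const_mul (g t)).neg.congr_deriv
      (by simp; ring)
  have hb : ∀ s ∈ Ioo t R, p * g s ≤ p * (g t * Real.exp (-(p * (s - t)))) := by
    intro s hs
    refine mul_le_mul_of_nonneg_left ?_ hpos.le
    rw [exp_phi hP (h0.trans hs.1).le hs.2, exp_phi hP h0.le h1, ← Real.exp_add]
    exact Real.exp_le_exp.2 (by linarith [slope_le_secant hP h0 hs.1 hs.2])
  have hc : Continuous fun s => p * (g t * Real.exp (-(p * (s - t)))) := by fun_prop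
  have hi := intervalIntegral.integral_mono_on_of_le_Ioo (μ := volume) h1.le
    ((intervalIntegrable_g hP h0.le hP.R_pos.le).const_mul p) (hc.intervalIntegrable _ _) hb
  rw [intervalIntegral.integral_const_mul,
    intervalIntegral.integral_eq_sub_of_hasDerivAt (fun s _ => hexp s)
      (hc.intervalIntegrable _ _)] at hi
  rw [tail_split hP h0.le h1.le, tail_R hP, add_zero]
  have : 0 ≤ g t * Real.exp (-(p * (R - t))) := mul_nonneg (hP.nonneg t) (Real.exp_nonneg _)
  simp only [sub_self, mul_zero, neg_zero, Real.exp_zero, mul_one] at hi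
  linarith

lemma rate_mem (hP : Prof g R) {t : ℝ} (h0 : 0 < t) (h1 : t < R) :
    0 ≤ rate g t ∧ rate g t ≤ 1 := by
  have hg := hP.pos t h0.le h1
  refine ⟨div_nonneg (mul_nonneg (slope_nonneg hP h0 h1) (tail_pos hP h0.le h1).le) hg.le, ?_⟩
  rw [rate, div_le_one hg]
  exact slope_mul_tail_le hP h0 h1

/-- The weight `u G ^ 2 / g`. -/
noncomputable def wgt (g : ℝ → ℝ) (t : ℝ) : ℝ := haz g t * tail g t ^ 2 / g t

/-- The integrand of the curvature functional. -/
noncomputable def curvFun (g : ℝ → ℝ) (t : ℝ) : ℝ :=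
  rate g t * (2 * haz g t - 1) - rate g t ^ 2 * haz g t

lemma curv_eq (g : ℝ → ℝ) : curv g = (∫ t in Ioi (0:ℝ), g t * curvFun g t) / tot g := rfl

/-- The right derivative of the weight. -/
noncomputable def wgtDeriv (g : ℝ → ℝ) (t : ℝ) : ℝ :=
  tail g t - 2 * haz g t * tail g t + haz g t * tail g t ^ 2 * Uncond.slope g t / g t

lemma hasDeriv_wgt (hP : Prof g R) {t : ℝ} (h0 : 0 < t) (h1 : t < R) :
    HasDerivWithinAt (wgt g) (wgtDeriv g t) (Ioi t) t := by
  have hg := hP.pos t h0.le h1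
  have hG := tail_pos hP h0.le h1
  refine ((((hasDeriv_haz hP h0 h1).hasDerivWithinAt.mul
    (((hasDeriv_tail hP h0 h1).hasDerivWithinAt).pow 2)).div (hasDeriv_g hP h0 h1)
      hg.ne')).congr_deriv ?_
  simp only [wgtDeriv, Pi.mul_apply, Pi.pow_apply]
  field_simp
  ring

lemma slope_mul_wgtDeriv (hP : Prof g R) {t : ℝ} (h0 : 0 < t) (h1 : t < R) :
    -(Uncond.slope g t * wgtDeriv g t) = g t * curvFun g t := by
  have hg := hP.pos t h0.le h1
  simp only [wgtDeriv, curvFun, rate]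
  field_simp
  ring

lemma continuousOn_tail (hP : Prof g R) : ContinuousOn (tail g) (Ioo 0 R) := fun _ ht =>
  (hasDeriv_tail hP ht.1 ht.2).continuousAt.continuousWithinAt

lemma continuousOn_haz (hP : Prof g R) : ContinuousOn (haz g) (Ioo 0 R) := fun _ ht =>
  (hasDeriv_haz hP ht.1 ht.2).continuousAt.continuousWithinAt

lemma continuousOn_wgt (hP : Prof g R) : ContinuousOn (wgt g) (Ioo 0 R) :=
  ((continuousOn_haz hP).mul ((continuousOn_tail hP).pow 2)).div (continuousOn_g hP)
    fun t ht => (hP.pos t ht.1.le ht.2).ne'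

lemma wgt_nonneg (hP : Prof g R) {t : ℝ} (h0 : 0 ≤ t) (h1 : t < R) : 0 ≤ wgt g t :=
  div_nonneg (mul_nonneg (haz_nonneg hP h0 h1) (sq_nonneg _)) (hP.nonneg t)

lemma slope_mul_wgt_le (hP : Prof g R) {t : ℝ} (h0 : 0 < t) (h1 : t < R) :
    Uncond.slope g t * wgt g t ≤ haz g t * tail g t := by
  have hg := hP.pos t h0.le h1
  have hG := tail_pos hP h0.le h1
  have e : Uncond.slope g t * wgt g t = haz g t * tail g t * rate g t := by
    simp only [wgt, rate]; ring
  rw [e]
  exact mul_le_of_le_one_right (mul_nonneg (haz_nonneg hP h0.le h1) hG.le) (rate_mem hP h0 h1).2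

/-- The antiderivative of `g u` is `-G (u + 1)`. -/
lemma hasDeriv_moment (hP : Prof g R) {t : ℝ} (h0 : 0 < t) (h1 : t < R) :
    HasDerivAt (fun s => -(tail g s * (haz g s + 1))) (g t * haz g t) t := by
  have hG := tail_pos hP h0.le h1
  refine (((hasDeriv_tail hP h0 h1).mul ((hasDeriv_haz hP h0 h1).add_const 1)).neg).congr_deriv ?_
  field_simp
  ring

end Vale.Agent.P254.Uncond.Drop
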