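import Vale.Agent.P254.Uncond.Facts
import Vale.Agent.P254.Uncond.DropProfile

/-!
The variance of the conditional logarithmic means on a compact interval of heights is at most
twice the curvature functional.
-/

open MeasureTheory Set Filter Topology

namespace Vale.Agent.P254.Uncond.Drop

open Vale.Agent.P254.Sym

/-- Difference quotients from the right. -/
lemma right_quot {F : ℝ → ℝ} {d t : ℝ} (hF : HasDerivWithinAt F d (Ioi t) t) :
    Tendsto (fun h => (F (t + h) - F t) / h) (𝓝[>] 0) (𝓝 d) := by
  have h1 := hasDerivWithinAt_iff_tendsto_slope.1 hF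
  rw [sdiff_singleton_eq_self (by simp)] at h1
  have h2 : Tendsto (fun h : ℝ => t + h) (𝓝[>] 0) (𝓝[>] t) := by
    refine tendsto_nhdsWithin_iff.2 ⟨?_, ?_⟩
    · have := ((continuous_const (y := t)).add continuous_id).tendsto (0 : ℝ)
      simp only [Pi.add_apply, id, add_zero] at this
      exact this.mono_left nhdsWithin_le_nhds
    · filter_upwards [self_mem_nhdsWithin] with h hh
      exact lt_add_of_pos_right t hh
  refine (h1.comp h2).congr fun h => ?_
  simp [slope_def_field]

/-- Cauchy-Schwarz with a weight on an interval. -/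
lemma sq_integral_le_weight {a b : ℝ} (hab : a ≤ b) {D q : ℝ → ℝ}
    (hD : ContinuousOn D (Icc a b)) (hq : ContinuousOn q (Icc a b))
    (hpos : ∀ t ∈ Icc a b, 0 < q t) :
    (∫ t in a..b, D t) ^ 2 ≤ (∫ t in a..b, q t) * ∫ t in a..b, D t ^ 2 / q t := by
  rcases hab.eq_or_lt with rfl | hlt
  · simp
  have hD' := hD.intervalIntegrable_of_Icc (μ := volume) hab
  have hq' := hq.intervalIntegrable_of_Icc (μ := volume) hab
  have hr' : IntervalIntegrable (fun t => D t ^ 2 / q t) volume a b :=
    ((hD.pow 2).div hq fun t ht => (hpos t ht).ne').intervalIntegrable_of_Icc (μ := volume) hab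
  have hQ : 0 < ∫ t in a..b, q t :=
    intervalIntegral.intervalIntegral_pos_of_pos_on hq' (fun t ht => hpos t (Ioo_subset_Icc_self ht))
      hlt
  set X := ∫ t in a..b, D t
  set Y := ∫ t in a..b, q t with hY
  set s := X / Y with hs
  have h := intervalIntegral.integral_mono_on hab (hD'.const_mul (2 * s))
    ((hq'.const_mul (s ^ 2)).add hr') fun t ht => ?_
  · rw [intervalIntegral.integral_const_mul,
      intervalIntegral.integral_add (hq'.const_mul _) hr', intervalIntegral.integral_const_mul,
      ← hY, hs, div_pow] at h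
    set Z := ∫ t in a..b, D t ^ 2 / q t
    have e : X ^ 2 / Y ^ 2 * Y = X ^ 2 / Y := by field_simp
    rw [e, show 2 * (X / Y) * X = 2 * (X ^ 2 / Y) by ring] at h
    have h' : X ^ 2 / Y ≤ Z := by linarith
    rw [div_le_iff₀ hQ] at h'
    linarith
  · have hq0 := hpos t ht
    have h0 : 0 ≤ (s * q t - D t) ^ 2 / q t := div_nonneg (sq_nonneg _) hq0.le
    have e : (s * q t - D t) ^ 2 / q t = s ^ 2 * q t + D t ^ 2 / q t - 2 * s * D t := by
      field_simp
      ring
    linarith

/-- The variance form of an inequality between increments. -/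
lemma var_compare {ι : Type*} [Fintype ι] {α β : ℝ} (hab : α ≤ β) {g u N : ℝ → ℝ}
    {e : ι → ℝ → ℝ} (hg : ContinuousOn g (Icc α β)) (hu : ContinuousOn u (Icc α β))
    (hN : ContinuousOn N (Icc α β)) (he : ∀ j, ContinuousOn (e j) (Icc α β))
    (hg0 : ∀ t ∈ Icc α β, 0 ≤ g t)
    (h : ∀ a b, a ∈ Icc α β → b ∈ Icc α β → a ≤ b →
      ∑ j, (e j b - e j a) ^ 2 ≤ (u b - u a) * (N b - N a)) :
    ∑ j, ((∫ t in α..β, g t) * (∫ t in α..β, g t * e j t ^ 2) - (∫ t in α..β, g t * e j t) ^ 2) ≤
      (∫ t in α..β, g t) * (∫ t in α..β, g t * (u t * N t))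
        - (∫ t in α..β, g t * u t) * (∫ t in α..β, g t * N t) := by
  have I : ∀ {F : ℝ → ℝ}, ContinuousOn F (Icc α β) → IntervalIntegrable F volume α β :=
    fun hF => hF.intervalIntegrable_of_Icc hab
  have hsym : ∀ a ∈ Icc α β, ∀ b ∈ Icc α β,
      ∑ j, (e j b - e j a) ^ 2 ≤ (u b - u a) * (N b - N a) := by
    intro a ha b hb
    rcases le_total a b with hle | hle
    · exact h a b ha hb hle
    · have := h b a hb ha hle
      refine le_of_eq_of_le (Finset.sum_congr rfl fun j _ => by ring) (this.trans_eq (by ring))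
  set G := ∫ t in α..β, g t with hG
  have inner : ∀ a ∈ Icc α β,
      ∑ j, ((∫ t in α..β, g t * e j t ^ 2) - 2 * e j a * (∫ t in α..β, g t * e j t) + e j a ^ 2 * G)
      ≤ (∫ t in α..β, g t * (u t * N t)) - u a * (∫ t in α..β, g t * N t)
        - N a * (∫ t in α..β, g t * u t) + u a * N a * G := by
    intro a ha
    have i1 : ∀ j, IntervalIntegrable (fun t => g t * (e j t - e j a) ^ 2) volume α β := fun j =>
      I (hg.mul (((he j).sub continuousOn_const).pow 2))
    have h1 := intervalIntegral.integral_mono_on hab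
      (IntervalIntegrable.sum Finset.univ fun j _ => i1 j)
      (I (F := fun t => g t * ((u t - u a) * (N t - N a))) (hg.mul
        ((hu.sub (continuousOn_const (c := u a))).mul
          (hN.sub (continuousOn_const (c := N a)))))) fun t ht => ?_
    · simp only [Finset.sum_apply] at h1
      rw [intervalIntegral.integral_finsetSum fun j _ => i1 j] at h1
      refine (le_of_eq ?_).trans (h1.trans_eq ?_)
      · refine Finset.sum_congr rfl fun j _ => ?_
        have e1 : (fun t => g t * (e j t - e j a) ^ 2) = fun t =>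
            g t * e j t ^ 2 - 2 * e j a * (g t * e j t) + e j a ^ 2 * g t := by
          funext t; ring
        rw [e1, intervalIntegral.integral_add
            ((I (F := fun t => g t * e j t ^ 2) (hg.mul ((he j).pow 2))).sub
              ((I (F := fun t => g t * e j t) (hg.mul (he j))).const_mul _))
            ((I hg).const_mul _),
          intervalIntegral.integral_sub (I (F := fun t => g t * e j t ^ 2) (hg.mul ((he j).pow 2)))
            ((I (F := fun t => g t * e j t) (hg.mul (he j))).const_mul _),
          intervalIntegral.integral_const_mul, intervalIntegral.integral_const_mul]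
      · have e2 : (fun t => g t * ((u t - u a) * (N t - N a))) = fun t =>
            g t * (u t * N t) - u a * (g t * N t) - N a * (g t * u t) + u a * N a * g t := by
          funext t; ring
        have j1 := I (F := fun t => g t * (u t * N t)) (hg.mul (hu.mul hN))
        have j2 := (I (F := fun t => g t * N t) (hg.mul hN)).const_mul (u a)
        have j3 := (I (F := fun t => g t * u t) (hg.mul hu)).const_mul (N a)
        rw [e2, intervalIntegral.integral_add ((j1.sub j2).sub j3) ((I hg).const_mul _),
          intervalIntegral.integral_sub (j1.sub j2) j3, intervalIntegral.integral_sub j1 j2,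
          intervalIntegral.integral_const_mul, intervalIntegral.integral_const_mul,
          intervalIntegral.integral_const_mul]
    · simp only [Finset.sum_apply, ← Finset.mul_sum]
      exact mul_le_mul_of_nonneg_left (hsym a ha t ht) (hg0 t ht)
  set Y : ι → ℝ := fun j => ∫ t in α..β, g t * e j t with hY
  set Z : ι → ℝ := fun j => ∫ t in α..β, g t * e j t ^ 2 with hZ
  set P := ∫ t in α..β, g t * (u t * N t) with hP
  set U := ∫ t in α..β, g t * u t with hU
  set M := ∫ t in α..β, g t * N t with hM
  have i2 : ∀ j, IntervalIntegrable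
      (fun a => g a * (Z j - 2 * e j a * Y j + e j a ^ 2 * G)) volume α β := fun j =>
    I (hg.mul ((continuousOn_const.sub ((continuousOn_const.mul (he j)).mul continuousOn_const)).add
      (((he j).pow 2).mul continuousOn_const)))
  have h2 := intervalIntegral.integral_mono_on hab
    (IntervalIntegrable.sum Finset.univ fun j _ => i2 j)
    (I (F := fun a => g a * (P - u a * M - N a * U + u a * N a * G))
      (hg.mul (((continuousOn_const.sub (hu.mul continuousOn_const)).sub
        (hN.mul continuousOn_const)).add ((hu.mul hN).mul continuousOn_const)))) fun t ht => ?_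
  · simp only [Finset.sum_apply] at h2
    rw [intervalIntegral.integral_finsetSum fun j _ => i2 j] at h2
    have eL : ∀ j, (∫ a in α..β, g a * (Z j - 2 * e j a * Y j + e j a ^ 2 * G))
        = 2 * (G * Z j - Y j ^ 2) := by
      intro j
      have e1 : (fun a => g a * (Z j - 2 * e j a * Y j + e j a ^ 2 * G)) = fun a =>
          Z j * g a - 2 * Y j * (g a * e j a) + G * (g a * e j a ^ 2) := by
        funext a; ring
      have j1 := (I hg).const_mul (Z j)
      have j2 := (I (F := fun t => g t * e j t) (hg.mul (he j))).const_mul (2 * Y j)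
      have j3 := (I (F := fun t => g t * e j t ^ 2) (hg.mul ((he j).pow 2))).const_mul G
      rw [e1, intervalIntegral.integral_add (j1.sub j2) j3, intervalIntegral.integral_sub j1 j2,
        intervalIntegral.integral_const_mul, intervalIntegral.integral_const_mul,
        intervalIntegral.integral_const_mul]
      simp only [hY, hZ, hG]
      ring
    have eR : (∫ a in α..β, g a * (P - u a * M - N a * U + u a * N a * G))
        = 2 * (G * P - U * M) := by
      have e1 : (fun a => g a * (P - u a * M - N a * U + u a * N a * G)) = fun a =>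
          P * g a - M * (g a * u a) - U * (g a * N a) + G * (g a * (u a * N a)) := by
        funext a; ring
      have j1 := (I hg).const_mul P
      have j2 := (I (F := fun t => g t * u t) (hg.mul hu)).const_mul M
      have j3 := (I (F := fun t => g t * N t) (hg.mul hN)).const_mul U
      have j4 := (I (F := fun t => g t * (u t * N t)) (hg.mul (hu.mul hN))).const_mul G
      rw [e1, intervalIntegral.integral_add ((j1.sub j2).sub j3) j4,
        intervalIntegral.integral_sub (j1.sub j2) j3, intervalIntegral.integral_sub j1 j2,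
        intervalIntegral.integral_const_mul, intervalIntegral.integral_const_mul,
        intervalIntegral.integral_const_mul, intervalIntegral.integral_const_mul]
      simp only [hP, hU, hM, hG]
      ring
    simp only [eL, eR, ← Finset.mul_sum] at h2
    linarith
  · simp only [Finset.sum_apply, ← Finset.mul_sum]
    exact mul_le_mul_of_nonneg_left (inner t ht) (hg0 t ht)

variable {n : ℕ} {A : Set (Fin (n + 1) → ℝ)} {i : Fin (n + 1)} {R : ℝ}

lemma mid_mem (hA : Down A) {s t : ℝ} {x y : Fin n → ℝ} (hx : x ∈ slAt A i s)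
    (hy : y ∈ slAt A i t) : (1 / 2 : ℝ) • (x + y) ∈ slAt A i ((s + t) / 2) := by
  have h := hA.convex hx hy (show (0:ℝ) ≤ 1 / 2 by norm_num) (show (0:ℝ) ≤ 1 / 2 by norm_num)
    (by norm_num)
  show Fin.insertNth i ((s + t) / 2) ((1 / 2 : ℝ) • (x + y)) ∈ A
  convert h using 1
  funext k
  refine (Fin.forall_iff_succAbove i (P := fun k =>
    (Fin.insertNth i ((s + t) / 2) ((1 / 2 : ℝ) • (x + y)) : Fin (n + 1) → ℝ) k =
      ((1 / 2 : ℝ) • (Fin.insertNth i s x : Fin (n + 1) → ℝ) +
        (1 / 2 : ℝ) • (Fin.insertNth i t y : Fin (n + 1) → ℝ)) k)).2 ⟨?_, fun j => ?_⟩ k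
  · simp; ring
  · simp

lemma slice_bound {Rc : ℝ} (hR : ∀ x ∈ A, ∀ k, x k ≤ Rc) {t : ℝ} :
    ∀ z ∈ slAt A i t, ∀ j, z j ≤ Rc := fun z hz j => by
  simpa using hR _ hz (i.succAbove j)

/-- The squared increments of the regularised means against the second difference. -/
lemma gap_step (hG : GapBound) (hA : Down A) (hP : Prof (sectAt A i) R) {Rc : ℝ} (hRc0 : 0 ≤ Rc)
    (hRc : ∀ x ∈ A, ∀ k, x k ≤ Rc) {ε w : ℝ} (hε : 0 < ε) (hw0 : 0 < w) (hw : w < 1 / 2)
    {t h : ℝ} (h0 : 0 ≤ t - h) (hh : 0 ≤ h) (h1 : t + h < R)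
    (hsmall : (phi (sectAt A i) (t + h) + phi (sectAt A i) (t - h) - 2 * phi (sectAt A i) t) / 2
      ≤ 4 * w ^ 2 / (Real.log ((Rc + ε) / ε) + 1) ^ 2) :
    ∑ j, (emean ε (slAt A i (t + h)) j - emean ε (slAt A i (t - h)) j) ^ 2 ≤
      8 / (1 - 4 * w ^ 2) * (phi (sectAt A i) (t + h) + phi (sectAt A i) (t - h)
        - 2 * phi (sectAt A i) t) := by
  set φ := phi (sectAt A i) with hφ
  set D := φ (t + h) + φ (t - h) - 2 * φ t with hD
  have hD0 : 0 ≤ D := phi_midpoint hP h0 hh h1
  set Λ := Real.log ((Rc + ε) / ε) + 1 with hΛdef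
  have hlog : 0 ≤ Real.log ((Rc + ε) / ε) := Real.log_nonneg (by
    rw [le_div_iff₀ hε]; linarith)
  have hΛ : 0 < Λ := by simp only [hΛdef]; linarith
  set k := 1 - 4 * w ^ 2 with hk
  have hk0 : 0 < k := by simp only [hk]; nlinarith
  have hk1 : k ≤ 1 := by simp only [hk]; nlinarith
  set d : Fin n → ℝ := fun j =>
    emean ε (slAt A i (t + h)) j - emean ε (slAt A i (t - h)) j with hd
  set Q := ∑ j, d j ^ 2 with hQ
  have hQ0 : 0 ≤ Q := Finset.sum_nonneg fun j _ => sq_nonneg _
  have key : ∀ l : ℝ, 0 ≤ l → l * Real.sqrt Q * Λ ≤ w → l * Q * (1 - 4 * l / k) ≤ D / 2 := by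
    intro l hl hlw
    have hb := hG (slAt_down hA i (t - h)) (slAt_down hA i (t + h)) (slAt_down hA i t)
      (hP.pos (t - h) h0 (by linarith)) (hP.pos (t + h) (by linarith) h1)
      (fun x hx y hy => by
        have := mid_mem (i := i) hA hx hy
        rwa [show (t - h + (t + h)) / 2 = t by ring] at this)
      ε Rc w (fun j => l * d j) hε hw (slice_bound hRc) (slice_bound hRc) fun j => ?_
    · have e1 : ∑ j, l * d j * (emean ε (slAt A i (t + h)) j - emean ε (slAt A i (t - h)) j)
          = l * Q := by
        rw [hQ, Finset.mul_sum]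
        exact Finset.sum_congr rfl fun j _ => by simp only [hd]; ring
      have e2 : ∑ j, (l * d j) ^ 2 = l ^ 2 * Q := by
        rw [hQ, Finset.mul_sum]
        exact Finset.sum_congr rfl fun j _ => by ring
      rw [e1, e2, ← hk] at hb
      have e3 : l * Q * (1 - 4 * l / k) = l * Q - 4 * (l ^ 2 * Q) / k := by ring
      have e4 : D / 2 = Real.log (volume.real (slAt A i t))
          - (Real.log (volume.real (slAt A i (t - h)))
            + Real.log (volume.real (slAt A i (t + h)))) / 2 := by
        simp only [hD, hφ, phi, sectAt]; ring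
      linarith
    · have hdj : |d j| ≤ Real.sqrt Q := by
        rw [← Real.sqrt_sq_eq_abs]
        exact Real.sqrt_le_sqrt (Finset.single_le_sum (f := fun j => d j ^ 2)
          (fun j _ => sq_nonneg _) (Finset.mem_univ j))
      rw [abs_mul, abs_of_nonneg hl]
      calc l * |d j| * Real.log ((Rc + ε) / ε) ≤ l * Real.sqrt Q * Λ :=
            mul_le_mul (mul_le_mul_of_nonneg_left hdj hl) (by simp only [hΛdef]; linarith) hlog
              (mul_nonneg hl (Real.sqrt_nonneg _))
        _ ≤ w := hlw
  show Q ≤ 8 / k * D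
  have hgoal : k * Q ≤ 8 * D → Q ≤ 8 / k * D := fun hh' => by
    rw [div_mul_eq_mul_div, le_div_iff₀ hk0]; linarith
  refine hgoal ?_
  by_cases hc : k / 8 * Real.sqrt Q * Λ ≤ w
  · have := key (k / 8) (by positivity) hc
    have e : k / 8 * Q * (1 - 4 * (k / 8) / k) = k * Q / 16 := by field_simp; ring
    linarith
  · have hsq : 0 < Real.sqrt Q := by
      rcases (Real.sqrt_nonneg Q).eq_or_lt with h' | h'
      · rw [← h'] at hc; simp [hw0.le] at hc
      · exact h'
    set l := w / (Real.sqrt Q * Λ) with hl
    have hl0 : 0 ≤ l := by positivity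
    have hlk : l ≤ k / 8 := by
      rw [hl, div_le_iff₀ (by positivity)]; linarith [not_le.1 hc]
    have h2 := key l hl0 (le_of_eq (by simp only [hl]; field_simp))
    have h3 : l * Q / 2 ≤ l * Q * (1 - 4 * l / k) := by
      have : 4 * l / k ≤ 1 / 2 := by rw [div_le_iff₀ hk0]; linarith
      nlinarith [mul_nonneg hl0 hQ0]
    have h4 : l * Q = w * Real.sqrt Q / Λ := by
      simp only [hl]
      field_simp
      rw [Real.sq_sqrt hQ0]
    have h5 : Real.sqrt Q ≤ D * Λ / w := by
      rw [le_div_iff₀ hw0]
      have h6 : w * Real.sqrt Q / Λ ≤ D := by linarith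
      rw [div_le_iff₀ hΛ] at h6
      linarith
    have h7 : Q ≤ (D * Λ / w) ^ 2 := by
      calc Q = Real.sqrt Q ^ 2 := (Real.sq_sqrt hQ0).symm
        _ ≤ _ := pow_le_pow_left₀ (Real.sqrt_nonneg _) h5 2
    have h8 : (D * Λ / w) ^ 2 ≤ 8 * D := by
      have h9 : D * Λ ^ 2 ≤ 8 * w ^ 2 := by
        have := (le_div_iff₀ (by positivity : (0:ℝ) < Λ ^ 2)).1 hsmall
        linarith
      rw [div_pow, div_le_iff₀ (by positivity)]
      calc (D * Λ) ^ 2 = D * (D * Λ ^ 2) := by ring
        _ ≤ D * (8 * w ^ 2) := mul_le_mul_of_nonneg_left h9 hD0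
        _ = 8 * D * w ^ 2 := by ring
    have : k * Q ≤ Q := mul_le_of_le_one_left hQ0 hk1
    linarith

variable {g : ℝ → ℝ}

lemma quot_le_quot (hP : Prof g R) {s t h : ℝ} (h0 : 0 ≤ s) (hst : s ≤ t) (hh : 0 < h)
    (h1 : t + h < R) : phi g (s + h) - phi g s ≤ phi g (t + h) - phi g t := by
  have hd : 0 < t + h - s := by linarith
  set l := h / (t + h - s) with hl
  have hl0 : 0 ≤ l := by positivity
  have hl1 : l ≤ 1 := by rw [hl, div_le_one hd]; linarith
  have hs' : s ∈ Ico 0 R := ⟨h0, by linarith⟩
  have ht' : t + h ∈ Ico 0 R := ⟨by linarith, h1⟩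
  have a := hP.convex.2 hs' ht' (show 0 ≤ 1 - l by linarith) hl0 (by ring)
  have b := hP.convex.2 hs' ht' hl0 (show 0 ≤ 1 - l by linarith) (by ring)
  simp only [smul_eq_mul] at a b
  have e1 : (1 - l) * s + l * (t + h) = s + h := by simp only [hl]; field_simp; ring
  have e2 : l * s + (1 - l) * (t + h) = t := by simp only [hl]; field_simp; ring
  rw [e1] at a
  rw [e2] at b
  simp only [phi]
  linarith

/-- The weighted second differences have the curvature functional as an upper limit. -/
lemma second_diff_limit (hP : Prof g R) {α β : ℝ} (hα : 0 < α) (hab : α ≤ β) (hβ : β < R) :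
    ∃ T : ℝ → ℝ,
      (∀ᶠ h in 𝓝[>] 0, ∫ t in α..β, wgt g t *
        ((phi g (t + h) + phi g (t - h) - 2 * phi g t) / h ^ 2) ≤ T h) ∧
      Tendsto T (𝓝[>] 0) (𝓝 ((∫ t in α..β, g t * curvFun g t) +
        Uncond.slope g β * wgt g β)) := by
  set β' := (β + R) / 2 with hβ'
  have hb1 : β < β' := by simp only [hβ']; linarith
  have hb2 : β' < R := by simp only [hβ']; linarith
  have hβ0 : 0 < β := hα.trans_le hab
  set P : ℝ → ℝ → ℝ := fun h t => (phi g (t + h) - phi g t) / h with hPdef
  set q : ℝ → ℝ → ℝ := fun h t => -((wgt g (t + h) - wgt g t) / h) with hq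
  refine ⟨fun h => (∫ t in α..β, P h t * q h t) + P h β * ((∫ t in β..β + h, wgt g t) / h), ?_, ?_⟩
  · filter_upwards [Ioo_mem_nhdsGT (show 0 < min α (β' - β) from lt_min hα (by linarith))] with h hh
    have hh0 : 0 < h := hh.1
    have hhα : h < α := hh.2.trans_le (min_le_left _ _)
    have hhβ : β + h < β' := by linarith [hh.2.trans_le (min_le_right α (β' - β))]
    have hsub : ∀ {a b : ℝ}, 0 < a → b < R → ∀ x ∈ Icc a b, x ∈ Ioo 0 R := fun ha hb x hx =>
      ⟨ha.trans_le hx.1, hx.2.trans_lt hb⟩
    have cP : ∀ {a b : ℝ}, 0 < a → b + h < R → ContinuousOn (P h) (Icc a b) := by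
      intro a b ha hb
      refine (ContinuousOn.sub ((continuousOn_phi hP).comp (continuousOn_id.add continuousOn_const)
        fun x hx => ⟨show 0 < x + h by linarith [hx.1], show x + h < R by linarith [hx.2]⟩)
        ((continuousOn_phi hP).mono (hsub ha (by linarith)))).div_const h
    have cW : ∀ {a b : ℝ}, 0 < a + h → b + h < R →
        ContinuousOn (fun t => wgt g (t + h)) (Icc a b) := fun {a b} ha hb =>
      (continuousOn_wgt hP).comp (continuousOn_id.add continuousOn_const) fun x hx =>
        ⟨show 0 < x + h by linarith [hx.1], show x + h < R by linarith [hx.2]⟩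
    have cW0 : ContinuousOn (wgt g) (Icc α β) := (continuousOn_wgt hP).mono (hsub hα hβ)
    set F : ℝ → ℝ := fun t => wgt g (t + h) * P h t with hF
    have iF : IntervalIntegrable F volume (α - h) β :=
      ((cW (by linarith) (by linarith)).mul (cP (by linarith) (by linarith))).intervalIntegrable_of_Icc
        (by linarith)
    have iF' : ∀ {a b}, a ∈ Icc (α - h) β → b ∈ Icc (α - h) β → IntervalIntegrable F volume a b :=
      fun ha hb => iF.mono_set (uIcc_subset_uIcc
        (by rwa [uIcc_of_le (by linarith : α - h ≤ β)])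
        (by rwa [uIcc_of_le (by linarith : α - h ≤ β)]))
    have i1 : IntervalIntegrable (fun t => wgt g t * P h t) volume α β :=
      (cW0.mul (cP hα (by linarith))).intervalIntegrable_of_Icc hab
    have cP' : ContinuousOn (fun t => P h (t - h)) (Icc α β) :=
      (cP (a := α - h) (b := β - h) (by linarith) (by linarith)).comp
        (continuousOn_id.sub continuousOn_const) fun x hx =>
        ⟨show α - h ≤ x - h by linarith [hx.1], show x - h ≤ β - h by linarith [hx.2]⟩
    have i2 : IntervalIntegrable (fun t => wgt g t * P h (t - h)) volume α β :=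
      (cW0.mul cP').intervalIntegrable_of_Icc hab
    have e1 : (∫ t in α..β, wgt g t * ((phi g (t + h) + phi g (t - h) - 2 * phi g t) / h ^ 2)) =
        ((∫ t in α..β, wgt g t * P h t) - ∫ t in α..β, wgt g t * P h (t - h)) / h := by
      rw [← intervalIntegral.integral_sub i1 i2, ← intervalIntegral.integral_div]
      refine intervalIntegral.integral_congr fun t _ => ?_
      simp only [hPdef, sub_add_cancel]
      field_simp
      ring
    have e2 : (∫ t in α..β, wgt g t * P h (t - h)) = ∫ t in (α - h)..(β - h), F t := by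
      rw [← intervalIntegral.integral_comp_sub_right F h]
      refine intervalIntegral.integral_congr fun t _ => ?_
      simp [hF]
    have e3 : (∫ t in (α - h)..(β - h), F t) =
        (∫ t in (α - h)..α, F t) + (∫ t in α..β, F t) - ∫ t in (β - h)..β, F t := by
      have m1 : α - h ∈ Icc (α - h) β := ⟨le_rfl, by linarith⟩
      have m2 : α ∈ Icc (α - h) β := ⟨by linarith, hab⟩
      have m3 : β ∈ Icc (α - h) β := ⟨by linarith, le_rfl⟩
      have m4 : β - h ∈ Icc (α - h) β := ⟨by linarith, by linarith⟩
      rw [intervalIntegral.integral_add_adjacent_intervals (iF' m1 m2) (iF' m2 m3),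
        ← intervalIntegral.integral_add_adjacent_intervals (iF' m1 m4) (iF' m4 m3)]
      ring
    have p0 : ∀ t, 0 ≤ t → t ≤ β → 0 ≤ P h t := fun t ht0 ht =>
      div_nonneg (sub_nonneg.2 (phi_mono hP ht0 (by linarith) (by linarith))) hh0.le
    have lo : 0 ≤ ∫ t in (α - h)..α, F t := intervalIntegral.integral_nonneg (by linarith)
      fun t ht => mul_nonneg (wgt_nonneg hP (by linarith [ht.1]) (by linarith [ht.2]))
        (p0 t (by linarith [ht.1]) (ht.2.trans hab))
    have hi : (∫ t in (β - h)..β, F t) ≤ P h β * ∫ t in β..β + h, wgt g t := by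
      have hc : (∫ t in β..β + h, wgt g t) = ∫ t in (β - h)..β, wgt g (t + h) := by
        rw [intervalIntegral.integral_comp_add_right (wgt g) h, sub_add_cancel]
      rw [hc, ← intervalIntegral.integral_const_mul]
      refine intervalIntegral.integral_mono_on (by linarith)
        (iF' ⟨by linarith, by linarith⟩ ⟨by linarith, le_rfl⟩)
        (((cW (by linarith) (by linarith)).intervalIntegrable_of_Icc (by linarith)).const_mul _)
        fun t ht => ?_
      rw [mul_comm (P h β)]
      refine mul_le_mul_of_nonneg_left ?_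
        (wgt_nonneg hP (by linarith [ht.1]) (by linarith [ht.2]))
      exact div_le_div_of_nonneg_right
        (quot_le_quot hP (by linarith [ht.1]) ht.2 hh0 (by linarith)) hh0.le
    have e4 : (∫ t in α..β, P h t * q h t) =
        ((∫ t in α..β, wgt g t * P h t) - ∫ t in α..β, F t) / h := by
      rw [← intervalIntegral.integral_sub i1 (iF' ⟨by linarith, hab⟩ ⟨by linarith, le_rfl⟩),
        ← intervalIntegral.integral_div]
      refine intervalIntegral.integral_congr fun t _ => ?_
      simp only [hq, hF]
      ring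
    rw [e1, e2, e3, e4, mul_div, ← add_div]
    gcongr
    linarith
  · have hlim1 : ∀ t ∈ Icc α β, Tendsto (fun h => P h t) (𝓝[>] 0) (𝓝 (Uncond.slope g t)) :=
      fun t ht => right_quot (hasDeriv_phi hP (hα.trans_le ht.1) (ht.2.trans_lt hβ))
    have hlim2 : ∀ t ∈ Icc α β, Tendsto (fun h => q h t) (𝓝[>] 0) (𝓝 (-wgtDeriv g t)) :=
      fun t ht => (right_quot (hasDeriv_wgt hP (hα.trans_le ht.1) (ht.2.trans_lt hβ))).neg
    set V := tot g
    have hV : 0 < V := tot_pos hP
    set p' := Uncond.slope g β'
    have hp' : 0 ≤ p' := slope_nonneg hP (by linarith) hb2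
    set C := V + 2 * haz g β' * V + haz g β' * V ^ 2 * p' / g β'
    have hgb : 0 < g β' := hP.pos β' (by linarith) hb2
    have hC : ∀ t ∈ Icc α β', ‖wgtDeriv g t‖ ≤ C := by
      intro t ht
      have t0 : 0 < t := hα.trans_le ht.1
      have t1 : t < R := ht.2.trans_lt hb2
      have G0 := (tail_pos hP t0.le t1).le
      have G1 := tail_le_tot hP t0.le
      have u0 := haz_nonneg hP t0.le t1
      have u1 := haz_mono hP t0.le ht.2 hb2
      have q0 := slope_nonneg hP t0 t1
      have q1 := slope_mono hP ⟨t0, t1⟩ ⟨by linarith, hb2⟩ ht.2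
      have g0 := hP.pos t t0.le t1
      have g1 : g β' ≤ g t := hP.anti t0.le (t0.le.trans ht.2) ht.2
      have a : haz g t * tail g t ≤ haz g β' * V := mul_le_mul u1 G1 G0 (u0.trans u1)
      have b : haz g t * tail g t ^ 2 * Uncond.slope g t / g t ≤ haz g β' * V ^ 2 * p' / g β' := by
        refine div_le_div₀ (mul_nonneg (mul_nonneg (u0.trans u1) (sq_nonneg _)) hp') ?_ hgb g1
        exact mul_le_mul (mul_le_mul u1 (pow_le_pow_left₀ G0 G1 2) (sq_nonneg _) (u0.trans u1))
          q1 q0 (mul_nonneg (u0.trans u1) (sq_nonneg _))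
      have c0 : 0 ≤ haz g t * tail g t ^ 2 * Uncond.slope g t / g t :=
        div_nonneg (mul_nonneg (mul_nonneg u0 (sq_nonneg _)) q0) g0.le
      have d0 : 0 ≤ haz g t * tail g t := mul_nonneg u0 G0
      rw [Real.norm_eq_abs, abs_le, wgtDeriv]
      constructor <;> simp only [C] <;> linarith
    have hPb : ∀ᶠ h in 𝓝[>] 0, ∀ t ∈ Icc α β, ‖P h t * q h t‖ ≤ p' * C := by
      filter_upwards [Ioo_mem_nhdsGT (show 0 < β' - β by linarith)] with h hh t ht
      have t0 : 0 < t := hα.trans_le ht.1
      have hth : t + h ≤ β' := by linarith [ht.2, hh.2]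
      have a : |P h t| ≤ p' := by
        rw [abs_of_nonneg (div_nonneg (sub_nonneg.2 (phi_mono hP t0.le (by linarith [hh.1])
          (hth.trans_lt hb2))) hh.1.le), div_le_iff₀ hh.1]
        have := phi_lip hP t0.le (show t ≤ t + h by linarith [hh.1]) hth hb2 (by linarith)
        simpa using this
      have b : |q h t| ≤ C := by
        rw [hq, abs_neg, abs_div, abs_of_pos hh.1, div_le_iff₀ hh.1]
        have hd := norm_image_sub_le_of_norm_deriv_right_le_segment
          (f := wgt g) (f' := wgtDeriv g) (a := t) (b := t + h) (C := C)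
          ((continuousOn_wgt hP).mono fun x hx => ⟨t0.trans_le hx.1, hx.2.trans_lt (hth.trans_lt hb2)⟩)
          (fun x hx => (hasDeriv_wgt hP (t0.trans_le hx.1)
            (hx.2.trans_le hth |>.trans hb2)).Ici_of_Ioi)
          (fun x hx => hC x ⟨ht.1.trans hx.1, hx.2.le.trans hth⟩) (t + h)
          ⟨by linarith [hh.1], le_rfl⟩
        simpa [Real.norm_eq_abs] using hd
      rw [norm_mul, Real.norm_eq_abs, Real.norm_eq_abs]
      exact mul_le_mul a b (abs_nonneg _) hp'
    refine Tendsto.add ?_ ?_
    · have e : (∫ t in α..β, g t * curvFun g t) =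
          ∫ t in α..β, Uncond.slope g t * -wgtDeriv g t := by
        refine intervalIntegral.integral_congr fun t ht => ?_
        rw [uIcc_of_le hab] at ht
        show g t * curvFun g t = Uncond.slope g t * -wgtDeriv g t
        rw [mul_neg, slope_mul_wgtDeriv hP (hα.trans_le ht.1) (ht.2.trans_lt hβ)]
      rw [e]
      refine intervalIntegral.tendsto_integral_filter_of_dominated_convergence (fun _ => p' * C)
        ?_ ?_ intervalIntegrable_const (Eventually.of_forall fun t ht => ?_)
      · filter_upwards [Ioo_mem_nhdsGT (show 0 < β' - β by linarith)] with h hh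
        refine ContinuousOn.aestronglyMeasurable ?_ measurableSet_uIoc
        rw [uIoc_of_le hab]
        have sub : ∀ x ∈ Ioc α β, x ∈ Ioo 0 R := fun x hx =>
          ⟨hα.trans hx.1, hx.2.trans_lt hβ⟩
        have sub' : MapsTo (fun x => x + h) (Ioc α β) (Ioo 0 R) := fun x hx =>
          ⟨by linarith [hx.1, hh.1], by linarith [hx.2, hh.2]⟩
        exact (((continuousOn_phi hP).comp (continuousOn_id.add continuousOn_const) sub').sub
          ((continuousOn_phi hP).mono sub)).div_const h |>.mul
          (((((continuousOn_wgt hP).comp (continuousOn_id.add continuousOn_const) sub').sub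
            ((continuousOn_wgt hP).mono sub)).div_const h).neg)
      · filter_upwards [hPb] with h hh
        refine Eventually.of_forall fun t ht => hh t ?_
        rw [uIoc_of_le hab] at ht
        exact Ioc_subset_Icc_self ht
      · rw [uIoc_of_le hab] at ht
        exact (hlim1 t (Ioc_subset_Icc_self ht)).mul (hlim2 t (Ioc_subset_Icc_self ht))
    · refine (hlim1 β ⟨hab, le_rfl⟩).mul ?_
      have hca : ContinuousAt (wgt g) β := (continuousOn_wgt hP).continuousAt (Ioo_mem_nhds hβ0 hβ)
      have hd : HasDerivAt (fun x => ∫ t in β..x, wgt g t) (wgt g β) β :=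
        intervalIntegral.integral_hasDerivAt_right IntervalIntegrable.refl
          ((continuousOn_wgt hP).stronglyMeasurableAtFilter isOpen_Ioo β ⟨hβ0, hβ⟩) hca
      simpa using right_quot hd.hasDerivWithinAt

end Vale.Agent.P254.Uncond.Drop
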