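import Vale.Agent.P254.Uncond.DropCore

/-!
On a compact interval of heights, the variance of the regularised logarithmic means of the slices
is at most twice the curvature functional, up to a boundary term.
-/

open MeasureTheory Set Filter Topology

namespace Vale.Agent.P254.Uncond.Drop

open Vale.Agent.P254.Sym

variable {n : ℕ} {A : Set (Fin (n + 1) → ℝ)} {i : Fin (n + 1)} {R : ℝ}

/-- The regularised means of the slices depend continuously on the height. -/
lemma continuousOn_emean (hG : GapBound) (hA : Down A) (hP : Prof (sectAt A i) R) {ε : ℝ}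
    (hε : 0 < ε) (j : Fin n) :
    ContinuousOn (fun t => emean ε (slAt A i t) j) (Ioo 0 R) := by
  obtain ⟨Rc, hRc0, hRc⟩ := hA.bound
  intro t0 ht0
  refine ContinuousAt.continuousWithinAt ?_
  set g := sectAt A i
  set b := (t0 + R) / 2 with hb
  have hb1 : t0 < b := by linarith [ht0.2]
  have hb2 : b < R := by linarith [ht0.2]
  set p := Uncond.slope g b
  have hp : 0 ≤ p := slope_nonneg hP (by linarith [ht0.1]) hb2
  set C := 8 / (1 - 4 * (1 / 4 : ℝ) ^ 2) * p with hC
  set Λ := Real.log ((Rc + ε) / ε) + 1
  have hΛ : 0 < Λ := by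
    have : 0 ≤ Real.log ((Rc + ε) / ε) := Real.log_nonneg (by rw [le_div_iff₀ hε]; linarith)
    simp only [Λ]; linarith
  set c0 := 4 * (1 / 4 : ℝ) ^ 2 / Λ ^ 2
  have key : ∀ s u : ℝ, 0 ≤ s → s ≤ u → u ≤ b → p * (u - s) ≤ c0 →
      (emean ε (slAt A i u) j - emean ε (slAt A i s) j) ^ 2 ≤ C * (u - s) := by
    intro s u hs hsu hub hsm
    set t := (s + u) / 2 with ht
    set h := (u - s) / 2 with hh
    have e1 : t + h = u := by simp only [ht, hh]; ring
    have e2 : t - h = s := by simp only [ht, hh]; ring
    have hD : phi g (t + h) + phi g (t - h) - 2 * phi g t ≤ p * (u - s) := by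
      rw [e1, e2]
      have a := phi_lip hP (show 0 ≤ t by simp only [ht]; linarith)
        (show t ≤ u by simp only [ht]; linarith) hub hb2 (by linarith [ht0.1])
      have a' := phi_mono hP hs (show s ≤ t by simp only [ht]; linarith)
        (show t < R by simp only [ht]; linarith)
      have a'' : p * (u - t) ≤ p * (u - s) :=
        mul_le_mul_of_nonneg_left (by simp only [ht]; linarith) hp
      linarith
    have hD0 := phi_midpoint hP (show 0 ≤ t - h by linarith) (show 0 ≤ h by simp only [hh]; linarith)
      (show t + h < R by linarith)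
    have hs2 := gap_step hG hA hP hRc0 hRc hε (w := 1 / 4) (by norm_num) (by norm_num)
      (show 0 ≤ t - h by linarith) (show 0 ≤ h by simp only [hh]; linarith)
      (show t + h < R by linarith) (show _ ≤ c0 by linarith)
    rw [e1, e2] at hs2 hD
    refine le_trans ?_ (hs2.trans ?_)
    · exact Finset.single_le_sum
        (f := fun k => (emean ε (slAt A i u) k - emean ε (slAt A i s) k) ^ 2)
        (fun k _ => sq_nonneg _) (Finset.mem_univ j)
    · rw [hC, mul_assoc]
      exact mul_le_mul_of_nonneg_left hD (by norm_num)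
  have hc0 : 0 < c0 := by positivity
  have hev : ∀ᶠ s in 𝓝 t0, s ∈ Ioo 0 b ∧ p * |s - t0| ≤ c0 := by
    refine (Filter.Eventually.and (Ioo_mem_nhds ht0.1 hb1) ?_)
    have : Tendsto (fun s => p * |s - t0|) (𝓝 t0) (𝓝 0) := by
      have := ((continuous_id.sub (continuous_const (y := t0))).abs.const_mul p).tendsto t0
      simpa using this
    exact this.eventually_le_const hc0
  rw [ContinuousAt, tendsto_iff_norm_sub_tendsto_zero]
  have hlim : Tendsto (fun s => Real.sqrt (C * |s - t0|)) (𝓝 t0) (𝓝 0) := by
    have hcont : Continuous fun s => Real.sqrt (C * |s - t0|) := by fun_prop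
    have := hcont.tendsto t0
    simpa only [sub_self, abs_zero, mul_zero, Real.sqrt_zero] using this
  refine squeeze_zero' (Eventually.of_forall fun s => norm_nonneg _) ?_ hlim
  filter_upwards [hev] with s hs
  rw [Real.norm_eq_abs, ← Real.sqrt_sq_eq_abs]
  refine Real.sqrt_le_sqrt ?_
  rcases le_total s t0 with hle | hle
  · have := key s t0 hs.1.1.le hle hb1.le (by rw [abs_of_nonpos (by linarith)] at hs; linarith [hs.2])
    rw [abs_of_nonpos (by linarith)]
    linarith [show (emean ε (slAt A i t0) j - emean ε (slAt A i s) j) ^ 2 =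
      (emean ε (slAt A i s) j - emean ε (slAt A i t0) j) ^ 2 by ring]
  · have := key t0 s ht0.1.le hle hs.1.2.le (by rw [abs_of_nonneg (by linarith)] at hs; exact hs.2)
    rw [abs_of_nonneg (by linarith)]
    exact this

variable {g : ℝ → ℝ}

/-- The bound `V u G` for the kernel of the integration by parts. -/
lemma kernel_le (hP : Prof g R) {α t β : ℝ} (hα : 0 ≤ α) (hαt : α ≤ t) (htβ : t ≤ β)
    (hβ : β < R) :
    (tail g α - tail g β) * (tail g t * (haz g t + 1) - tail g β * (haz g β + 1)) -
        (tail g α * (haz g α + 1) - tail g β * (haz g β + 1)) * (tail g t - tail g β) ≤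
      tot g * (haz g t * tail g t) := by
  have t0 := hα.trans hαt
  have a0 := haz_nonneg hP hα (hαt.trans htβ |>.trans_lt hβ)
  have ac := haz_mono hP hα hαt (htβ.trans_lt hβ)
  have cb := haz_mono hP t0 htβ hβ
  have Gb := (tail_pos hP (t0.trans htβ) hβ).le
  have Gtb := tail_anti hP t0 htβ
  have Gat := tail_anti hP hα hαt
  have GV := tail_le_tot hP hα
  have ea := exp_haz hP hα (hαt.trans htβ |>.trans_lt hβ)
  have ec := exp_haz hP t0 (htβ.trans_lt hβ)
  set a := haz g α
  set c := haz g t
  set b := haz g β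
  set Ga := tail g α
  set Gt := tail g t
  set Gβ := tail g β
  have e : (Ga - Gβ) * (Gt * (c + 1) - Gβ * (b + 1)) -
      (Ga * (a + 1) - Gβ * (b + 1)) * (Gt - Gβ) =
      (Ga - Gt) * (Gt - Gβ * (b + 1 - c)) + (Gt - Gβ) * (Ga * (c - a - 1) + Gt) := by ring
  have hk : 0 ≤ Ga * (c - a - 1) + Gt := by
    have hx : Gt = Ga * Real.exp (-(c - a)) := by
      rw [ea, ec, mul_assoc, ← Real.exp_add]; ring_nf
    have h2 := Real.add_one_le_exp (-(c - a))
    have hGa : 0 ≤ Ga := Gb.trans (Gtb.trans Gat)
    rw [hx]
    nlinarith [mul_le_mul_of_nonneg_left h2 hGa]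
  have h1 : (Ga - Gt) * (Gt - Gβ * (b + 1 - c)) ≤ (Ga - Gt) * Gt :=
    mul_le_mul_of_nonneg_left (by nlinarith) (by linarith)
  have h2 : (Gt - Gβ) * (Ga * (c - a - 1) + Gt) ≤ Gt * (Ga * (c - a - 1) + Gt) :=
    mul_le_mul_of_nonneg_right (by linarith) hk
  have h3 : Gt * (Ga * (c - a)) ≤ tot g * (c * Gt) := by
    have : Ga * (c - a) ≤ tot g * c :=
      mul_le_mul GV (by linarith) (by linarith) (Gb.trans (Gtb.trans (Gat.trans GV)))
    calc Gt * (Ga * (c - a)) ≤ Gt * (tot g * c) := mul_le_mul_of_nonneg_left this (Gb.trans Gtb)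
      _ = _ := by ring
  rw [e]
  linarith

/-- Integration by parts for the weight of the increments. -/
lemma parts_le (hP : Prof g R) {α β : ℝ} (hα : 0 < α) (hab : α ≤ β) (hβ : β < R) {ν : ℝ → ℝ}
    (hν : ∀ t ∈ Icc α β, ContinuousAt ν t) (hν0 : ∀ t ∈ Icc α β, 0 ≤ ν t)
    (hνm : StronglyMeasurable ν) :
    (∫ t in α..β, g t) * (∫ t in α..β, g t * (haz g t * ∫ s in α..t, ν s)) -
        (∫ t in α..β, g t * haz g t) * (∫ t in α..β, g t * ∫ s in α..t, ν s) ≤
      ∫ t in α..β, tot g * (haz g t * tail g t) * ν t := by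
  have hsub : ∀ {x}, x ∈ Icc α β → x ∈ Ioo 0 R := fun hx =>
    ⟨hα.trans_le hx.1, hx.2.trans_lt hβ⟩
  have hcg : ContinuousOn g (Icc α β) := (continuousOn_g hP).mono fun _ => hsub
  have hcu : ContinuousOn (haz g) (Icc α β) := (continuousOn_haz hP).mono fun _ => hsub
  have hcG : ContinuousOn (tail g) (Icc α β) := (continuousOn_tail hP).mono fun _ => hsub
  have hcν : ContinuousOn ν (Icc α β) := fun t ht => (hν t ht).continuousWithinAt
  have hN : ∀ t ∈ Icc α β, HasDerivAt (fun x => ∫ s in α..x, ν s) (ν t) t := fun t ht =>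
    intervalIntegral.integral_hasDerivAt_right
      ((hcν.mono (Icc_subset_Icc_right ht.2)).intervalIntegrable_of_Icc ht.1)
      hνm.stronglyMeasurableAtFilter (hν t ht)
  have hcN : ContinuousOn (fun x => ∫ s in α..x, ν s) (Icc α β) := fun t ht =>
    (hN t ht).continuousAt.continuousWithinAt
  set G0 := tail g α - tail g β with hG0
  set U := tail g α * (haz g α + 1) - tail g β * (haz g β + 1) with hU
  set M : ℝ → ℝ := fun t => G0 * (tail g t * (haz g t + 1) - tail g β * (haz g β + 1)) -
    U * (tail g t - tail g β) with hM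
  have hM' : ∀ t ∈ Icc α β, HasDerivAt M (-(G0 * (g t * haz g t) - U * g t)) t := by
    intro t ht
    have h1 := (hasDeriv_moment hP (hsub ht).1 (hsub ht).2).neg
    simp only [Pi.neg_def, neg_neg] at h1
    refine (((h1.sub_const _).const_mul G0).sub
      (((hasDeriv_tail hP (hsub ht).1 (hsub ht).2).sub_const _).const_mul U)).congr_deriv ?_
    ring
  have iI : ∀ {F : ℝ → ℝ}, ContinuousOn F (Icc α β) → IntervalIntegrable F volume α β :=
    fun h => h.intervalIntegrable_of_Icc hab
  have e1 : (∫ t in α..β, g t) = G0 := by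
    rw [hG0, tail_split hP hα.le hab]; ring
  have e2 : (∫ t in α..β, g t * haz g t) = U := by
    rw [intervalIntegral.integral_eq_sub_of_hasDerivAt (fun t ht => by
      rw [uIcc_of_le hab] at ht
      exact hasDeriv_moment hP (hsub ht).1 (hsub ht).2) (iI (F := fun t => g t * haz g t) (hcg.mul hcu))]
    simp only [hU]; ring
  have hp := intervalIntegral.integral_mul_deriv_eq_deriv_mul
    (u := fun x => ∫ s in α..x, ν s) (v := M) (u' := ν)
    (v' := fun t => -(G0 * (g t * haz g t) - U * g t))
    (fun t ht => hN t (by rwa [uIcc_of_le hab] at ht))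
    (fun t ht => hM' t (by rwa [uIcc_of_le hab] at ht)) (iI hcν)
    (iI (((hcg.mul hcu).const_smul G0).sub (hcg.const_smul U)).neg)
  have hMβ : M β = 0 := by simp only [hM]; ring
  simp only [intervalIntegral.integral_same, hMβ, mul_zero, zero_mul, sub_zero, zero_sub] at hp
  have e3 : (∫ t in α..β, (∫ s in α..t, ν s) * -(G0 * (g t * haz g t) - U * g t)) =
      -(G0 * (∫ t in α..β, g t * (haz g t * ∫ s in α..t, ν s)) -
        U * ∫ t in α..β, g t * ∫ s in α..t, ν s) := by
    rw [← intervalIntegral.integral_const_mul, ← intervalIntegral.integral_const_mul,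
      ← intervalIntegral.integral_sub ((iI (F := fun t => g t * (haz g t * ∫ s in α..t, ν s))
          (hcg.mul (hcu.mul hcN))).const_mul _)
        ((iI (F := fun t => g t * ∫ s in α..t, ν s) (hcg.mul hcN)).const_mul _),
      ← intervalIntegral.integral_neg]
    refine intervalIntegral.integral_congr fun t _ => ?_
    ring
  rw [e1, e2]
  rw [e3] at hp
  have e4 : (∫ t in α..β, ν t * M t) ≤ ∫ t in α..β, tot g * (haz g t * tail g t) * ν t := by
    refine intervalIntegral.integral_mono_on hab
      (iI (hcν.mul (((((hcG.mul (hcu.add continuousOn_const)).sub continuousOn_const).const_smul G0)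
        ).sub ((hcG.sub continuousOn_const).const_smul U))))
      (iI (((hcu.mul hcG).const_smul (tot g)).mul hcν)) fun t ht => ?_
    rw [mul_comm]
    exact mul_le_mul_of_nonneg_right (kernel_le hP hα.le ht.1 ht.2 hβ) (hν0 t ht)
  linarith

/-- The variance bound for the regularised means on a compact interval. -/
theorem interval_emean (hG : GapBound) (hA : Down A) (hP : Prof (sectAt A i) R) {ε : ℝ}
    (hε : 0 < ε) {α β : ℝ} (hα : 0 < α) (hab : α ≤ β) (hβ : β < R) :
    ∑ j, ((∫ t in α..β, sectAt A i t) *
          (∫ t in α..β, sectAt A i t * emean ε (slAt A i t) j ^ 2) -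
        (∫ t in α..β, sectAt A i t * emean ε (slAt A i t) j) ^ 2) ≤
      2 * tot (sectAt A i) * ((∫ t in α..β, sectAt A i t * curvFun (sectAt A i) t) +
        Uncond.slope (sectAt A i) β * wgt (sectAt A i) β) := by
  obtain ⟨Rc, hRc0, hRc⟩ := hA.bound
  set g := sectAt A i
  set E : Fin n → ℝ → ℝ := fun j t => emean ε (slAt A i t) j with hE
  have hEc : ∀ j, ContinuousOn (E j) (Ioo 0 R) := fun j => continuousOn_emean hG hA hP hε j
  set X := (∫ t in α..β, g t * curvFun g t) + Uncond.slope g β * wgt g β
  obtain ⟨T, hT, hTlim⟩ := second_diff_limit hP hα hab hβ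
  -- the left side converges
  set D : ℝ → Fin n → ℝ → ℝ := fun h j t => (E j (t + h) - E j (t - h)) / (2 * h) with hD
  set e : ℝ → Fin n → ℝ → ℝ := fun h j x => ∫ t in α..x, D h j t with he
  set d := min α (R - β) / 2 with hd
  have hd0 : 0 < d := by
    have := lt_min hα (sub_pos.2 hβ)
    simp only [hd]; linarith
  have hd1 : d < α := by linarith [min_le_left α (R - β)]
  have hd2 : β + d < R := by linarith [min_le_right α (R - β)]
  have inO : ∀ {x}, x ∈ Icc (α - d) (β + d) → x ∈ Ioo 0 R := fun hx =>
    ⟨by linarith [hx.1], by linarith [hx.2]⟩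
  have hEi : ∀ j {a b}, a ∈ Ioo 0 R → b ∈ Ioo 0 R → IntervalIntegrable (E j) volume a b :=
    fun j a b ha hb => ((hEc j).mono (OrdConnected.uIcc_subset ordConnected_Ioo ha hb)
      ).intervalIntegrable
  have hcD : ∀ h ∈ Ioo 0 d, ∀ j, ContinuousOn (D h j) (Icc α β) := by
    intro h hh j
    have s1 : MapsTo (fun x => x + h) (Icc α β) (Ioo 0 R) := fun x hx =>
      inO ⟨by linarith [hx.1, hh.1], by linarith [hx.2, hh.2]⟩
    have s2 : MapsTo (fun x => x - h) (Icc α β) (Ioo 0 R) := fun x hx =>
      inO ⟨by linarith [hx.1, hh.2], by linarith [hx.2, hh.1]⟩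
    exact (((hEc j).comp (continuousOn_id.add continuousOn_const) s1).sub
      ((hEc j).comp (continuousOn_id.sub continuousOn_const) s2)).div_const _
  have hce : ∀ h ∈ Ioo 0 d, ∀ j, ContinuousOn (e h j) (Icc α β) := by
    intro h hh j
    have := intervalIntegral.continuousOn_primitive_interval (f := D h j) (μ := volume)
      (a := α) (b := β) (by rw [uIcc_of_le hab]; exact (hcD h hh j).integrableOn_Icc)
    rwa [uIcc_of_le hab] at this
  have hef : ∀ h ∈ Ioo 0 d, ∀ j, ∀ x ∈ Icc α β, e h j x =
      ((∫ s in (x - h)..(x + h), E j s) - ∫ s in (α - h)..(α + h), E j s) / (2 * h) := by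
    intro h hh j x hx
    have mα : α - h ∈ Ioo 0 R := inO ⟨by linarith [hh.2], by linarith [hh.1]⟩
    have mα' : α + h ∈ Ioo 0 R := inO ⟨by linarith [hh.1], by linarith [hh.2]⟩
    have mx : x - h ∈ Ioo 0 R := inO ⟨by linarith [hx.1, hh.2], by linarith [hx.2, hh.1]⟩
    have mx' : x + h ∈ Ioo 0 R := inO ⟨by linarith [hx.1, hh.1], by linarith [hx.2, hh.2]⟩
    simp only [he, hD]
    rw [intervalIntegral.integral_div]
    congr 1
    have c1 : IntervalIntegrable (fun t => E j (t + h)) volume α x := by
      have := (hEi j mα' mx').comp_add_right h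
      simpa using this
    have c2 : IntervalIntegrable (fun t => E j (t - h)) volume α x := by
      have := (hEi j mα mx).comp_sub_right h
      simpa using this
    rw [intervalIntegral.integral_sub c1 c2, intervalIntegral.integral_comp_add_right (E j) h,
      intervalIntegral.integral_comp_sub_right (E j) h]
    have a1 := intervalIntegral.integral_add_adjacent_intervals (hEi j mα mα') (hEi j mα' mx')
    have a2 := intervalIntegral.integral_add_adjacent_intervals (hEi j mα mx) (hEi j mx mx')
    linarith
  have hpt : ∀ j, ∀ x ∈ Icc α β, Tendsto (fun h => e h j x) (𝓝[>] 0) (𝓝 (E j x - E j α)) := by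
    intro j x hx
    have hx0 : x ∈ Ioo 0 R := inO ⟨by linarith [hx.1], by linarith [hx.2]⟩
    have hα0 : α ∈ Ioo 0 R := inO ⟨by linarith, by linarith⟩
    set P : ℝ → ℝ := fun y => ∫ s in α..y, E j s with hP'
    have hP1 : ∀ y ∈ Ioo 0 R, HasDerivAt P (E j y) y := fun y hy =>
      intervalIntegral.integral_hasDerivAt_right (hEi j hα0 hy)
        ((hEc j).stronglyMeasurableAtFilter isOpen_Ioo y hy)
        ((hEc j).continuousAt (Ioo_mem_nhds hy.1 hy.2))
    have s1 : ∀ y, HasDerivAt (fun h : ℝ => y + h) 1 0 := fun y => (hasDerivAt_id' 0).const_add y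
    have s2 : ∀ y, HasDerivAt (fun h : ℝ => y - h) (-1) 0 := fun y => (hasDerivAt_id' 0).const_sub y
    have hF : HasDerivAt (fun h => ((P (x + h) - P (x - h)) - (P (α + h) - P (α - h))) / 2)
        (E j x - E j α) 0 := by
      have q1 := HasDerivAt.comp (0:ℝ) (show HasDerivAt P (E j x) (x + 0) by simpa using hP1 x hx0) (s1 x)
      have q2 := HasDerivAt.comp (0:ℝ) (show HasDerivAt P (E j x) (x - 0) by simpa using hP1 x hx0) (s2 x)
      have q3 := HasDerivAt.comp (0:ℝ) (show HasDerivAt P (E j α) (α + 0) by simpa using hP1 α hα0) (s1 α)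
      have q4 := HasDerivAt.comp (0:ℝ) (show HasDerivAt P (E j α) (α - 0) by simpa using hP1 α hα0) (s2 α)
      exact (((q1.sub q2).sub (q3.sub q4)).div_const 2).congr_deriv (by ring)
    refine (right_quot hF.hasDerivWithinAt).congr' ?_
    filter_upwards [Ioo_mem_nhdsGT hd0] with h hh
    rw [hef h hh j x hx]
    simp only [zero_add, add_zero, sub_zero, sub_self, zero_div, hP']
    have a : ∀ {y}, y ∈ Icc α β → ((∫ s in α..(y + h), E j s) - ∫ s in α..(y - h), E j s) =
        ∫ s in (y - h)..(y + h), E j s := fun {y} hy =>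
      intervalIntegral.integral_interval_sub_left
        (hEi j hα0 (inO ⟨by linarith [hy.1, hh.1], by linarith [hy.2, hh.2]⟩))
        (hEi j hα0 (inO ⟨by linarith [hy.1, hh.2], by linarith [hy.2, hh.1]⟩))
    rw [a hx, a ⟨le_rfl, hab⟩]
    field_simp
  have hbd : ∀ j, ∃ M : ℝ, ∀ h ∈ Ioo 0 d, ∀ x ∈ Icc α β, ‖e h j x‖ ≤ 2 * M := by
    intro j
    obtain ⟨M, hM⟩ := (isCompact_Icc (a := α - d) (b := β + d)).exists_bound_of_continuousOn
      ((hEc j).mono fun _ => inO)
    refine ⟨M, fun h hh x hx => ?_⟩
    have b : ∀ y ∈ Icc α β, ‖∫ s in (y - h)..(y + h), E j s‖ ≤ M * (2 * h) := by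
      intro y hy
      refine (intervalIntegral.norm_integral_le_of_norm_le_const fun s hs => hM s ?_).trans_eq ?_
      · rw [uIoc_of_le (by linarith [hh.1])] at hs
        exact ⟨by linarith [hs.1, hy.1, hh.2], by linarith [hs.2, hy.2, hh.2]⟩
      · rw [show y + h - (y - h) = 2 * h by ring, abs_of_pos (by linarith [hh.1])]
    rw [hef h hh j x hx, norm_div, Real.norm_eq_abs (2 * h), abs_of_pos (by linarith [hh.1]),
      div_le_iff₀ (by linarith [hh.1])]
    refine (norm_sub_le _ _).trans ?_
    linarith [b x hx, b α ⟨le_rfl, hab⟩]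
  have hcg : ContinuousOn g (Icc α β) :=
    (continuousOn_g hP).mono fun x hx => inO ⟨by linarith [hx.1], by linarith [hx.2]⟩
  have hL : Tendsto (fun h => ∑ j, ((∫ t in α..β, g t) * (∫ t in α..β, g t * e h j t ^ 2) -
      (∫ t in α..β, g t * e h j t) ^ 2)) (𝓝[>] 0)
      (𝓝 (∑ j, ((∫ t in α..β, g t) * (∫ t in α..β, g t * (E j t - E j α) ^ 2) -
        (∫ t in α..β, g t * (E j t - E j α)) ^ 2))) := by
    refine tendsto_finsetSum _ fun j _ => ?_
    obtain ⟨M, hM⟩ := hbd j
    refine (Tendsto.const_mul _ ?_).sub (Tendsto.pow ?_ 2)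
    · refine intervalIntegral.tendsto_integral_filter_of_dominated_convergence
        (fun t => |g t| * (2 * M) ^ 2) ?_ ?_
        (hcg.abs.mul continuousOn_const |>.intervalIntegrable_of_Icc hab)
        (Eventually.of_forall fun t ht => ?_)
      · filter_upwards [Ioo_mem_nhdsGT hd0] with h hh
        rw [uIoc_of_le hab]
        exact ((hcg.mul ((hce h hh j).pow 2)).mono Ioc_subset_Icc_self).aestronglyMeasurable
          measurableSet_Ioc
      · filter_upwards [Ioo_mem_nhdsGT hd0] with h hh
        refine Eventually.of_forall fun t ht => ?_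
        rw [uIoc_of_le hab] at ht
        rw [norm_mul, norm_pow, Real.norm_eq_abs]
        exact mul_le_mul_of_nonneg_left
          (pow_le_pow_left₀ (norm_nonneg _) (hM h hh t (Ioc_subset_Icc_self ht)) 2) (abs_nonneg _)
      · rw [uIoc_of_le hab] at ht
        exact ((hpt j t (Ioc_subset_Icc_self ht)).pow 2).const_mul _
    · refine intervalIntegral.tendsto_integral_filter_of_dominated_convergence
        (fun t => |g t| * (2 * M)) ?_ ?_
        (hcg.abs.mul continuousOn_const |>.intervalIntegrable_of_Icc hab)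
        (Eventually.of_forall fun t ht => ?_)
      · filter_upwards [Ioo_mem_nhdsGT hd0] with h hh
        rw [uIoc_of_le hab]
        exact ((hcg.mul (hce h hh j)).mono Ioc_subset_Icc_self).aestronglyMeasurable
          measurableSet_Ioc
      · filter_upwards [Ioo_mem_nhdsGT hd0] with h hh
        refine Eventually.of_forall fun t ht => ?_
        rw [uIoc_of_le hab] at ht
        rw [norm_mul, Real.norm_eq_abs]
        exact mul_le_mul_of_nonneg_left (hM h hh t (Ioc_subset_Icc_self ht)) (abs_nonneg _)
      · rw [uIoc_of_le hab] at ht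
        exact (hpt j t (Ioc_subset_Icc_self ht)).const_mul _
  have hshift : ∑ j, ((∫ t in α..β, g t) * (∫ t in α..β, g t * (E j t - E j α) ^ 2) -
        (∫ t in α..β, g t * (E j t - E j α)) ^ 2) =
      ∑ j, ((∫ t in α..β, g t) * (∫ t in α..β, g t * E j t ^ 2) -
        (∫ t in α..β, g t * E j t) ^ 2) := by
    refine Finset.sum_congr rfl fun j _ => ?_
    set c := E j α
    have hcE : ContinuousOn (E j) (Icc α β) :=
      (hEc j).mono fun x hx => inO ⟨by linarith [hx.1], by linarith [hx.2]⟩
    have i0 : IntervalIntegrable g volume α β := hcg.intervalIntegrable_of_Icc hab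
    have i1 : IntervalIntegrable (fun t => g t * E j t) volume α β :=
      (hcg.mul hcE).intervalIntegrable_of_Icc hab
    have i2 : IntervalIntegrable (fun t => g t * E j t ^ 2) volume α β :=
      (hcg.mul (hcE.pow 2)).intervalIntegrable_of_Icc hab
    have x1 : (∫ t in α..β, g t * (E j t - c)) =
        (∫ t in α..β, g t * E j t) - c * ∫ t in α..β, g t := by
      rw [← intervalIntegral.integral_const_mul, ← intervalIntegral.integral_sub i1 (i0.const_mul c)]
      refine intervalIntegral.integral_congr fun t _ => ?_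
      ring
    have x2 : (∫ t in α..β, g t * (E j t - c) ^ 2) = (∫ t in α..β, g t * E j t ^ 2) -
        2 * c * (∫ t in α..β, g t * E j t) + c ^ 2 * ∫ t in α..β, g t := by
      rw [← intervalIntegral.integral_const_mul, ← intervalIntegral.integral_const_mul,
        ← intervalIntegral.integral_sub i2 (i1.const_mul _),
        ← intervalIntegral.integral_add (i2.sub (i1.const_mul _)) (i0.const_mul _)]
      refine intervalIntegral.integral_congr fun t _ => ?_
      ring
    rw [x1, x2]
    ring
  rw [hshift] at hL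
  -- the bound for each small step and each admissible `w`
  have key : ∀ w ∈ Ioo (0:ℝ) (1 / 2), ∀ᶠ h in 𝓝[>] 0,
      ∑ j, ((∫ t in α..β, g t) * (∫ t in α..β, g t * e h j t ^ 2) -
        (∫ t in α..β, g t * e h j t) ^ 2) ≤ 2 / (1 - 4 * w ^ 2) * tot g * T h := by
    intro w hw
    set k := 1 - 4 * w ^ 2 with hk
    have hk0 : 0 < k := by simp only [hk]; nlinarith [hw.1, hw.2]
    set Λ := Real.log ((Rc + ε) / ε) + 1
    have hΛ : 0 < Λ := by
      have : 0 ≤ Real.log ((Rc + ε) / ε) := Real.log_nonneg (by rw [le_div_iff₀ hε]; linarith)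
      simp only [Λ]; linarith
    set pb := Uncond.slope g (β + d)
    have hpb : 0 ≤ pb := slope_nonneg hP (by linarith) hd2
    have hc0 : 0 < 4 * w ^ 2 / Λ ^ 2 := by have := hw.1; positivity
    have hsm : ∀ᶠ h in 𝓝[>] (0:ℝ), pb * h ≤ 4 * w ^ 2 / Λ ^ 2 := by
      have : Tendsto (fun h => pb * h) (𝓝[>] (0:ℝ)) (𝓝 0) := by
        simpa using ((continuous_id.const_mul pb).tendsto (0:ℝ)).mono_left nhdsWithin_le_nhds
      exact this.eventually_le_const hc0
    filter_upwards [Ioo_mem_nhdsGT hd0, hsm, hT] with h hh hsm hTh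
    set D2 : ℝ → ℝ := fun t => phi g (t + h) + phi g (t - h) - 2 * phi g t with hD2
    set ν : ℝ → ℝ := (Ioo h (R - h)).indicator
      fun t => 2 / k * (D2 t / h ^ 2) * (tail g t / g t) with hν
    have hop : ∀ t ∈ Icc α β, t ∈ Ioo h (R - h) := fun t ht =>
      ⟨by linarith [ht.1, hh.2], by linarith [ht.2, hh.2]⟩
    have hνc : ContinuousOn (fun t => 2 / k * (D2 t / h ^ 2) * (tail g t / g t))
        (Ioo h (R - h)) := by
      have m0 : ∀ x ∈ Ioo h (R - h), x ∈ Ioo 0 R := fun x hx =>
        ⟨by linarith [hx.1, hh.1], by linarith [hx.2, hh.1]⟩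
      have m1 : MapsTo (fun x => x + h) (Ioo h (R - h)) (Ioo 0 R) := fun x hx =>
        ⟨by linarith [hx.1, hh.1], by linarith [hx.2]⟩
      have m2 : MapsTo (fun x => x - h) (Ioo h (R - h)) (Ioo 0 R) := fun x hx =>
        ⟨by linarith [hx.1], by linarith [hx.2, hh.1]⟩
      exact ((((continuousOn_phi hP).comp (continuousOn_id.add continuousOn_const) m1).add
        ((continuousOn_phi hP).comp (continuousOn_id.sub continuousOn_const) m2)).sub
          (((continuousOn_phi hP).mono m0).const_smul (2:ℝ)) |>.div_const (h ^ 2) |>.const_smul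
            (2 / k)).mul (((continuousOn_tail hP).mono m0).div ((continuousOn_g hP).mono m0)
              fun x hx => (hP.pos x (m0 x hx).1.le (m0 x hx).2).ne')
    have hνeq : ∀ t ∈ Icc α β, ν t = 2 / k * (D2 t / h ^ 2) * (tail g t / g t) := fun t ht =>
      indicator_of_mem (hop t ht) _
    have hν0 : ∀ t ∈ Icc α β, 0 ≤ ν t := by
      intro t ht
      have hto := hop t ht
      rw [hνeq t ht]
      refine mul_nonneg (mul_nonneg (by positivity) (div_nonneg ?_ (sq_nonneg _))) ?_
      · exact phi_midpoint hP (by linarith [hto.1]) hh.1.le (by linarith [hto.2])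
      · exact div_nonneg (tail_pos hP (by linarith [hto.1, hh.1]) (by linarith [hto.2, hh.1])).le
          (hP.nonneg t)
    have hνat : ∀ t ∈ Icc α β, ContinuousAt ν t := by
      intro t ht
      have hn := Ioo_mem_nhds (hop t ht).1 (hop t ht).2
      refine (hνc.continuousAt hn).congr ?_
      filter_upwards [hn] with x hx
      exact (indicator_of_mem hx
        (fun t => 2 / k * (D2 t / h ^ 2) * (tail g t / g t))).symm
    have mt : Measurable (tail g) := by
      have : tail g = fun t => ∫ s, (Ioi t).indicator g s := by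
        funext t; rw [Uncond.tail, integral_indicator measurableSet_Ioi]
      rw [this]
      refine StronglyMeasurable.measurable ?_
      exact StronglyMeasurable.integral_prod_right
        (f := fun t s : ℝ => (Ioi t).indicator g s) (ν := volume)
        (((hP.meas.comp measurable_snd).indicator
          (measurableSet_lt measurable_fst measurable_snd)).stronglyMeasurable)
    have hφm : Measurable (phi g) := (Real.measurable_log.comp hP.meas).neg
    have hνm : StronglyMeasurable ν := by
      have m : Measurable fun t => 2 / k * (D2 t / h ^ 2) * (tail g t / g t) :=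
        ((((hφm.comp (measurable_id.add_const h)).add (hφm.comp (measurable_id.sub_const h))).sub
          (hφm.const_mul 2)).div_const (h ^ 2) |>.const_mul (2 / k)).mul (mt.div hP.meas)
      exact (m.indicator measurableSet_Ioo).stronglyMeasurable
    have hνi : ∀ {a b}, a ∈ Icc α β → b ∈ Icc α β → IntervalIntegrable ν volume a b :=
      fun ha hb => (ContinuousOn.mono (fun t ht => (hνat t ht).continuousWithinAt)
        (uIcc_subset_Icc ha hb)).intervalIntegrable
    have hcN : ContinuousOn (fun x => ∫ s in α..x, ν s) (Icc α β) := by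
      have := intervalIntegral.continuousOn_primitive_interval (f := ν) (μ := volume) (a := α)
        (b := β) (by
          rw [uIcc_of_le hab]
          exact ContinuousOn.integrableOn_Icc (fun t ht => (hνat t ht).continuousWithinAt))
      rwa [uIcc_of_le hab] at this
    have hin : ∀ x ∈ Icc α β, x ∈ Ioo 0 R := fun x hx =>
      inO ⟨by linarith [hx.1], by linarith [hx.2]⟩
    set q : ℝ → ℝ := fun t => g t / tail g t with hqd
    have hcq : ContinuousOn q (Icc α β) :=
      (hcg.div ((continuousOn_tail hP).mono hin) fun x hx =>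
        (tail_pos hP (hin x hx).1.le (hin x hx).2).ne')
    have hinc : ∀ a b, a ∈ Icc α β → b ∈ Icc α β → a ≤ b →
        ∑ j, (e h j b - e h j a) ^ 2 ≤
          (haz g b - haz g a) * ((∫ s in α..b, ν s) - ∫ s in α..a, ν s) := by
      intro a b ha hb hle
      have sub : Icc a b ⊆ Icc α β := Icc_subset_Icc ha.1 hb.2
      have hq0 : ∀ t ∈ Icc a b, 0 < q t := fun t ht => div_pos
        (hP.pos t (hin t (sub ht)).1.le (hin t (sub ht)).2)
        (tail_pos hP (hin t (sub ht)).1.le (hin t (sub ht)).2)
      have ed : ∀ j, e h j b - e h j a = ∫ t in a..b, D h j t := fun j =>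
        intervalIntegral.integral_interval_sub_left
          ((hcD h hh j).mono (Icc_subset_Icc le_rfl hb.2) |>.intervalIntegrable_of_Icc hb.1)
          ((hcD h hh j).mono (Icc_subset_Icc le_rfl ha.2) |>.intervalIntegrable_of_Icc ha.1)
      have eq1 : (∫ t in a..b, q t) = haz g b - haz g a :=
        intervalIntegral.integral_eq_sub_of_hasDerivAt (fun t ht => by
          rw [uIcc_of_le hle] at ht
          exact hasDeriv_haz hP (hin t (sub ht)).1 (hin t (sub ht)).2)
          ((hcq.mono sub).intervalIntegrable_of_Icc hle)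
      have eN : (∫ s in α..b, ν s) - (∫ s in α..a, ν s) = ∫ t in a..b, ν t :=
        intervalIntegral.integral_interval_sub_left (hνi ⟨le_rfl, hab⟩ hb) (hνi ⟨le_rfl, hab⟩ ha)
      have iD : ∀ j, IntervalIntegrable (fun t => D h j t ^ 2 / q t) volume a b := fun j =>
        ((((hcD h hh j).mono sub).pow 2).div (hcq.mono sub) fun t ht => (hq0 t ht).ne'
          ).intervalIntegrable_of_Icc hle
      calc ∑ j, (e h j b - e h j a) ^ 2
          ≤ ∑ j, (∫ t in a..b, q t) * ∫ t in a..b, D h j t ^ 2 / q t := by
            refine Finset.sum_le_sum fun j _ => ?_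
            rw [ed j]
            exact sq_integral_le_weight hle ((hcD h hh j).mono sub) (hcq.mono sub) hq0
        _ = (haz g b - haz g a) * ∫ t in a..b, ∑ j, D h j t ^ 2 / q t := by
            rw [intervalIntegral.integral_finsetSum fun j _ => iD j, Finset.mul_sum, eq1]
        _ ≤ _ := by
            rw [eN]
            refine mul_le_mul_of_nonneg_left ?_ (sub_nonneg.2
              (haz_mono hP (hin a ha).1.le hle (hin b hb).2))
            have isum : IntervalIntegrable (fun t => ∑ j, D h j t ^ 2 / q t) volume a b := by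
              simpa only [Finset.sum_fn] using IntervalIntegrable.sum Finset.univ fun j _ => iD j
            refine intervalIntegral.integral_mono_on hle isum (hνi ha hb) fun t ht => ?_
            have hto := hop t (sub ht)
            have hDle : D2 t / 2 ≤ 4 * w ^ 2 / Λ ^ 2 := by
              have a1 := phi_lip hP (show 0 ≤ t by linarith [hto.1, hh.1])
                (show t ≤ t + h by linarith [hh.1]) (show t + h ≤ β + d by linarith [(sub ht).2, hh.2])
                hd2 (by linarith)
              have a2 := phi_mono hP (show 0 ≤ t - h by linarith [hto.1])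
                (show t - h ≤ t by linarith [hh.1]) (by linarith [hto.2, hh.1])
              simp only [hD2]
              have : pb * (t + h - t) = pb * h := by ring
              have := mul_nonneg hpb hh.1.le
              linarith
            have hgap := gap_step hG hA hP hRc0 hRc hε hw.1 hw.2
              (show 0 ≤ t - h by linarith [hto.1]) hh.1.le (show t + h < R by linarith [hto.2]) hDle
            rw [← Finset.sum_div, hνeq t (sub ht)]
            simp only [hD, div_pow]
            rw [← Finset.sum_div, hqd, div_le_iff₀ (hq0 t ht)]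
            have e9 : 2 / k * (D2 t / h ^ 2) * (tail g t / g t) * (g t / tail g t) =
                2 / k * (D2 t / h ^ 2) := by
              have := (tail_pos hP (hin t (sub ht)).1.le (hin t (sub ht)).2).ne'
              have := (hP.pos t (hin t (sub ht)).1.le (hin t (sub ht)).2).ne'
              field_simp
            rw [e9, div_le_iff₀ (by have := hh.1; positivity)]
            refine hgap.trans_eq ?_
            have := hh.1.ne'
            simp only [hD2, hk]
            field_simp
            ring
    have hvc := var_compare hab hcg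
      ((continuousOn_haz hP).mono hin) hcN (fun j => hce h hh j) (fun t _ => hP.nonneg t) hinc
    refine hvc.trans ((parts_le hP hα hab hβ hνat hν0 hνm).trans ?_)
    have : ∀ t ∈ Icc α β, tot g * (haz g t * tail g t) * ν t =
        2 / k * tot g * (wgt g t * (D2 t / h ^ 2)) := by
      intro t ht
      rw [hνeq t ht, wgt]
      ring
    rw [intervalIntegral.integral_congr (g := fun t => 2 / k * tot g * (wgt g t * (D2 t / h ^ 2)))
      (fun t ht => this t (by rwa [uIcc_of_le hab] at ht)), intervalIntegral.integral_const_mul]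
    exact mul_le_mul_of_nonneg_left hTh (mul_nonneg (by positivity) (tot_pos hP).le)
  have hw : ∀ w ∈ Ioo (0:ℝ) (1 / 2),
      ∑ j, ((∫ t in α..β, g t) * (∫ t in α..β, g t * E j t ^ 2) -
        (∫ t in α..β, g t * E j t) ^ 2) ≤ 2 / (1 - 4 * w ^ 2) * tot g * X := fun w hw =>
    le_of_tendsto_of_tendsto hL (hTlim.const_mul _) (key w hw)
  have hlim : Tendsto (fun w : ℝ => 2 / (1 - 4 * w ^ 2) * tot g * X) (𝓝[>] 0)
      (𝓝 (2 * tot g * X)) := by
    have : ContinuousAt (fun w : ℝ => 2 / (1 - 4 * w ^ 2) * tot g * X) 0 := by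
      fun_prop (disch := norm_num)
    have := this.tendsto.mono_left (nhdsWithin_le_nhds (s := Ioi 0))
    simpa using this
  refine ge_of_tendsto hlim ?_
  filter_upwards [Ioo_mem_nhdsGT (by norm_num : (0:ℝ) < 1 / 2)] with w h
  exact hw w h

end Vale.Agent.P254.Uncond.Drop
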