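import Vale.Agent.P254.Uncond.Defs
import Vale.Agent.P254.Sym.Body
import Vale.Agent.P254.Orlicz.Simplex
import Vale.Agent.P254.Three.Affine

/-!
From the potential and the final one-variable requirement to the isotropic constant of
unconditional bodies and of their affine images.
-/

open MeasureTheory Set
open scoped Matrix Real

namespace Vale.Agent.P254.Uncond

open Vale.Agent.P254.Sym

lemma second_pos {n : ℕ} {A : Set (Fin n → ℝ)} (hA : Down A) (hV : 0 < volume.real A)
    (i : Fin n) : 0 < ∫ x in A, x i ^ 2 := by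
  have hint : IntegrableOn (fun x : Fin n → ℝ => x i ^ 2) A :=
    ((continuous_apply i).pow 2).continuousOn.integrableOn_compact hA.compact
  refine (setIntegral_pos_iff_support_of_nonneg_ae
    (Filter.Eventually.of_forall fun x : Fin n → ℝ => sq_nonneg (x i)) hint).2 ?_
  have hpos : 0 < volume A := ENNReal.toReal_pos_iff.1 hV |>.1
  by_contra h
  rw [not_lt, nonpos_iff_eq_zero] at h
  have hz : volume {x : Fin n → ℝ | x i = 0} = 0 :=
    Measure.pi_hyperplane (μ := fun _ : Fin n => (volume : Measure ℝ)) i 0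
  have hsub : A ⊆ (Function.support (fun x : Fin n → ℝ => x i ^ 2) ∩ A) ∪ {x | x i = 0} := by
    intro x hx
    by_cases hxi : x i = 0
    · exact Or.inr hxi
    · exact Or.inl ⟨by simp [hxi], hx⟩
  have := (measure_mono hsub).trans (measure_union_le (μ := volume) _ _)
  rw [h, hz, add_zero] at this
  exact absurd this (not_le.2 hpos)

/-- The final requirement in one dimension, read on every coordinate of every downset. -/
def CoordBound (n : ℕ) (c e : ℝ) : Prop :=
  ∀ {A : Set (Fin n → ℝ)}, Down A → 0 < volume.real A → ∀ i,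
    Real.log ((∫ x in A, x i ^ 2) / volume.real A) / 2 + (1 - Real.log 2 + e) ≤
      lmean A i + 1 + c * (lvar A i - 1)

lemma coordBound_of_requirement {c e : ℝ} (hS : SectionFacts) (hR : Requirement c e) (n : ℕ) :
    CoordBound n c e := by
  intro A hA hV i
  rcases n with _ | m
  · exact i.elim0
  obtain ⟨R, hg⟩ := hS.prof hA hV i
  have h := hR hg
  rw [← hS.mean hA hV i, ← hS.var hA hV i, ← hS.second hA hV i] at h
  linarith

/-- The volume of a downset against its second moments. -/
theorem log_volume {c d e : ℝ} {n : ℕ} (hC : CoordBound n c e)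
    (hP : Potential n c d) {A : Set (Fin n → ℝ)} (hA : Down A) (hV : 0 < volume.real A) :
    ∑ i, Real.log ((∫ x in A, x i ^ 2) / volume.real A) / 2 + n * (1 - Real.log 2 + (e - d)) ≤
      Real.log (volume.real A) := by
  have hsum := Finset.sum_le_sum (s := Finset.univ) fun i _ => hC hA hV i
  have hp := hP hA hV
  rw [Finset.sum_add_distrib, Finset.sum_const, Finset.card_univ, Fintype.card_fin,
    nsmul_eq_mul] at hsum
  linarith

/-- The logarithm of the defining ratio of an unconditional body. -/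
theorem log_ratio_le {c d e : ℝ} {n : ℕ} (hC : CoordBound n c e)
    (hP : Potential n c d) {K : Set (Fin n → ℝ)} (hK : Convex ℝ K) (hco : IsCompact K)
    (hs : SignInvariant K) (hi : (interior K).Nonempty) :
    0 < (cov K).det / volume.real K ^ 2 ∧
      Real.log ((cov K).det / volume.real K ^ 2) ≤ -(2 * n * (1 + (e - d))) := by
  have hA := pos_down hK hco hs
  have hV := Sym.volume_pos hK hco hs hi
  have h := log_volume hC hP hA hV
  obtain ⟨hvol, hcov⟩ := cov_eq hK hco hs hV
  rw [hcov, Matrix.det_diagonal, hvol]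
  have hW : ∀ i, 0 < (∫ x in pos K, x i ^ 2) / volume.real (pos K) := fun i =>
    div_pos (second_pos hA hV i) hV
  refine ⟨div_pos (Finset.prod_pos fun i _ => hW i) (by positivity), ?_⟩
  rw [Real.log_div (Finset.prod_pos fun i _ => hW i).ne' (by positivity),
    Real.log_prod (fun i _ => (hW i).ne'), Real.log_pow, Real.log_mul (by positivity) hV.ne',
    Real.log_pow]
  rw [← Finset.sum_div] at h
  push_cast
  linarith

/-- The universal bound `exp (-(1 + (e - d)))`. -/
theorem isoConst_le {c d e : ℝ} (hS : SectionFacts) (hR : Requirement c e) {n : ℕ} (hn : 0 < n)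
    (hP : Potential n c d) {K : Set (Fin n → ℝ)} (hK : Convex ℝ K) (hco : IsCompact K)
    (hs : SignInvariant K) (hi : (interior K).Nonempty) :
    isoConst K ≤ Real.exp (-(1 + (e - d))) := by
  obtain ⟨hpos, hle⟩ := log_ratio_le (coordBound_of_requirement hS hR n) hP hK hco hs hi
  have hn' : (0:ℝ) < n := by exact_mod_cast hn
  rw [isoConst, Real.rpow_def_of_pos hpos]
  refine Real.exp_le_exp.2 ?_
  calc Real.log ((cov K).det / volume.real K ^ 2) * (1 / (2 * n))
      ≤ -(2 * n * (1 + (e - d))) * (1 / (2 * n)) :=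
        mul_le_mul_of_nonneg_right hle (by positivity)
    _ = -(1 + (e - d)) := by field_simp

/-- Stirling's lower bound for the defining ratio of the simplex, in logarithms. -/
lemma simplex_log_ge {n : ℕ} (hn : 0 < n) :
    -(2 * n) - 3 - 1 / n + Real.log (2 * π) ≤
      Real.log ((n.factorial : ℝ) ^ 2 / (((n:ℝ) + 1) ^ (n + 1) * ((n:ℝ) + 2) ^ n)) := by
  have hn' : (0:ℝ) < n := by exact_mod_cast hn
  have hf := Stirling.le_log_factorial_stirling hn.ne'
  have ha : ∀ a : ℝ, 0 ≤ a → Real.log ((n:ℝ) + a) ≤ Real.log n + a / n := by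
    intro a ha0
    have h := Real.log_le_sub_one_of_pos (show (0:ℝ) < ((n:ℝ) + a) / n by positivity)
    rw [Real.log_div (by positivity) hn'.ne'] at h
    have e : ((n:ℝ) + a) / n - 1 = a / n := by field_simp; ring
    linarith
  have h1 := mul_le_mul_of_nonneg_left (ha 1 zero_le_one) (show (0:ℝ) ≤ n + 1 by positivity)
  have h2 := mul_le_mul_of_nonneg_left (ha 2 zero_le_two) hn'.le
  have hl : Real.log ((n.factorial : ℝ) ^ 2 / (((n:ℝ) + 1) ^ (n + 1) * ((n:ℝ) + 2) ^ n)) =
      2 * Real.log n.factorial - (((n:ℝ) + 1) * Real.log ((n:ℝ) + 1) +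
        n * Real.log ((n:ℝ) + 2)) := by
    rw [Real.log_div (by positivity) (by positivity), Real.log_mul (by positivity) (by positivity),
      Real.log_pow, Real.log_pow, Real.log_pow]
    push_cast
    ring
  rw [hl]
  have e1 : ((n:ℝ) + 1) * (Real.log n + 1 / n) = n * Real.log n + Real.log n + 1 + 1 / n := by
    field_simp; ring
  have e2 : (n:ℝ) * (Real.log n + 2 / n) = n * Real.log n + 2 := by field_simp
  rw [e1] at h1
  rw [e2] at h2
  linarith

/-- A lower bound for `log (2 π)`. -/
lemma log_two_pi_gt : 1.82 < Real.log (2 * π) := by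
  have h2 := Real.log_two_gt_d9
  have hy : Real.log (0.886 : ℝ) ≥ 1 - (0.886 : ℝ)⁻¹ :=
    Real.one_sub_inv_le_log_of_pos (by norm_num)
  have h : Real.log ((2:ℝ) ^ 3 * 0.886 ^ 2) ≤ Real.log (2 * π) :=
    Real.log_le_log (by norm_num) (by nlinarith [Real.pi_gt_d2])
  rw [Real.log_mul (by norm_num) (by norm_num), Real.log_pow, Real.log_pow] at h
  norm_num at hy h ⊢
  linarith

/-- Strict comparison with the simplex from the exact logarithm of the simplex ratio. -/
theorem isoConst_lt_coord {c d e : ℝ} {n : ℕ} (hC : CoordBound n c e) (hn : 2 ≤ n)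
    (hlog : -(2 * n * (1 + (e - d))) <
      Real.log ((n.factorial : ℝ) ^ 2 / (((n:ℝ) + 1) ^ (n + 1) * ((n:ℝ) + 2) ^ n)))
    (hP : Potential n c d) {K : Set (Fin n → ℝ)}
    (hK : Convex ℝ K) (hco : IsCompact K) (hs : SignInvariant K) (hi : (interior K).Nonempty) :
    isoConst K < isoConst (cornerSimplex n) := by
  obtain ⟨hpos, hle⟩ := log_ratio_le hC hP hK hco hs hi
  obtain ⟨m, rfl⟩ : ∃ m, n = m + 2 := ⟨n - 2, by omega⟩
  rw [show (((m + 2).factorial : ℝ) ^ 2 /
      ((((m + 2 : ℕ) : ℝ) + 1) ^ ((m + 2) + 1) * ((((m + 2 : ℕ) : ℝ) + 2) ^ (m + 2)))) =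
      (((m + 2).factorial : ℝ) ^ 2 / (((m:ℝ) + 3) ^ (m + 3) * ((m:ℝ) + 4) ^ (m + 2))) by
    push_cast; ring_nf] at hlog
  rw [Orlicz.isoConst_simplex, isoConst]
  refine Real.rpow_lt_rpow hpos.le ?_ (by positivity)
  exact (Real.log_lt_log_iff hpos (by positivity)).1 (hle.trans_lt hlog)

/-- Strict comparison with the simplex from the exact threshold, with the full requirement. -/
theorem isoConst_lt_of {c d e : ℝ} (hS : SectionFacts) (hR : Requirement c e) {n : ℕ} (hn : 2 ≤ n)
    (hlog : -(2 * n * (1 + (e - d))) <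
      Real.log ((n.factorial : ℝ) ^ 2 / (((n:ℝ) + 1) ^ (n + 1) * ((n:ℝ) + 2) ^ n)))
    (hP : Potential n c d) {K : Set (Fin n → ℝ)}
    (hK : Convex ℝ K) (hco : IsCompact K) (hs : SignInvariant K) (hi : (interior K).Nonempty) :
    isoConst K < isoConst (cornerSimplex n) :=
  isoConst_lt_coord (coordBound_of_requirement hS hR n) hn hlog hP hK hco hs hi

/-- Strict comparison with the simplex as soon as `n (e - d)` is at least `3 / 5`. -/
theorem isoConst_lt {c d e : ℝ} (hS : SectionFacts) (hR : Requirement c e) {n : ℕ} (hn : 50 ≤ n)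
    (hnd : 3 / 5 ≤ (n:ℝ) * (e - d)) (hP : Potential n c d) {K : Set (Fin n → ℝ)}
    (hK : Convex ℝ K) (hco : IsCompact K) (hs : SignInvariant K) (hi : (interior K).Nonempty) :
    isoConst K < isoConst (cornerSimplex n) := by
  refine isoConst_lt_of hS hR (by omega) ?_ hP hK hco hs hi
  refine lt_of_lt_of_le ?_ (simplex_log_ge (show 0 < n by omega))
  have hlp := log_two_pi_gt
  have h50 : (50:ℝ) ≤ (n : ℝ) := by exact_mod_cast hn
  have hinv : 1 / (n : ℝ) ≤ 1 / 50 := one_div_le_one_div_of_le (by norm_num) h50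
  nlinarith

lemma signInvariant_of_abs {n : ℕ} {K : Set (Fin n → ℝ)}
    (hu : ∀ x ∈ K, ∀ y : Fin n → ℝ, (∀ i, |y i| = |x i|) → y ∈ K) : SignInvariant K := by
  intro i x hx
  refine hu x hx _ fun j => ?_
  rcases eq_or_ne j i with rfl | h
  · simp
  · simp [h]

lemma volume_ne_zero {n : ℕ} {K : Set (Fin n → ℝ)} (hK : Convex ℝ K) (hco : IsCompact K)
    (hs : SignInvariant K) (hi : (interior K).Nonempty) : volume.real K ≠ 0 := by
  have hV := Sym.volume_pos hK hco hs hi
  rw [(cov_eq hK hco hs hV).1]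
  positivity

/-- Affine images of unconditional bodies are strictly below the simplex. -/
theorem affine_lt {c d e : ℝ} (hS : SectionFacts) (hR : Requirement c e) {n : ℕ} (hn : 50 ≤ n)
    (hnd : 3 / 5 ≤ (n:ℝ) * (e - d)) (hP : Potential n c d) {K : Set (Fin n → ℝ)}
    (hK : Convex ℝ K) (hco : IsCompact K) (hi : (interior K).Nonempty)
    (hu : ∀ x ∈ K, ∀ y : Fin n → ℝ, (∀ i, |y i| = |x i|) → y ∈ K)
    {M : Matrix (Fin n) (Fin n) ℝ} (hM : M.det ≠ 0) (b : Fin n → ℝ) :
    isoConst ((fun x => M *ᵥ x + b) '' K) < isoConst (cornerSimplex n) := by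
  have hs := signInvariant_of_abs hu
  rw [Three.isoConst_affine M hM b K hco (volume_ne_zero hK hco hs hi)]
  exact isoConst_lt hS hR hn hnd hP hK hco hs hi

/-- Affine images, from the exact logarithm of the simplex ratio. -/
theorem affine_lt_of {c d e : ℝ} (hS : SectionFacts) (hR : Requirement c e) {n : ℕ} (hn : 2 ≤ n)
    (hlog : -(2 * n * (1 + (e - d))) <
      Real.log ((n.factorial : ℝ) ^ 2 / (((n:ℝ) + 1) ^ (n + 1) * ((n:ℝ) + 2) ^ n)))
    (hP : Potential n c d) {K : Set (Fin n → ℝ)}
    (hK : Convex ℝ K) (hco : IsCompact K) (hi : (interior K).Nonempty)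
    (hu : ∀ x ∈ K, ∀ y : Fin n → ℝ, (∀ i, |y i| = |x i|) → y ∈ K)
    {M : Matrix (Fin n) (Fin n) ℝ} (hM : M.det ≠ 0) (b : Fin n → ℝ) :
    isoConst ((fun x => M *ᵥ x + b) '' K) < isoConst (cornerSimplex n) := by
  have hs := signInvariant_of_abs hu
  rw [Three.isoConst_affine M hM b K hco (volume_ne_zero hK hco hs hi)]
  exact isoConst_lt_of hS hR hn hlog hP hK hco hs hi

/-- Affine images of unconditional bodies have isotropic constant at most `exp (-(1 + (e - d)))`. -/
theorem affine_le {c d e : ℝ} (hS : SectionFacts) (hR : Requirement c e) {n : ℕ} (hn : 0 < n)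
    (hP : Potential n c d) {K : Set (Fin n → ℝ)}
    (hK : Convex ℝ K) (hco : IsCompact K) (hi : (interior K).Nonempty)
    (hu : ∀ x ∈ K, ∀ y : Fin n → ℝ, (∀ i, |y i| = |x i|) → y ∈ K)
    {M : Matrix (Fin n) (Fin n) ℝ} (hM : M.det ≠ 0) (b : Fin n → ℝ) :
    isoConst ((fun x => M *ᵥ x + b) '' K) ≤ Real.exp (-(1 + (e - d))) := by
  have hs := signInvariant_of_abs hu
  rw [Three.isoConst_affine M hM b K hco (volume_ne_zero hK hco hs hi)]
  exact isoConst_le hS hR hn hP hK hco hs hi

end Vale.Agent.P254.Uncond
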