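import Vale.Agent.P254.Uncond.Cert

/-!
The requirement on profiles whose `k`-th root is concave, as the sections of downsets in
dimension at most `k + 1`: the ratio `r` is then at most `k / (k + 1)`, which shrinks the range
of all three variables of a certificate.
-/

open MeasureTheory Set

namespace Vale.Agent.P254.Uncond

open Vale.Agent.P254.Sym

/-- The final requirement on profiles with `r ≤ k / (k + 1)`. -/
def RequirementUpTo (k : ℕ) (c e : ℝ) : Prop :=
  ∀ {g : ℝ → ℝ} {R : ℝ}, Prof g R → (∀ t ∈ Ioo 0 R, rate g t ≤ (k:ℝ) / (k + 1)) →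
    Real.log (avg g fun t => t ^ 2) / 2 + e ≤ pmean g + Real.log 2 + c * (pvar g - 1)

/-- The pointwise inequality of a certificate on the smaller range. The upper bound of `z` is
written without division. -/
def ReqData.ValidUpTo (D : ReqData) (k : ℕ) (c : ℝ) : Prop :=
  ∀ u z r y : ℝ, 0 < u → 0 ≤ z → z ≤ 1 → u ≤ z * (Real.exp u - 1) →
    z * (((k:ℝ) + 1) * (Real.exp (u / ((k:ℝ) + 1)) - 1)) ≤ u →
    0 ≤ r → r ≤ (k:ℝ) / (k + 1) →
    min (Real.log ((1 - Real.exp (-(u / ((k:ℝ) + 1)))) / (1 - Real.exp (-(D.u₁ / ((k:ℝ) + 1))))))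
        (Real.log ((1 - Real.exp (-u)) / (1 - Real.exp (-D.u₁)))) ≤ y →
    y ≤ max (Real.log ((1 - Real.exp (-(u / ((k:ℝ) + 1)))) /
          (1 - Real.exp (-(D.u₁ / ((k:ℝ) + 1))))))
        (Real.log ((1 - Real.exp (-u)) / (1 - Real.exp (-D.u₁)))) →
    D.m u ≤ D.psi c u z r y

/-- The bound delivered by a certificate on the smaller range. -/
def ReqSoundUpTo : Prop :=
  ∀ (D : ReqData) (k : ℕ) (c e : ℝ), 0 ≤ c → D.Regular → D.ValidUpTo k c →
    e ≤ D.β 0 + D.γ 0 - c + Real.log 2 + 1 / 2 - Real.log D.S₀ / 2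
        + ∫ u in Ioi (0:ℝ), Real.exp (-u) * D.m u →
      RequirementUpTo k c e

/-- The sections of a downset in dimension `n + 1` have `r ≤ n / (n + 1)`. -/
def RootSect : Prop :=
  ∀ {n : ℕ} {A : Set (Fin (n + 1) → ℝ)}, Down A → 0 < volume.real A → ∀ (i : Fin (n + 1)) {R : ℝ},
    Prof (sectAt A i) R → ∀ t ∈ Ioo 0 R, rate (sectAt A i) t ≤ (n:ℝ) / (n + 1)

end Vale.Agent.P254.Uncond
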