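import Vale.Agent.P254.Uncond.Endgame
import Vale.Agent.P254.Uncond.RootCert

/-!
The endgame for root-concave profiles, with sharp numerical thresholds for the simplex in small
dimensions.
-/

open MeasureTheory Set
open scoped Matrix Real

namespace Vale.Agent.P254.Uncond

open Vale.Agent.P254.Sym

lemma coordBound_upTo {k : ℕ} {c e : ℝ} (hS : SectionFacts) (hR : RequirementUpTo k c e)
    (hRoot : RootSect) {n : ℕ} (hn : n ≤ k + 1) : CoordBound n c e := by
  intro A hA hV i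
  rcases n with _ | m
  · exact i.elim0
  obtain ⟨R, hg⟩ := hS.prof hA hV i
  have h := hR hg fun t ht => (hRoot hA hV i hg t ht).trans (by
    have hmk : (m:ℝ) ≤ k := by exact_mod_cast Nat.le_of_succ_le_succ hn
    rw [div_le_div_iff₀ (by positivity) (by positivity)]
    nlinarith)
  rw [← hS.mean hA hV i, ← hS.var hA hV i, ← hS.second hA hV i] at h
  linarith

/-- A lower bound for `log (2 π)`, accurate to four digits. -/
lemma log_two_pi_ge : 1.8375 ≤ Real.log (2 * π) := by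
  rw [Real.le_log_iff_exp_le (by positivity), show (1.8375:ℝ) = 1 + 0.8375 by norm_num,
    Real.exp_add]
  have h := Real.exp_bound' (x := (0.8375:ℝ)) (by norm_num) (by norm_num) (n := 10) (by norm_num)
  norm_num [Finset.sum_range_succ, Nat.factorial] at h
  have he := Real.exp_one_lt_d9
  have hp := Real.pi_gt_d4
  have h1 := Real.exp_pos (1:ℝ)
  norm_num at h he hp ⊢
  nlinarith

/-- `log (1 + x) ≤ x - x ^ 2 / 2 + x ^ 3 / 3`. -/
lemma log_one_add_le {x : ℝ} (hx : 0 ≤ x) :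
    Real.log (1 + x) ≤ x - x ^ 2 / 2 + x ^ 3 / 3 := by
  let f : ℝ → ℝ := fun y => y - y ^ 2 / 2 + y ^ 3 / 3 - Real.log (1 + y)
  have hmono : MonotoneOn f (Ici 0) := by
    refine monotoneOn_of_hasDerivWithinAt_nonneg (convex_Ici 0)
      (f' := fun y => 1 - y + y ^ 2 - 1 / (1 + y)) ?_ ?_ ?_
    · intro y hy
      have : (0:ℝ) < 1 + y := by linarith [mem_Ici.1 hy]
      exact ContinuousAt.continuousWithinAt (by fun_prop (disch := positivity))
    · intro y hy
      rw [interior_Ici, mem_Ioi] at hy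
      have h1 : HasDerivAt (fun y : ℝ => Real.log (1 + y)) (1 / (1 + y)) y :=
        ((hasDerivAt_id y).const_add 1).log (by simp; linarith)
      have h2 := (((hasDerivAt_id y).sub ((hasDerivAt_pow 2 y).div_const 2)).add
        ((hasDerivAt_pow 3 y).div_const 3)).sub h1
      refine HasDerivAt.hasDerivWithinAt ?_
      convert h2 using 1
      · rfl
      · push_cast; ring
    · intro y hy
      rw [interior_Ici, mem_Ioi] at hy
      have : 1 - y + y ^ 2 - 1 / (1 + y) = y ^ 3 / (1 + y) := by field_simp; ring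
      rw [this]
      positivity
  have h := hmono (self_mem_Ici) (mem_Ici.2 hx) hx
  simp only [f, add_zero, Real.log_one] at h
  norm_num at h
  linarith

/-- Second-order Stirling lower bound for the defining ratio of the simplex, in logarithms. -/
lemma simplex_log_fine {n : ℕ} (hn : 0 < n) :
    -(2 * (n:ℝ)) - 3 + 3 / (2 * n) - 5 / (2 * (n:ℝ) ^ 2) - 1 / (3 * (n:ℝ) ^ 3) + 1.8375 ≤
      Real.log ((n.factorial : ℝ) ^ 2 / (((n:ℝ) + 1) ^ (n + 1) * ((n:ℝ) + 2) ^ n)) := by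
  have hn' : (0:ℝ) < n := by exact_mod_cast hn
  have hf := Stirling.le_log_factorial_stirling hn.ne'
  have hp := log_two_pi_ge
  have ha : ∀ a : ℝ, 0 ≤ a → Real.log ((n:ℝ) + a) ≤
      Real.log n + (a / n - (a / n) ^ 2 / 2 + (a / n) ^ 3 / 3) := by
    intro a ha0
    rw [show (n:ℝ) + a = n * (1 + a / n) by field_simp, Real.log_mul hn'.ne' (by positivity)]
    linarith [log_one_add_le (show 0 ≤ a / (n:ℝ) by positivity)]
  have h1 := mul_le_mul_of_nonneg_left (ha 1 zero_le_one) (show (0:ℝ) ≤ n + 1 by positivity)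
  have h2 := mul_le_mul_of_nonneg_left (ha 2 zero_le_two) hn'.le
  have hl : Real.log ((n.factorial : ℝ) ^ 2 / (((n:ℝ) + 1) ^ (n + 1) * ((n:ℝ) + 2) ^ n)) =
      2 * Real.log n.factorial - (((n:ℝ) + 1) * Real.log ((n:ℝ) + 1) +
        n * Real.log ((n:ℝ) + 2)) := by
    rw [Real.log_div (by positivity) (by positivity), Real.log_mul (by positivity) (by positivity),
      Real.log_pow, Real.log_pow, Real.log_pow]
    push_cast
    ring
  rw [hl]
  have e1 : ((n:ℝ) + 1) * (Real.log n + (1 / n - (1 / (n:ℝ)) ^ 2 / 2 + (1 / (n:ℝ)) ^ 3 / 3)) =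
      n * Real.log n + Real.log n + 1 + 1 / (2 * n) - 1 / (6 * (n:ℝ) ^ 2) +
        1 / (3 * (n:ℝ) ^ 3) := by
    field_simp; ring
  have e2 : (n:ℝ) * (Real.log n + (2 / n - (2 / (n:ℝ)) ^ 2 / 2 + (2 / (n:ℝ)) ^ 3 / 3)) =
      n * Real.log n + 2 - 2 / n + 8 / (3 * (n:ℝ) ^ 2) := by
    field_simp; ring
  rw [e1] at h1
  rw [e2] at h2
  have e3 : (5:ℝ) / (2 * (n:ℝ) ^ 2) = -(1 / (6 * (n:ℝ) ^ 2)) + 8 / (3 * (n:ℝ) ^ 2) := by
    field_simp; ring
  have e4 : (3:ℝ) / (2 * n) = -(1 / (2 * (n:ℝ))) + 2 / n := by field_simp; ring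
  linarith

/-- The excess over `1` of `-log L` for the simplex, rounded upwards. -/
noncomputable def simplexTau : ℕ → ℝ
  | 4 => 0.1075
  | 5 => 0.0907
  | 6 => 0.0785
  | 7 => 0.0692
  | 8 => 0.0618
  | 9 => 0.0559
  | n => (1.1626 - 3 / (2 * n) + 5 / (2 * (n:ℝ) ^ 2) + 1 / (3 * (n:ℝ) ^ 3)) / (2 * n)

lemma simplex_tau_of_check {n : ℕ} {τ : ℝ} (hn : 0 < n) (hτ : 0 ≤ τ)
    (h : (((n:ℝ) + 1) ^ (n + 1) * ((n:ℝ) + 2) ^ n) < (n.factorial : ℝ) ^ 2 *
      ((2.7182818283:ℝ) ^ (2 * n) *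
        ∑ i ∈ Finset.range 6, (2 * (n:ℝ) * τ) ^ i / (i.factorial : ℝ))) :
    -(2 * n * (1 + τ)) <
      Real.log ((n.factorial : ℝ) ^ 2 / (((n:ℝ) + 1) ^ (n + 1) * ((n:ℝ) + 2) ^ n)) := by
  rw [Real.lt_log_iff_exp_lt (by positivity), lt_div_iff₀ (by positivity)]
  have he : (2.7182818283:ℝ) ^ (2 * n) * ∑ i ∈ Finset.range 6,
      (2 * (n:ℝ) * τ) ^ i / (i.factorial : ℝ) ≤ Real.exp (2 * n * (1 + τ)) := by
    rw [show 2 * (n:ℝ) * (1 + τ) = ((2 * n : ℕ) : ℝ) * 1 + 2 * n * τ by push_cast; ring,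
      Real.exp_add, Real.exp_nat_mul]
    exact mul_le_mul (pow_le_pow_left₀ (by norm_num) Real.exp_one_gt_d9.le _)
      (Real.sum_le_exp_of_nonneg (by positivity) 6)
      (Finset.sum_nonneg fun i _ => by positivity) (by positivity)
  rw [Real.exp_neg, inv_mul_lt_iff₀ (Real.exp_pos _)]
  refine lt_of_lt_of_le h ?_
  rw [mul_comm (Real.exp _)]
  exact mul_le_mul_of_nonneg_left he (by positivity)

/-- The sharp thresholds for the simplex. -/
theorem simplex_tau {n : ℕ} (hn : 4 ≤ n) :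
    -(2 * n * (1 + simplexTau n)) <
      Real.log ((n.factorial : ℝ) ^ 2 / (((n:ℝ) + 1) ^ (n + 1) * ((n:ℝ) + 2) ^ n)) := by
  rcases lt_or_ge n 10 with h10 | h10
  · interval_cases n <;>
      (refine simplex_tau_of_check (by norm_num) ?_ ?_ <;>
        norm_num [simplexTau, Finset.sum_range_succ, Nat.factorial])
  · have hn0 : 0 < n := by omega
    have hn' : (0:ℝ) < n := by exact_mod_cast hn0
    have h := simplex_log_fine hn0
    have hd : simplexTau n =
        (1.1626 - 3 / (2 * n) + 5 / (2 * (n:ℝ) ^ 2) + 1 / (3 * (n:ℝ) ^ 3)) / (2 * n) := by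
      unfold simplexTau
      split <;> first | omega | rfl
    have he : -(2 * (n:ℝ) * (1 + simplexTau n)) =
        -(2 * n) - 1.1626 + 3 / (2 * n) - 5 / (2 * (n:ℝ) ^ 2) - 1 / (3 * (n:ℝ) ^ 3) := by
      rw [hd]; field_simp; ring
    linarith

lemma simplexTau_eq {n : ℕ} (hn : 10 ≤ n) : simplexTau n =
    (1.1626 - 3 / (2 * n) + 5 / (2 * (n:ℝ) ^ 2) + 1 / (3 * (n:ℝ) ^ 3)) / (2 * n) := by
  unfold simplexTau
  split <;> first | omega | rfl

/-- The thresholds decrease from dimension `10` on, so one value serves a band. -/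
lemma simplexTau_anti {a n : ℕ} (ha : 10 ≤ a) (han : a ≤ n) : simplexTau n ≤ simplexTau a := by
  rw [simplexTau_eq ha, simplexTau_eq (ha.trans han)]
  have ha' : (10:ℝ) ≤ a := by exact_mod_cast ha
  have han' : (a:ℝ) ≤ n := by exact_mod_cast han
  have key : ∀ x : ℝ, 0 < x → (1.1626 - 3 / (2 * x) + 5 / (2 * x ^ 2) + 1 / (3 * x ^ 3)) / (2 * x) =
      (1.1626 * x⁻¹ - 1.5 * x⁻¹ ^ 2 + 2.5 * x⁻¹ ^ 3 + x⁻¹ ^ 4 / 3) / 2 := by
    intro x hx; field_simp; ring
  rw [key _ (by linarith), key _ (by linarith)]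
  set x := (n:ℝ)⁻¹
  set y := (a:ℝ)⁻¹
  have hxy : x ≤ y := inv_anti₀ (by linarith) han'
  have hx : 0 ≤ x := inv_nonneg.2 (Nat.cast_nonneg n)
  have hy : y ≤ 1 / 10 := by rw [one_div]; exact inv_anti₀ (by norm_num) ha'
  have h1 : 0 ≤ (y - x) * (1.1626 - 1.5 * (x + y)) := mul_nonneg (by linarith) (by norm_num; linarith)
  have h3 : x ^ 3 ≤ y ^ 3 := pow_le_pow_left₀ hx hxy 3
  have h4 : x ^ 4 ≤ y ^ 4 := pow_le_pow_left₀ hx hxy 4
  linarith

/-- Affine images of unconditional bodies in small dimensions, from a requirement for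
root-concave profiles. -/
theorem affine_lt_upTo {k : ℕ} {c d e : ℝ} (hS : SectionFacts) (hR : RequirementUpTo k c e)
    (hRoot : RootSect) {n : ℕ} (hn : 4 ≤ n) (hnk : n ≤ k + 1) (hτ : simplexTau n ≤ e - d)
    (hP : Potential n c d) {K : Set (Fin n → ℝ)}
    (hK : Convex ℝ K) (hco : IsCompact K) (hi : (interior K).Nonempty)
    (hu : ∀ x ∈ K, ∀ y : Fin n → ℝ, (∀ i, |y i| = |x i|) → y ∈ K)
    {M : Matrix (Fin n) (Fin n) ℝ} (hM : M.det ≠ 0) (b : Fin n → ℝ) :
    isoConst ((fun x => M *ᵥ x + b) '' K) < isoConst (cornerSimplex n) := by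
  have hs := signInvariant_of_abs hu
  rw [Three.isoConst_affine M hM b K hco (volume_ne_zero hK hco hs hi)]
  refine isoConst_lt_coord (coordBound_upTo hS hR hRoot hnk) (by omega) ?_ hP hK hco hs hi
  refine lt_of_le_of_lt ?_ (simplex_tau hn)
  have := mul_le_mul_of_nonneg_left hτ (show (0:ℝ) ≤ 2 * n by positivity)
  linarith

end Vale.Agent.P254.Uncond
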