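import Vale.Agent.P254.Uncond.Defs
import Vale.Agent.P254.Sym.Var

/-!
Section functions and logarithmic moments of convex downsets: the profile property, the slicing
formulas for the moments of `log x_i`, and the entropy step.
-/

open MeasureTheory Set

namespace Vale.Agent.P254.Uncond

open Vale.Agent.P254.Sym

variable {n : ℕ}

/-- Fubini along one coordinate for integrable functions. -/
theorem slice_integral_gen {A : Set (Fin (n + 1) → ℝ)} (hA : Down A) (i : Fin (n + 1))
    {F : (Fin (n + 1) → ℝ) → ℝ} (hF : IntegrableOn F A) :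
    IntegrableOn (fun t => ∫ z in slAt A i t, F (Fin.insertNth i t z)) (Ioi 0) ∧
    ∫ y in A, F y = ∫ t in Ioi (0:ℝ), ∫ z in slAt A i t, F (Fin.insertNth i t z) := by
  set e := MeasurableEquiv.piFinSuccAbove (fun _ : Fin (n + 1) => ℝ) i
  have hm := (volume_preserving_piFinSuccAbove (fun _ : Fin (n + 1) => ℝ) i).symm e
  set G : (Fin (n + 1) → ℝ) → ℝ := A.indicator F with hG
  have hGi : Integrable G := hF.integrable_indicator hA.measurable
  have he : ∀ p : ℝ × (Fin n → ℝ), e.symm p = Fin.insertNth i p.1 p.2 := fun p => rfl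
  have hprod : Integrable (fun p => G (e.symm p)) (volume.prod volume) :=
    (hm.integrable_comp_emb e.symm.measurableEmbedding (g := G)).2 hGi
  have e1 : ∀ t, (∫ z, G (e.symm (t, z))) = ∫ z in slAt A i t, F (Fin.insertNth i t z) := by
    intro t
    rw [← integral_indicator (slAt_down hA i t).measurable]
    refine integral_congr_ae (Filter.Eventually.of_forall fun z => ?_)
    simp only [he, hG]
    by_cases hz : z ∈ slAt A i t
    · rw [indicator_of_mem hz, indicator_of_mem (show Fin.insertNth i t z ∈ A from hz)]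
    · rw [indicator_of_notMem hz, indicator_of_notMem (show Fin.insertNth i t z ∉ A from hz)]
  have h1 := hprod.integral_prod_left
  simp only [e1] at h1
  refine ⟨h1.integrableOn, ?_⟩
  rw [← integral_indicator hA.measurable, ← hG, ← hm.integral_comp e.symm.measurableEmbedding G,
    Measure.volume_eq_prod, integral_prod _ hprod, ← integral_Ici_eq_integral_Ioi,
    ← integral_indicator measurableSet_Ici]
  refine integral_congr_ae (Filter.Eventually.of_forall fun t => ?_)
  simp only [e1]
  rcases lt_or_ge t 0 with ht | ht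
  · rw [indicator_of_notMem (show t ∉ Ici (0:ℝ) from not_le.2 ht), slAt_neg hA i ht]
    simp
  · rw [indicator_of_mem (show t ∈ Ici (0:ℝ) from ht)]

/-- An integrable function of one coordinate is integrable on a bounded downset. -/
theorem integrableOn_coord {A : Set (Fin n → ℝ)} (hA : Down A) (i : Fin n) {f : ℝ → ℝ}
    (hf : ∀ R : ℝ, 0 ≤ R → IntegrableOn f (Icc 0 R)) :
    IntegrableOn (fun x => f (x i)) A := by
  cases n with
  | zero => exact i.elim0
  | succ m =>
    obtain ⟨R, hR0, hR⟩ := hA.bound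
    set e := MeasurableEquiv.piFinSuccAbove (fun _ : Fin (m + 1) => ℝ) i
    have hm := (volume_preserving_piFinSuccAbove (fun _ : Fin (m + 1) => ℝ) i).symm e
    set a : ℝ → ℝ := (Icc (0:ℝ) R).indicator f
    set b : (Fin m → ℝ) → ℝ := (Icc (0 : Fin m → ℝ) fun _ => R).indicator fun _ => (1:ℝ)
    have ha : Integrable a := (hf R hR0).integrable_indicator measurableSet_Icc
    have hb : Integrable b :=
      IntegrableOn.integrable_indicator (integrableOn_const isCompact_Icc.measure_lt_top.ne)
        measurableSet_Icc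
    have hab : Integrable (fun p => a p.1 * b p.2) (volume.prod volume) := ha.mul_prod hb
    set H : (Fin (m + 1) → ℝ) → ℝ := fun x => a (e x).1 * b (e x).2
    have hH : Integrable H := by
      refine (hm.integrable_comp_emb e.symm.measurableEmbedding (g := H)).1 ?_
      rw [← Measure.volume_eq_prod] at hab
      simpa [H, Function.comp_def] using hab
    refine hH.integrableOn.congr_fun (fun x hx => ?_) hA.measurable
    have he : e x = (x i, fun j => x (i.succAbove j)) := rfl
    show a (e x).1 * b (e x).2 = f (x i)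
    rw [he]
    have h1 : x i ∈ Icc (0:ℝ) R := ⟨hA.nonneg x hx i, hR x hx i⟩
    have h2 : (fun j => x (i.succAbove j)) ∈ Icc (0 : Fin m → ℝ) fun _ => R :=
      ⟨fun j => hA.nonneg x hx _, fun j => hR x hx _⟩
    simp [a, b, indicator_of_mem h1, indicator_of_mem h2]

/-- Slicing the integral of a function of the slicing coordinate. -/
theorem coord_integral {A : Set (Fin (n + 1) → ℝ)} (hA : Down A) (i : Fin (n + 1)) {f : ℝ → ℝ}
    (hf : ∀ R : ℝ, 0 ≤ R → IntegrableOn f (Icc 0 R)) :
    IntegrableOn (fun t => sectAt A i t * f t) (Ioi 0) ∧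
    ∫ x in A, f (x i) = ∫ t in Ioi (0:ℝ), sectAt A i t * f t := by
  have h := slice_integral_gen hA i (integrableOn_coord hA i hf)
  simp only [Fin.insertNth_apply_same, setIntegral_const, smul_eq_mul] at h
  exact h

lemma integrableOn_log_Icc (R : ℝ) (hR : 0 ≤ R) : IntegrableOn Real.log (Icc 0 R) :=
  (intervalIntegrable_iff_integrableOn_Icc_of_le hR).1 intervalIntegral.intervalIntegrable_log'

lemma log_sq_bound {t R : ℝ} (ht : t ∈ Ioc 0 R) :
    Real.log t ^ 2 ≤ 16 * t ^ (-(1 / 2) : ℝ) + R ^ 2 := by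
  have hp : (0:ℝ) ≤ 16 * t ^ (-(1 / 2) : ℝ) :=
    mul_nonneg (by norm_num) (Real.rpow_nonneg ht.1.le _)
  rcases le_or_gt t 1 with h1 | h1
  · have h := (Real.abs_log_mul_self_rpow_lt t (1 / 4) ht.1 h1 (by norm_num)).le
    rw [show (1:ℝ) / (1 / 4) = 4 by norm_num] at h
    have hq : 0 < t ^ (1 / 4 : ℝ) := Real.rpow_pos_of_pos ht.1 _
    have hsq : t ^ (1 / 4 : ℝ) * t ^ (1 / 4 : ℝ) = t ^ (1 / 2 : ℝ) := by
      rw [← Real.rpow_add ht.1]; norm_num
    have hh : 0 < t ^ (1 / 2 : ℝ) := Real.rpow_pos_of_pos ht.1 _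
    have h2 : Real.log t ^ 2 * t ^ (1 / 2 : ℝ) ≤ 16 := by
      rw [← hsq]
      nlinarith [pow_le_pow_left₀ (abs_nonneg _) h 2, sq_abs (Real.log t * t ^ (1 / 4 : ℝ))]
    have h3 : Real.log t ^ 2 ≤ 16 * t ^ (-(1 / 2) : ℝ) := by
      rw [Real.rpow_neg ht.1.le, ← div_eq_mul_inv, le_div_iff₀ hh]
      exact h2
    linarith [sq_nonneg R]
  · have h0 : 0 ≤ Real.log t := Real.log_nonneg h1.le
    have h2 : Real.log t ≤ R := by linarith [Real.log_le_sub_one_of_pos ht.1, ht.2]
    nlinarith

lemma integrableOn_log_sq_Icc (R : ℝ) (hR : 0 ≤ R) :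
    IntegrableOn (fun t => Real.log t ^ 2) (Icc 0 R) := by
  rw [integrableOn_Icc_iff_integrableOn_Ioc]
  have hp : IntegrableOn (fun t : ℝ => t ^ (-(1 / 2) : ℝ)) (Ioc 0 R) :=
    (intervalIntegrable_iff_integrableOn_Ioc_of_le hR).1
      (intervalIntegral.intervalIntegrable_rpow' (by norm_num))
  have hg : IntegrableOn (fun t : ℝ => 16 * t ^ (-(1 / 2) : ℝ) + R ^ 2) (Ioc 0 R) :=
    (hp.const_mul 16).add (integrableOn_const measure_Ioc_lt_top.ne)
  refine Integrable.mono' hg (Real.measurable_log.pow_const 2).aestronglyMeasurable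
    ((ae_restrict_iff' measurableSet_Ioc).2 (Filter.Eventually.of_forall fun t ht => ?_))
  rw [Real.norm_eq_abs, abs_of_nonneg (sq_nonneg _)]
  exact log_sq_bound ht

lemma integrableOn_log_sub_sq_Icc (m R : ℝ) (hR : 0 ≤ R) :
    IntegrableOn (fun t => (Real.log t - m) ^ 2) (Icc 0 R) := by
  have h : IntegrableOn (fun t => Real.log t ^ 2 - 2 * m * Real.log t + m ^ 2) (Icc 0 R) :=
    ((integrableOn_log_sq_Icc R hR).sub ((integrableOn_log_Icc R hR).const_mul (2 * m))).add
      (integrableOn_const isCompact_Icc.measure_lt_top.ne)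
  exact h.congr_fun (fun t _ => by ring) measurableSet_Icc

/-- `log x_i` is integrable on a downset. -/
theorem integrableOn_log_coord {A : Set (Fin n → ℝ)} (hA : Down A) (i : Fin n) :
    IntegrableOn (fun x => Real.log (x i)) A :=
  integrableOn_coord hA i integrableOn_log_Icc

/-- `(log x_i - m)^2` is integrable on a downset. -/
theorem integrableOn_log_sq_coord {A : Set (Fin n → ℝ)} (hA : Down A) (i : Fin n) (m : ℝ) :
    IntegrableOn (fun x => (Real.log (x i) - m) ^ 2) A :=
  integrableOn_coord hA i (integrableOn_log_sub_sq_Icc m)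

lemma tot_sect {A : Set (Fin (n + 1) → ℝ)} (hA : Down A) (i : Fin (n + 1)) :
    tot (sectAt A i) = volume.real A :=
  mU_sect hA i

/-- `g log g` is integrable for a section function. -/
theorem integrableOn_sect_mul_log {A : Set (Fin (n + 1) → ℝ)} (hA : Down A) (i : Fin (n + 1)) :
    IntegrableOn (fun t => sectAt A i t * Real.log (sectAt A i t)) (Ioi 0) := by
  obtain ⟨R, -, hR⟩ := hA.bound
  obtain ⟨C, hC⟩ := (isCompact_Icc (a := (0:ℝ)) (b := sectAt A i 0)).exists_bound_of_continuousOn
    Real.continuous_mul_log.continuousOn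
  refine Orlicz.integrable_of_bound (a := R) (C := C)
    ((sectAt_measurable hA i).mul (Real.measurable_log.comp (sectAt_measurable hA i)))
    (fun t ht => by simp [sectAt, slAt_empty hR i ht]) fun t ht => ?_
  rw [← Real.norm_eq_abs]
  exact hC _ ⟨sectAt_nonneg A i t,
    sectAt_anti hA i (mem_Ici.2 le_rfl) (mem_Ici.2 ht.1.le) ht.1.le⟩

lemma sectAt_logconcave {A : Set (Fin (n + 1) → ℝ)} (hA : Down A) (i : Fin (n + 1)) {s t a b : ℝ}
    (hs : 0 ≤ s) (ht : 0 ≤ t) (ha : 0 ≤ a) (hb : 0 ≤ b) (hab : a + b = 1) :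
    sectAt A i s ^ a * sectAt A i t ^ b ≤ sectAt A i (a * s + b * t) := by
  have h := down_logconcave (front_down hA i) s t b hb (by linarith) hs ht
  rw [show 1 - b = a by linarith] at h
  simpa only [sect, sectAt, slice_front] using h

/-- Section functions are profiles. -/
theorem sect_prof {A : Set (Fin (n + 1) → ℝ)} (hA : Down A) (hV : 0 < volume.real A)
    (i : Fin (n + 1)) : ∃ R, Prof (sectAt A i) R := by
  obtain ⟨R₁, -, hR⟩ := hA.bound
  set g := sectAt A i
  set S : Set ℝ := {t | 0 ≤ t ∧ 0 < g t}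
  have hS : BddAbove S := ⟨R₁, fun t ht => by
    by_contra hlt
    have : g t = 0 := by simp [g, sectAt, slAt_empty hR i (not_le.1 hlt)]
    exact ht.2.ne' this⟩
  obtain ⟨t₀, ht₀, hg₀⟩ : ∃ t, 0 < t ∧ 0 < g t := by
    by_contra h
    have hz : ∫ t in Ioi (0:ℝ), g t = 0 :=
      setIntegral_eq_zero_of_forall_eq_zero fun t ht =>
        ((sectAt_nonneg A i t).eq_or_lt.resolve_right fun h' => h ⟨t, ht, h'⟩).symm
    exact hV.ne' ((tot_sect hA i).symm.trans hz)
  have hne : S.Nonempty := ⟨t₀, ht₀.le, hg₀⟩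
  refine ⟨sSup S, lt_of_lt_of_le ht₀ (le_csSup hS ⟨ht₀.le, hg₀⟩), sectAt_nonneg A i,
    sectAt_anti hA i, fun t ht => ?_, fun t ht htR => ?_, ⟨convex_Ico _ _, ?_⟩,
    sectAt_measurable hA i⟩
  · have ht0 : 0 ≤ t := (ht₀.le.trans (le_csSup hS ⟨ht₀.le, hg₀⟩)).trans ht.le
    refine ((sectAt_nonneg A i t).eq_or_lt.resolve_right fun h' => ?_).symm
    exact absurd (le_csSup hS ⟨ht0, h'⟩) (not_le.2 ht)
  · obtain ⟨s, hs, hts⟩ := exists_lt_of_lt_csSup hne htR
    exact hs.2.trans_le (sectAt_anti hA i (mem_Ici.2 ht) (mem_Ici.2 hs.1) hts.le)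
  · have hpos : ∀ t, 0 ≤ t → t < sSup S → 0 < g t := fun t ht htR => by
      obtain ⟨s, hs, hts⟩ := exists_lt_of_lt_csSup hne htR
      exact hs.2.trans_le (sectAt_anti hA i (mem_Ici.2 ht) (mem_Ici.2 hs.1) hts.le)
    intro x hx y hy a b ha hb hab
    simp only [smul_eq_mul]
    have gx := hpos x hx.1 hx.2
    have gy := hpos y hy.1 hy.2
    have h := Real.log_le_log (mul_pos (Real.rpow_pos_of_pos gx a) (Real.rpow_pos_of_pos gy b))
      (sectAt_logconcave hA i hx.1 hy.1 ha hb hab)
    rw [Real.log_mul (Real.rpow_pos_of_pos gx a).ne' (Real.rpow_pos_of_pos gy b).ne',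
      Real.log_rpow gx, Real.log_rpow gy] at h
    linarith

theorem sect_mean {A : Set (Fin (n + 1) → ℝ)} (hA : Down A) (i : Fin (n + 1)) :
    lmean A i = pmean (sectAt A i) := by
  rw [lmean, pmean, avg, tot_sect hA i, (coord_integral hA i integrableOn_log_Icc).2]

theorem sect_var {A : Set (Fin (n + 1) → ℝ)} (hA : Down A) (i : Fin (n + 1)) :
    lvar A i = pvar (sectAt A i) := by
  rw [lvar, sect_mean hA i, pvar, avg, tot_sect hA i,
    (coord_integral hA i (integrableOn_log_sub_sq_Icc _)).2]

theorem sect_second {A : Set (Fin (n + 1) → ℝ)} (hA : Down A) (i : Fin (n + 1)) :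
    (∫ x in A, x i ^ 2) / volume.real A = avg (sectAt A i) fun t => t ^ 2 := by
  rw [avg, tot_sect hA i,
    (coord_integral hA i fun R _ => (continuous_pow 2).continuousOn.integrableOn_Icc).2]

/-- The slice integrals of `log x_j`. -/
lemma slice_log {A : Set (Fin (n + 1) → ℝ)} (hA : Down A) (i : Fin (n + 1)) (j : Fin n) (t : ℝ) :
    ∫ z in slAt A i t, Real.log (z j) = sectAt A i t * lmean (slAt A i t) j := by
  rcases (sectAt_nonneg A i t).eq_or_lt with h | h
  · have h0 : volume (slAt A i t) = 0 :=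
      (measureReal_eq_zero_iff (slAt_down hA i t).finite).1 h.symm
    rw [← h, zero_mul, Measure.restrict_eq_zero.2 h0, integral_zero_measure]
  · rw [lmean, mul_div_assoc', mul_comm]
    exact (mul_div_cancel_right₀ _ h.ne').symm

/-- Slicing the mean of the logarithm of another coordinate, with integrability. -/
theorem sect_split {A : Set (Fin (n + 1) → ℝ)} (hA : Down A) (hV : 0 < volume.real A)
    (i : Fin (n + 1)) (j : Fin n) :
    IntegrableOn (fun t => sectAt A i t * lmean (slAt A i t) j) (Ioi 0) ∧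
    lmean A (i.succAbove j) * volume.real A =
      ∫ t in Ioi (0:ℝ), sectAt A i t * lmean (slAt A i t) j := by
  have h := slice_integral_gen hA i (integrableOn_log_coord hA (i.succAbove j))
  simp only [Fin.insertNth_apply_succAbove, slice_log hA i j] at h
  exact ⟨h.1, by rw [lmean, div_mul_cancel₀ _ hV.ne', h.2]⟩

theorem sect_step {A : Set (Fin (n + 1) → ℝ)} (hA : Down A) (hV : 0 < volume.real A)
    (i : Fin (n + 1)) :
    ∫ t in Ioi (0:ℝ), sectAt A i t * Real.log (sectAt A i t) =
      volume.real A * (Real.log (volume.real A) - gain (sectAt A i) - lmean A i - 1) := by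
  set g := sectAt A i with hg
  set V := volume.real A
  have hp : ∀ t, g t * -Real.log (g t / V) = g t * Real.log V - g t * Real.log (g t) := by
    intro t
    rcases (sectAt_nonneg A i t).eq_or_lt with h | h
    · simp [hg, ← h]
    · rw [Real.log_div h.ne' hV.ne']; ring
  have hgi : IntegrableOn g (Ioi 0) := by
    have h := (slice_integral hA i (F := fun _ => (1:ℝ)) continuous_const).1
    simp only [setIntegral_const, smul_eq_mul, mul_one] at h
    exact h
  have hint : ∫ t in Ioi (0:ℝ), g t * -Real.log (g t / V) =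
      V * Real.log V - ∫ t in Ioi (0:ℝ), g t * Real.log (g t) := by
    simp only [hp]
    rw [integral_sub (hgi.mul_const _) (integrableOn_sect_mul_log hA i), integral_mul_const]
    exact congrArg (fun v => v * Real.log V - _) (tot_sect hA i)
  simp only [gain, avg]
  rw [show tot g = V from tot_sect hA i, show pmean g = lmean A i from (sect_mean hA i).symm]
  rw [hint]
  field_simp
  ring

theorem sectionFacts : SectionFacts where
  prof hA hV i := sect_prof hA hV i
  mean hA _ i := sect_mean hA i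
  var hA _ i := sect_var hA i
  second hA _ i := sect_second hA i
  split hA hV i j := (sect_split hA hV i j).2
  step hA hV i := sect_step hA hV i

end Vale.Agent.P254.Uncond
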