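import Vale.Agent.P254.Uncond.Defs
import Vale.Agent.P254.Sym.Var
import Vale.Agent.P254.BM.OneD

/-!
Brunn-Minkowski for convex downsets with the gain from the logarithmic means, by induction on
the dimension and the one-dimensional transport inequality for the first marginals.
-/

open MeasureTheory Set Filter

namespace Vale.Agent.P254.Uncond

open Vale.Agent.P254.Sym

variable {n : ℕ}

/-- The first section function of a downset of positive volume, as a profile on `(0, h)`. -/
lemma sect_profile {A : Set (Fin (n + 1) → ℝ)} (hA : Down A) (hV : 0 < volume.real A) {R : ℝ}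
    (hR : ∀ x ∈ A, ∀ i, x i ≤ R) :
    ∃ h, h ≤ R ∧ BM.Prof (sectAt A 0) h ∧
      ∀ G : ℝ → ℝ, ∫ t in Ioi (0:ℝ), sectAt A 0 t * G t = ∫ t in Ioo 0 h, sectAt A 0 t * G t := by
  set g := sectAt A 0 with hg
  have hanti : AntitoneOn g (Ici 0) := sectAt_anti hA 0
  have hnn : ∀ t, 0 ≤ g t := sectAt_nonneg A 0
  have hbey : ∀ t, R < t → g t = 0 := fun t ht => by simp [hg, sectAt, slAt_empty hR 0 ht]
  have htot : 0 < ∫ t in Ioi (0:ℝ), g t := by
    have := mU_sect hA 0
    rw [← hg] at this
    exact lt_of_lt_of_eq hV this.symm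
  set S := {t | 0 < t ∧ 0 < g t} with hS
  have hne : S.Nonempty := by
    by_contra hcon
    refine htot.ne' (setIntegral_eq_zero_of_forall_eq_zero fun t ht => ?_)
    exact le_antisymm (not_lt.1 fun h0 => hcon ⟨t, ht, h0⟩) (hnn t)
  have hleR : ∀ t ∈ S, t ≤ R := fun t ht => not_lt.1 fun hcon => ht.2.ne' (hbey t hcon)
  set h := sSup S
  have hh : 0 < h := by
    obtain ⟨t, ht⟩ := hne
    exact ht.1.trans_le (le_csSup ⟨R, hleR⟩ ht)
  have hpos : ∀ x ∈ Ioo 0 h, 0 < g x := fun x hx => by
    obtain ⟨s, hs, hxs⟩ := exists_lt_of_lt_csSup hne hx.2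
    exact hs.2.trans_le (hanti hx.1.le hs.1.le hxs.le)
  have hzero : ∀ t, h < t → g t = 0 := fun t ht => by
    refine le_antisymm (not_lt.1 fun h0 => ?_) (hnn t)
    exact absurd (le_csSup ⟨R, hleR⟩ ⟨hh.trans ht, h0⟩) (not_le.2 ht)
  have hconc : ConcaveOn ℝ (Ioo 0 h) fun t => Real.log (g t) := by
    refine ⟨convex_Ioo _ _, fun x hx y hy p q hp hq hpq => ?_⟩
    have hp' : p = 1 - q := by linarith
    subst hp'
    have hl := down_logconcave hA x y q hq (by linarith) hx.1.le hy.1.le
    simp only [sect, ← slAt_zero] at hl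
    change g x ^ (1 - q) * g y ^ q ≤ g ((1 - q) * x + q * y) at hl
    have h1 := hpos x hx
    have h2 := hpos y hy
    simp only [smul_eq_mul]
    calc (1 - q) * Real.log (g x) + q * Real.log (g y)
        = Real.log (g x ^ (1 - q) * g y ^ q) := by
          rw [Real.log_mul (Real.rpow_pos_of_pos h1 _).ne' (Real.rpow_pos_of_pos h2 _).ne',
            Real.log_rpow h1, Real.log_rpow h2]
      _ ≤ _ := Real.log_le_log (mul_pos (Real.rpow_pos_of_pos h1 _) (Real.rpow_pos_of_pos h2 _)) hl
  have hcont : ContinuousOn g (Ioo 0 h) :=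
    (Real.continuous_exp.comp_continuousOn (hconc.continuousOn isOpen_Ioo)).congr
      fun t ht => (Real.exp_log (hpos t ht)).symm
  refine ⟨h, csSup_le hne hleR, ⟨hh, sectAt_measurable hA 0, hpos,
    hanti.mono fun t ht => ht.1.le, hcont, ⟨g 0, fun x hx => hanti (mem_Ici.2 le_rfl) hx.1.le hx.1.le⟩⟩,
    fun G => ?_⟩
  have hrest : ∀ᵐ t : ℝ, t ∈ Ioi (0:ℝ) \ Ioo 0 h → g t * G t = 0 := by
    filter_upwards [(finite_singleton h).countable.ae_notMem volume] with t ht hmem
    have : h < t := (not_lt.1 fun hcon => hmem.2 ⟨hmem.1, hcon⟩).lt_of_ne fun e => ht e.symm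
    rw [hzero t this, zero_mul]
  exact setIntegral_eq_of_subset_of_ae_sdiff_eq_zero measurableSet_Ioi.nullMeasurableSet
    Ioo_subset_Ioi_self hrest

lemma sect_mass {A : Set (Fin (n + 1) → ℝ)} (hA : Down A) {h : ℝ}
    (hi : ∀ G : ℝ → ℝ, ∫ t in Ioi (0:ℝ), sectAt A 0 t * G t = ∫ t in Ioo 0 h, sectAt A 0 t * G t) :
    BM.mass (sectAt A 0) h = volume.real A := by
  have := hi fun _ => 1
  simp only [mul_one] at this
  rw [BM.mass, ← this]
  exact mU_sect hA 0

lemma cont_epsLog {ε : ℝ} (hε : 0 < ε) : Continuous fun s : ℝ => Real.log (max s 0 + ε) :=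
  Continuous.log (by fun_prop) fun s => by have := le_max_right s 0; linarith

lemma integral_epsLog {A : Set (Fin n → ℝ)} (hA : Down A) (ε : ℝ) (j : Fin n) :
    ∫ x in A, Real.log (x j + ε) = ∫ x in A, Real.log (max (x j) 0 + ε) :=
  setIntegral_congr_fun hA.measurable fun x hx => by simp [max_eq_left (hA.nonneg x hx j)]

lemma emean_head {A : Set (Fin (n + 1) → ℝ)} (hA : Down A) {ε : ℝ} (hε : 0 < ε) {h : ℝ}
    (hi : ∀ G : ℝ → ℝ, ∫ t in Ioi (0:ℝ), sectAt A 0 t * G t = ∫ t in Ioo 0 h, sectAt A 0 t * G t) :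
    BM.avg (sectAt A 0) h (BM.psi ε) = emean ε A 0 := by
  have e := (slice_integral hA 0 (F := fun x => Real.log (max (x 0) 0 + ε))
    ((cont_epsLog hε).comp (continuous_apply 0))).2
  rw [BM.avg, emean, sect_mass hA hi, ← hi, integral_epsLog hA, e]
  congr 1
  refine setIntegral_congr_fun measurableSet_Ioi fun t ht => ?_
  simp [BM.psi, sectAt, max_eq_left (le_of_lt (mem_Ioi.1 ht))]

lemma emean_tail {A : Set (Fin (n + 1) → ℝ)} (hA : Down A) {ε : ℝ} (hε : 0 < ε) {h : ℝ}
    (hi : ∀ G : ℝ → ℝ, ∫ t in Ioi (0:ℝ), sectAt A 0 t * G t = ∫ t in Ioo 0 h, sectAt A 0 t * G t)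
    (j : Fin n) :
    IntegrableOn (fun t => sectAt A 0 t * emean ε (slAt A 0 t) j) (Ioo 0 h) ∧
      BM.avg (sectAt A 0) h (fun t => emean ε (slAt A 0 t) j) = emean ε A j.succ := by
  obtain ⟨hint, heq⟩ := slice_integral hA 0
    ((cont_epsLog hε).comp (continuous_apply j.succ))
  have e : ∀ t, ∫ z in slAt A 0 t, ((fun s : ℝ => Real.log (max s 0 + ε)) ∘
      fun x : Fin (n + 1) → ℝ => x j.succ) (Fin.insertNth 0 t z) =
      sectAt A 0 t * emean ε (slAt A 0 t) j := by
    intro t
    have hD := slAt_down hA 0 t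
    rw [emean, integral_epsLog hD, sectAt]
    rcases eq_or_ne (volume.real (slAt A 0 t)) 0 with h0 | h0
    · have hz : volume (slAt A 0 t) = 0 := (measureReal_eq_zero_iff hD.finite).1 h0
      rw [h0, zero_mul]
      exact setIntegral_measure_zero _ hz
    · rw [mul_div_cancel₀ _ h0]
      simp [Fin.insertNth_zero']
  simp only [e] at hint heq
  refine ⟨hint.mono_set Ioo_subset_Ioi_self, ?_⟩
  rw [BM.avg, emean, sect_mass hA hi, ← hi, integral_epsLog hA]
  exact congrArg (· / volume.real A) heq.symm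

/-- A midpoint set of two downsets of positive volume has positive volume. -/
lemma mid_pos {A B C : Set (Fin n → ℝ)} (hB : Down B) (hC : Down C)
    (hV : 0 < volume.real A) (hW : 0 < volume.real B)
    (hmid : ∀ x ∈ A, ∀ y ∈ B, (1 / 2 : ℝ) • (x + y) ∈ C) : 0 < volume.real C := by
  obtain ⟨y, hy⟩ : B.Nonempty := nonempty_iff_ne_empty.2 fun e => by simp [e] at hW
  have h0 : (0 : Fin n → ℝ) ∈ B :=
    hB.lower y hy 0 fun i => ⟨le_rfl, hB.nonneg y hy i⟩
  have hsub : (fun x : Fin n → ℝ => (1 / 2 : ℝ) • x) '' A ⊆ C := by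
    rintro _ ⟨x, hx, rfl⟩
    simpa using hmid x hx 0 h0
  refine lt_of_lt_of_le ?_ (measureReal_mono hsub hC.finite)
  rw [Measure.real, image_smul, Measure.addHaar_smul, ENNReal.toReal_mul]
  exact mul_pos (by simp [abs_of_pos]) hV

/-- The section functions of the midpoint set dominate with the inductive gain. -/
lemma step_mid {A B C : Set (Fin (n + 1) → ℝ)} (hB : Down B) (hC : Down C)
    (hmid : ∀ x ∈ A, ∀ y ∈ B, (1 / 2 : ℝ) • (x + y) ∈ C) {x y G : ℝ}
    (hx : 0 < sectAt A 0 x) (hy : 0 < sectAt B 0 y)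
    (hIH : 0 < volume.real (slAt A 0 x) → 0 < volume.real (slAt B 0 y) →
      (∀ u ∈ slAt A 0 x, ∀ v ∈ slAt B 0 y, (1 / 2 : ℝ) • (u + v) ∈ slAt C 0 ((x + y) / 2)) →
      G ≤ Real.log (volume.real (slAt C 0 ((x + y) / 2))) -
        (Real.log (volume.real (slAt A 0 x)) + Real.log (volume.real (slAt B 0 y))) / 2) :
    Real.sqrt (sectAt A 0 x * sectAt B 0 y) * Real.exp G ≤ sectAt C 0 ((x + y) / 2) := by
  have hm : ∀ u ∈ slAt A 0 x, ∀ v ∈ slAt B 0 y,
      (1 / 2 : ℝ) • (u + v) ∈ slAt C 0 ((x + y) / 2) := by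
    intro u hu v hv
    have := hmid _ hu _ hv
    show Fin.insertNth 0 ((x + y) / 2) ((1 / 2 : ℝ) • (u + v)) ∈ C
    convert this using 1
    funext i
    refine Fin.cases ?_ (fun j => ?_) i
    · simp [Fin.insertNth_zero']; ring
    · simp [Fin.insertNth_zero']; ring
  have hc : 0 < sectAt C 0 ((x + y) / 2) :=
    mid_pos (slAt_down hB 0 y) (slAt_down hC 0 _) hx hy hm
  have h := hIH hx hy hm
  simp only [sectAt] at hx hy hc h ⊢
  rw [← Real.exp_log (Real.sqrt_pos.2 (mul_pos hx hy)), ← Real.exp_add]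
  refine (Real.exp_le_exp.2 ?_).trans_eq (Real.exp_log hc)
  rw [Real.log_sqrt (mul_pos hx hy).le, Real.log_mul hx.ne' hy.ne']
  linarith

/-- Brunn-Minkowski with the gain from the logarithmic means. -/
theorem gapBound : GapBound := by
  intro n
  induction n with
  | zero =>
    intro A B C hA hB hC hV hW hmid ε R w θ _ _ _ _ _
    have one : ∀ D : Set (Fin 0 → ℝ), 0 < volume.real D → volume.real D = 1 := fun D hD => by
      obtain ⟨y, hy⟩ : D.Nonempty := nonempty_iff_ne_empty.2 fun e => by simp [e] at hD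
      rw [show D = univ from eq_univ_of_forall fun z => Subsingleton.elim y z ▸ hy]
      simp [Measure.real, volume_pi, Measure.pi_empty_univ]
    rw [one C (mid_pos hB hC hV hW hmid), one A hV, one B hW]
    simp
  | succ n ih =>
    intro A B C hA hB hC hV hW hmid ε R w θ hε hw hRA hRB hθ
    obtain ⟨h, hhR, pa, ia⟩ := sect_profile hA hV hRA
    obtain ⟨k, hkR, pb, ib⟩ := sect_profile hB hW hRB
    have hL : ∀ {s : ℝ}, 0 < s → s ≤ R →
        |θ 0| * Real.log ((s + ε) / ε) ≤ |θ 0| * Real.log ((R + ε) / ε) := by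
      intro s hs hsR
      refine mul_le_mul_of_nonneg_left (Real.log_le_log ?_ ?_) (abs_nonneg _)
      · exact div_pos (by linarith) hε
      · gcongr
    have hw0 : 0 ≤ w := by
      refine le_trans (mul_nonneg (abs_nonneg _) (Real.log_nonneg ?_)) (hθ 0)
      rw [le_div_iff₀ hε]
      linarith [pa.hpos.trans_le hhR]
    set D := 1 - 4 * w ^ 2 with hD
    have hD0 : 0 < D := by nlinarith
    set K := 4 * (∑ j : Fin n, θ j.succ ^ 2) / D with hK
    set LA : ℝ → ℝ := fun x => (∑ j : Fin n, θ j.succ * emean ε (slAt A 0 x) j) + K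
    set LB : ℝ → ℝ := fun y => ∑ j : Fin n, θ j.succ * emean ε (slAt B 0 y) j
    set m : ℝ → ℝ := sectAt C 0
    obtain ⟨RC, -, hRC⟩ := hC.bound
    have hmi : Integrable m := by
      have h1 : IntegrableOn m (Ioi 0) := by
        have := (slice_integral hC 0 (F := fun _ => (1:ℝ)) continuous_const).1
        simp only [setIntegral_const, smul_eq_mul, mul_one] at this
        exact this
      refine ((integrableOn_Ici_iff_integrableOn_Ioi (f := m)).2 h1).integrable_of_forall_notMem_eq_zero
        fun t ht => ?_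
      simp [m, sectAt, slAt_neg hC 0 (not_le.1 ht)]
    have hmass : ∫ z, m z = volume.real C := by
      rw [← mU_sect hC 0, mU]
      rw [← integral_Ici_eq_integral_Ioi, setIntegral_eq_integral_of_forall_compl_eq_zero]
      intro t ht
      simp [sectAt, slAt_neg hC 0 (not_le.1 ht)]
    have hEA : IntegrableOn (fun x => sectAt A 0 x * LA x) (Ioo 0 h) := by
      simp only [LA, mul_add (sectAt A 0 _), Finset.mul_sum]
      refine Integrable.add (integrable_finsetSum _ fun j _ => ?_) (pa.integrableOn.mul_const K)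
      simpa only [IntegrableOn, mul_left_comm] using (emean_tail hA hε ia j).1.const_mul (θ j.succ)
    have hEB : IntegrableOn (fun y => sectAt B 0 y * LB y) (Ioo 0 k) := by
      simp only [LB, Finset.mul_sum]
      refine integrable_finsetSum _ fun j _ => ?_
      simpa only [IntegrableOn, mul_left_comm] using (emean_tail hB hε ib j).1.const_mul (θ j.succ)
    have key := BM.oneD (E := LA) (F := LB) (m := m) pa pb hε (θ := θ 0) (q := w)
      ((hL pa.hpos hhR).trans (hθ 0)) ((hL pb.hpos hkR).trans (hθ 0)) (by linarith) hEA hEB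
      (fun z => sectAt_nonneg C 0 z) hmi (fun x hx y hy =>
        step_mid hB hC hmid (pa.pos x hx) (pb.pos y hy) fun hx' hy' hm => by
          have := ih (slAt_down hA 0 x) (slAt_down hB 0 y) (slAt_down hC 0 _) hx' hy' hm ε R w
            (fun j => θ j.succ) hε hw (fun u hu j => by simpa [Fin.insertNth_zero'] using hRA _ hu j.succ)
            (fun u hu j => by simpa [Fin.insertNth_zero'] using hRB _ hu j.succ) (fun j => hθ j.succ)
          simp only [mul_sub, Finset.sum_sub_distrib] at this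
          simp only [LA, LB]
          linarith)
    have avA : BM.avg (sectAt A 0) h LA = (∑ j : Fin n, θ j.succ * emean ε A j.succ) + K := by
      have hs : ∀ j : Fin n, IntegrableOn
          (fun x => sectAt A 0 x * (θ j.succ * emean ε (slAt A 0 x) j)) (Ioo 0 h) := fun j => by
        simpa only [IntegrableOn, mul_left_comm] using (emean_tail hA hε ia j).1.const_mul (θ j.succ)
      simp only [BM.avg, LA, mul_add (sectAt A 0 _), Finset.mul_sum]
      rw [integral_add (integrable_finsetSum _ fun j _ => hs j) (pa.integrableOn.mul_const K),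
        integral_finsetSum _ fun j _ => hs j, add_div, Finset.sum_div, integral_mul_const]
      congr 1
      · refine Finset.sum_congr rfl fun j _ => ?_
        rw [← (emean_tail hA hε ia j).2, BM.avg, ← mul_div_assoc, ← integral_const_mul]
        simp only [mul_left_comm]
      · rw [show (∫ x in Ioo 0 h, sectAt A 0 x) = BM.mass (sectAt A 0) h from rfl]
        field_simp [pa.mass_pos.ne']
    have avB : BM.avg (sectAt B 0) k LB = ∑ j : Fin n, θ j.succ * emean ε B j.succ := by
      have hs : ∀ j : Fin n, IntegrableOn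
          (fun x => sectAt B 0 x * (θ j.succ * emean ε (slAt B 0 x) j)) (Ioo 0 k) := fun j => by
        simpa only [IntegrableOn, mul_left_comm] using (emean_tail hB hε ib j).1.const_mul (θ j.succ)
      simp only [BM.avg, LB, Finset.mul_sum]
      rw [integral_finsetSum _ fun j _ => hs j, Finset.sum_div]
      refine Finset.sum_congr rfl fun j _ => ?_
      rw [← (emean_tail hB hε ib j).2, BM.avg, ← mul_div_assoc, ← integral_const_mul]
      simp only [mul_left_comm]
    rw [avA, avB, emean_head hA hε ia, emean_head hB hε ib, sect_mass hA ia, sect_mass hB ib,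
      hmass] at key
    have hq : 4 * (1 + 8 / 3 * w ^ 2) * θ 0 ^ 2 ≤ 4 * θ 0 ^ 2 / D := by
      rw [le_div_iff₀ hD0]
      have h1 : (1 + 8 / 3 * w ^ 2) * D ≤ 1 := by rw [hD]; nlinarith [sq_nonneg (w ^ 2), sq_nonneg w]
      have := mul_le_mul_of_nonneg_left h1 (show (0:ℝ) ≤ 4 * θ 0 ^ 2 by positivity)
      linarith
    simp only [mul_sub, Finset.sum_sub_distrib] at key ⊢
    rw [Fin.sum_univ_succ, Fin.sum_univ_succ, Fin.sum_univ_succ, mul_add 4, add_div (4 * θ 0 ^ 2)]
    linarith

end Vale.Agent.P254.Uncond
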