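import Vale.Agent.P254.Uncond.Drop
import Vale.Agent.P254.Uncond.Gap
import Vale.Agent.P254.Uncond.ProfileVar

/-!
The induction step for the potential: one coordinate is split off with the one-variable
inequality and the choice of the coordinate is averaged.
-/

open MeasureTheory Set Filter Topology
open scoped Topology

namespace Vale.Agent.P254.Uncond

open Vale.Agent.P254.Sym

lemma slice_potential {m : ℕ} {s d : ℝ} (hP : Potential m s d) {A : Set (Fin (m + 1) → ℝ)}
    (hA : Down A) (i : Fin (m + 1)) (t : ℝ) :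
    sectAt A i t * (∑ j, lmean (slAt A i t) j) + s * (sectAt A i t * ∑ j, lvar (slAt A i t) j)
      + (m * (1 - s) - m * d) * sectAt A i t ≤ sectAt A i t * Real.log (sectAt A i t) := by
  rcases (sectAt_nonneg A i t).eq_or_lt with h | h
  · simp [← h]
  have h1 : ∑ j, (lmean (slAt A i t) j + 1 + s * (lvar (slAt A i t) j - 1)) - m * d ≤
      Real.log (sectAt A i t) := hP (slAt_down hA i t) h
  rw [Finset.sum_add_distrib, Finset.sum_add_distrib, ← Finset.mul_sum, Finset.sum_sub_distrib,
    Finset.sum_const, Finset.card_univ, Fintype.card_fin, nsmul_eq_mul, mul_one] at h1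
  have := mul_le_mul_of_nonneg_left h1 h.le
  nlinarith

/-- The step of the induction. -/
theorem Potential.step {m : ℕ} {s d A C a : ℝ} (hP : Potential m s d) (hs : 0 ≤ s)
    (h : OneDim A C a) (hC : C = 2 * s) {c e : ℝ} (hc : (m + 1) * c = A + m * s)
    (he : m * d + a ≤ (m + 1) * e) : Potential (m + 1) c e := by
  intro B hB hV
  have hG : GapBound := gapBound
  have hS := sectionFacts
  set V := volume.real B
  have hi : ∀ i, (∑ j, (lmean B j + 1 + s * (lvar B j - 1))) + (A - s) * (lvar B i - 1)
      - (m * d + a) ≤ Real.log V := by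
    intro i
    obtain ⟨R, hg⟩ := hS.prof hB hV i
    set g := sectAt B i
    have hdrop := dropBound hG hS hB hV i
    have hstep := hS.step hB hV i
    have hone := h hg
    have hgi : IntegrableOn g (Ioi 0) := hg.integrableOn_Ioi
    have hl : IntegrableOn (fun t => g t * ∑ j, lmean (slAt B i t) j) (Ioi 0) := by
      simp only [Finset.mul_sum]
      exact integrable_finsetSum _ fun j _ => (sect_split hB hV i j).1
    have hv : IntegrableOn (fun t => g t * ∑ j, lvar (slAt B i t) j) (Ioi 0) := by
      simp only [Finset.mul_sum]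
      exact integrable_finsetSum _ fun j _ => (Drop.total_variance hB hV j).1
    have h12 : IntegrableOn (fun t => g t * (∑ j, lmean (slAt B i t) j)
        + s * (g t * ∑ j, lvar (slAt B i t) j)) (Ioi 0) := hl.add (hv.const_mul s)
    have hint := setIntegral_mono (μ := volume) (s := Ioi (0:ℝ))
      (f := fun t => g t * (∑ j, lmean (slAt B i t) j) + s * (g t * ∑ j, lvar (slAt B i t) j)
        + (m * (1 - s) - m * d) * g t)
      (h12.add (hgi.const_mul _)) (integrableOn_sect_mul_log hB i)
      (slice_potential hP hB i)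
    rw [integral_add h12 (hgi.const_mul _), integral_add hl (hv.const_mul s), integral_const_mul,
      integral_const_mul] at hint
    have htot : ∫ t in Ioi (0:ℝ), g t = V := tot_sect hB i
    have hsum : ∫ t in Ioi (0:ℝ), g t * ∑ j, lmean (slAt B i t) j =
        V * ∑ j, lmean B (i.succAbove j) := by
      simp only [Finset.mul_sum]
      rw [integral_finsetSum _ fun j _ => (sect_split hB hV i j).1]
      exact Finset.sum_congr rfl fun j _ => by rw [← hS.split hB hV i j, mul_comm]
    rw [htot, hsum] at hint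
    change _ ≤ ∫ t in Ioi (0:ℝ), g t * Real.log (g t) at hint
    rw [hstep] at hint
    rw [le_div_iff₀ hV] at hdrop
    rw [← hS.var hB hV i] at hone
    rw [hC] at hone
    have h2 : V * (∑ j, lmean B (i.succAbove j)) +
        s * ((∑ j, lvar B (i.succAbove j) - 2 * curv g) * V) + (m * (1 - s) - m * d) * V ≤
        V * (Real.log V - gain g - lmean B i - 1) := by
      have := mul_le_mul_of_nonneg_left hdrop hs
      linarith
    have h3 : (∑ j, lmean B (i.succAbove j)) + s * (∑ j, lvar B (i.succAbove j) - 2 * curv g) +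
        (m * (1 - s) - m * d) ≤ Real.log V - gain g - lmean B i - 1 := by
      refine le_of_mul_le_mul_left ?_ hV
      linarith
    have e0 : (∑ j, (lmean B j + 1 + s * (lvar B j - 1))) =
        (lmean B i + 1 + s * (lvar B i - 1)) + ((∑ j, lmean B (i.succAbove j)) + m
          + s * ((∑ j, lvar B (i.succAbove j)) - m)) := by
      rw [Fin.sum_univ_succAbove _ i, Finset.sum_add_distrib, Finset.sum_add_distrib,
        ← Finset.mul_sum, Finset.sum_sub_distrib, Finset.sum_const, Finset.card_univ,
        Fintype.card_fin, nsmul_eq_mul, mul_one]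
    rw [e0]
    linarith
  have hsum := Finset.sum_le_sum (s := Finset.univ) fun i _ => hi i
  rw [Finset.sum_sub_distrib, Finset.sum_add_distrib, ← Finset.mul_sum] at hsum
  simp only [Finset.sum_const, Finset.card_univ, Fintype.card_fin, nsmul_eq_mul,
    Finset.sum_add_distrib, ← Finset.mul_sum, Finset.sum_sub_distrib] at hsum
  push_cast at hsum
  simp only [Finset.sum_add_distrib, ← Finset.mul_sum, Finset.sum_sub_distrib,
    Finset.sum_const, Finset.card_univ, Fintype.card_fin, nsmul_eq_mul]
  push_cast
  have hm : (0:ℝ) < (m:ℝ) + 1 := by positivity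
  refine le_of_mul_le_mul_left ?_ hm
  have hc' : ((m:ℝ) + 1) * c - ((m:ℝ) + 1) * s = A - s := by linarith
  have e1 := congrArg (fun z => z * ((∑ x, lvar B x) - ((m:ℝ) + 1) * 1)) hc'
  have e2 := mul_le_mul_of_nonneg_left he hm.le
  linarith

theorem potential_zero (c : ℝ) : Potential 0 c 0 := by
  intro A hA hV
  have hA1 : volume.real A = 1 := by
    have hne : A.Nonempty := by
      by_contra h
      rw [Set.not_nonempty_iff_eq_empty] at h
      simp [h] at hV
    rw [Subsingleton.eq_univ_of_nonempty hne, measureReal_def, volume_pi, Measure.pi_univ]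
    simp
  simp [hA1]

/-- Convex combinations of one-variable inequalities. -/
theorem OneDim.comb {A₁ C₁ a₁ A₂ C₂ a₂ l μ A C a : ℝ} (h₁ : OneDim A₁ C₁ a₁)
    (h₂ : OneDim A₂ C₂ a₂) (h₀ : OneDim 0 0 0) (hl : 0 ≤ l) (hμ : 0 ≤ μ) (hlμ : l + μ ≤ 1)
    (hA : A = l * A₁ + μ * A₂) (hC : C = l * C₁ + μ * C₂) (ha : l * a₁ + μ * a₂ ≤ a) :
    OneDim A C a := by
  intro g R hg
  have e₁ := mul_le_mul_of_nonneg_left (h₁ hg) hl
  have e₂ := mul_le_mul_of_nonneg_left (h₂ hg) hμ
  have e₀ := mul_le_mul_of_nonneg_left (h₀ hg) (sub_nonneg.2 hlμ)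
  subst hA hC
  linarith

/-- The primitive of `exp (-u) log (exp u - 1)`. -/
noncomputable def gainPrim (u : ℝ) : ℝ :=
  -(u * Real.exp (-u)) + (1 - Real.exp (-u)) * Real.log (1 - Real.exp (-u))

lemma integral_exp_log_expm1 :
    IntegrableOn (fun u => Real.exp (-u) * Real.log (Real.exp u - 1)) (Ioi 0) ∧
      ∫ u in Ioi (0:ℝ), Real.exp (-u) * Real.log (Real.exp u - 1) = 0 := by
  have hsplit : ∀ u : ℝ, 0 < u → Real.log (Real.exp u - 1) = u + Real.log (1 - Real.exp (-u)) := by
    intro u hu
    have hq : 0 < 1 - Real.exp (-u) := by linarith [Real.exp_lt_one_iff.2 (neg_neg_of_pos hu)]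
    have h1 : Real.exp u - 1 = Real.exp u * (1 - Real.exp (-u)) := by
      rw [mul_sub, ← Real.exp_add, add_neg_cancel, Real.exp_zero, mul_one]
    rw [h1, Real.log_mul (Real.exp_pos u).ne' hq.ne', Real.log_exp]
  have hd : ∀ u ∈ Ioi (0:ℝ), HasDerivAt gainPrim
      (Real.exp (-u) * Real.log (Real.exp u - 1)) u := by
    intro u hu
    have hu : (0:ℝ) < u := hu
    have hq : 0 < 1 - Real.exp (-u) := by linarith [Real.exp_lt_one_iff.2 (neg_neg_of_pos hu)]
    have he : HasDerivAt (fun u : ℝ => Real.exp (-u)) (-Real.exp (-u)) u := by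
      simpa using (hasDerivAt_id u).neg.exp
    have h1 := he.const_sub 1
    have h2 := (((hasDerivAt_id u).mul he).neg).add (h1.mul (h1.log hq.ne'))
    refine (h2.congr_deriv ?_).congr_of_eventuallyEq (Eventually.of_forall fun x => ?_)
    · rw [hsplit u hu]
      simp only [id_eq]
      field_simp
      ring
    · simp [gainPrim]
  have hint : IntegrableOn (fun u => Real.exp (-u) * Real.log (Real.exp u - 1)) (Ioi 0) := by
    refine (integrableOn_exp_mul_log.add integrableOn_exp_mul_id).mono'
      (by fun_prop : Measurable fun u : ℝ =>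
        Real.exp (-u) * Real.log (Real.exp u - 1)).aestronglyMeasurable ?_
    refine (ae_restrict_mem measurableSet_Ioi).mono fun u hu => ?_
    have hu : (0:ℝ) < u := hu
    rw [Real.norm_eq_abs, abs_mul, abs_of_pos (Real.exp_pos _)]
    simp only [Pi.add_apply, ← mul_add]
    refine mul_le_mul_of_nonneg_left ?_ (Real.exp_pos _).le
    have h0 : u ≤ Real.exp u - 1 := by linarith [Real.add_one_le_exp u]
    have h1 := Real.log_le_log hu h0
    have h2 := Real.log_le_log (lt_of_lt_of_le hu h0) (sub_le_self (Real.exp u) zero_le_one)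
    rw [Real.log_exp] at h2
    rw [abs_le]
    constructor <;> linarith [neg_abs_le (Real.log u), le_abs_self (Real.log u)]
  have hcont : Continuous gainPrim := by
    unfold gainPrim
    exact (continuous_id.mul (Real.continuous_exp.comp continuous_neg)).neg.add
      (Real.continuous_mul_log.comp (continuous_const.sub (Real.continuous_exp.comp continuous_neg)))
  have h0 : Tendsto gainPrim atTop (𝓝 0) := by
    have he : Tendsto (fun u : ℝ => Real.exp (-u)) atTop (𝓝 0) := Real.tendsto_exp_neg_atTop_nhds_zero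
    have h1 : Tendsto (fun u : ℝ => u * Real.exp (-u)) atTop (𝓝 0) := by
      simpa using Real.tendsto_pow_mul_exp_neg_atTop_nhds_zero 1
    have h2 := Real.continuous_mul_log.continuousAt.tendsto.comp
      ((tendsto_const_nhds (x := (1:ℝ))).sub he)
    unfold gainPrim
    simpa [Function.comp_def] using h1.neg.add h2
  refine ⟨hint, ?_⟩
  rw [integral_Ioi_of_hasDerivAt_of_tendsto hcont.continuousWithinAt hd hint h0]
  simp [gainPrim]

/-- The gain is nonnegative. -/
theorem oneDim_zero : OneDim 0 0 0 := by
  intro g R hg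
  obtain ⟨hi, he⟩ := integral_exp_log_expm1
  have hle : ∫ t in Ioo 0 R, g t * Real.log (vrat g t) ≤ 0 := by
    refine (setIntegral_mono_on hg.integrable_mul_log_vrat
      ((hg.integrable_haz_iff fun u => Real.log (Real.exp u - 1)).2 hi) measurableSet_Ioo
      fun t ht => mul_le_mul_of_nonneg_left ?_ (hg.g_pos ht).le).trans ?_
    · exact Real.log_le_log (hg.vrat_pos ht) (hg.vrat_le_exp ht)
    · rw [hg.integral_haz fun u => Real.log (Real.exp u - 1), he, mul_zero]
  rw [hg.gain_eq]
  have : (∫ t in Ioo 0 R, g t * Real.log (vrat g t)) / tot g ≤ 0 :=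
    div_nonpos_of_nonpos_of_nonneg hle hg.tot_pos.le
  linarith

end Vale.Agent.P254.Uncond
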