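import Vale.Agent.P254.Uncond.Induct

/-!
The seven one-variable inequalities on the knot line `(c + b, 2 c)`, and linking a step to a
convex combination of two of them.
-/

namespace Vale.Agent.P254.Uncond

/-- One-variable inequalities at the knots `(c, b) = (.05, .55), (.1, .585), (.15, .62),
(.25, .67), (.35, .73), (.45, .8), (.525, .87)`, weights `(c + b, 2 c)`. -/
structure Knots : Prop where
  k0 : OneDim (3 / 5) (1 / 10) (46 / 10000)
  k1 : OneDim (137 / 200) (1 / 5) (53 / 10000)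
  k2 : OneDim (77 / 100) (3 / 10) (196 / 10000)
  k3 : OneDim (23 / 25) (1 / 2) (802 / 10000)
  k4 : OneDim (27 / 25) (7 / 10) (1728 / 10000)
  k5 : OneDim (5 / 4) (9 / 10) (2840 / 10000)
  k6 : OneDim (279 / 200) (21 / 20) (3795 / 10000)

/-- A step of the induction whose weights are a combination of two one-variable inequalities. -/
theorem Potential.link {m : ℕ} {s d A₁ C₁ a₁ A₂ C₂ a₂ : ℝ} (hP : Potential m s d)
    (h₁ : OneDim A₁ C₁ a₁) (h₂ : OneDim A₂ C₂ a₂) (l μ : ℝ) {c e : ℝ}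
    (h : 0 ≤ s ∧ 0 ≤ l ∧ 0 ≤ μ ∧ l + μ ≤ 1 ∧ l * C₁ + μ * C₂ = 2 * s ∧
      l * A₁ + μ * A₂ + m * s = (m + 1) * c ∧ m * d + (l * a₁ + μ * a₂) ≤ (m + 1) * e) :
    Potential (m + 1) c e := by
  obtain ⟨hs, hl, hμ, hlμ, hC, hA, he⟩ := h
  exact hP.step hs (h₁.comb h₂ oneDim_zero hl hμ hlμ rfl rfl le_rfl) hC hA.symm he

end Vale.Agent.P254.Uncond
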