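import Vale.Agent.P254.Uncond.Facts
import Vale.Agent.P254.Uncond.Endgame

/-!
The pyramid lift: the final requirement for log-concave profiles, applied to iterated pyramids
over a downset of dimension `n`, gives a stronger bound in dimension `n`.
-/

open MeasureTheory Set
open scoped Pointwise Topology

namespace Vale.Agent.P254.Uncond

open Vale.Agent.P254.Sym

variable {n : ℕ}

/-- The pyramid over a set. -/
def pyr (A : Set (Fin n → ℝ)) : Set (Fin (n + 1) → ℝ) :=
  (fun p : ℝ × (Fin n → ℝ) => (Fin.cons p.1 ((1 - p.1) • p.2) : Fin (n + 1) → ℝ)) ''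
    (Icc (0:ℝ) 1 ×ˢ A)

lemma mem_pyr {A : Set (Fin n → ℝ)} {x : Fin (n + 1) → ℝ} :
    x ∈ pyr A ↔ x 0 ∈ Icc (0:ℝ) 1 ∧ ∃ a ∈ A, (1 - x 0) • a = Fin.tail x := by
  constructor
  · rintro ⟨⟨z, a⟩, ⟨hz, ha⟩, rfl⟩
    exact ⟨by simpa using hz, a, ha, by simp⟩
  · rintro ⟨hz, a, ha, h⟩
    exact ⟨(x 0, a), ⟨hz, ha⟩, by simp only [h]; exact Fin.cons_self_tail x⟩

lemma pyr_down {A : Set (Fin n → ℝ)} (hA : Down A) : Down (pyr A) := by
  refine ⟨?_, ?_, ?_, ?_⟩
  · refine (isCompact_Icc.prod hA.compact).image ?_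
    exact Continuous.finCons continuous_fst
      ((continuous_const.sub continuous_fst).smul continuous_snd)
  · intro x hx y hy a b ha hb hab
    obtain ⟨hx0, p, hp, hpe⟩ := mem_pyr.1 hx
    obtain ⟨hy0, q, hq, hqe⟩ := mem_pyr.1 hy
    have h0 : (a • x + b • y) 0 = a * x 0 + b * y 0 := by simp
    have hu : a * x 0 + b * y 0 ∈ Icc (0:ℝ) 1 := by
      have := (convex_Icc (0:ℝ) 1) hx0 hy0 ha hb hab
      simpa using this
    refine mem_pyr.2 ⟨by rw [h0]; exact hu, ?_⟩
    have hmem : (a * (1 - x 0)) • p + (b * (1 - y 0)) • q ∈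
        (a * (1 - x 0) + b * (1 - y 0)) • A := by
      rw [hA.convex.add_smul (mul_nonneg ha (by linarith [hx0.2]))
        (mul_nonneg hb (by linarith [hy0.2]))]
      exact Set.add_mem_add (smul_mem_smul_set hp) (smul_mem_smul_set hq)
    obtain ⟨r, hr, hre⟩ := hmem
    refine ⟨r, hr, ?_⟩
    rw [h0, show 1 - (a * x 0 + b * y 0) = a * (1 - x 0) + b * (1 - y 0) by
      linear_combination (-1:ℝ) * hab]
    simp only at hre
    rw [hre, mul_smul, mul_smul, hpe, hqe]
    rfl
  · intro x hx
    obtain ⟨hx0, p, hp, hpe⟩ := mem_pyr.1 hx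
    refine Fin.cases hx0.1 fun j => ?_
    have := congrFun hpe j
    simp only [Pi.smul_apply, smul_eq_mul, Fin.tail] at this
    rw [← this]
    exact mul_nonneg (by linarith [hx0.2]) (hA.nonneg p hp j)
  · intro x hx y hy
    obtain ⟨hx0, p, hp, hpe⟩ := mem_pyr.1 hx
    have hy0 : y 0 ∈ Icc (0:ℝ) 1 := ⟨(hy 0).1, (hy 0).2.trans hx0.2⟩
    refine mem_pyr.2 ⟨hy0, ?_⟩
    have hj : ∀ j : Fin n, 0 ≤ y j.succ ∧ y j.succ ≤ (1 - y 0) * p j := fun j => by
      refine ⟨(hy j.succ).1, (hy j.succ).2.trans ?_⟩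
      have := congrFun hpe j
      simp only [Pi.smul_apply, smul_eq_mul, Fin.tail] at this
      rw [← this]
      exact mul_le_mul_of_nonneg_right (by linarith [(hy 0).2]) (hA.nonneg p hp j)
    rcases hy0.2.eq_or_lt with h1 | h1
    · refine ⟨p, hp, funext fun j => ?_⟩
      have := hj j
      simp only [h1, sub_self, zero_mul] at this
      simp only [h1, sub_self, zero_smul, Pi.zero_apply, Fin.tail]
      linarith
    · have hs : (0:ℝ) < 1 - y 0 := by linarith
      refine ⟨fun j => y j.succ / (1 - y 0), hA.lower p hp _ fun j =>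
        ⟨div_nonneg (hj j).1 hs.le, ?_⟩, funext fun j => ?_⟩
      · rw [div_le_iff₀ hs, mul_comm]
        exact (hj j).2
      · simp only [Pi.smul_apply, smul_eq_mul, Fin.tail]
        field_simp

lemma slAt_pyr (A : Set (Fin n → ℝ)) {z : ℝ} (hz : z ∈ Icc (0:ℝ) 1) :
    slAt (pyr A) 0 z = (1 - z) • A := by
  ext w
  simp only [slAt, mem_ofPred_eq, Fin.insertNth_zero']
  rw [mem_pyr]
  simp only [Fin.cons_zero, Fin.tail_cons, mem_smul_set]
  exact and_iff_right hz

lemma slAt_pyr_empty (A : Set (Fin n → ℝ)) {z : ℝ} (hz : 1 < z) : slAt (pyr A) 0 z = ∅ := by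
  refine eq_empty_iff_forall_notMem.2 fun w hw => ?_
  simp only [slAt, mem_ofPred_eq, Fin.insertNth_zero'] at hw
  have := (mem_pyr.1 hw).1.2
  simp only [Fin.cons_zero] at this
  linarith

/-- Integrals over a pyramid of a function which does not see the new coordinate. -/
theorem pyr_integral {A : Set (Fin n → ℝ)} (hA : Down A) (hne : A.Nonempty) (hn : 0 < n)
    {F : (Fin n → ℝ) → ℝ} (hF : IntegrableOn (fun x => F (Fin.tail x)) (pyr A)) :
    ∫ x in pyr A, F (Fin.tail x) =
      ∫ z in (0:ℝ)..1, (1 - z) ^ n * ∫ a in A, F ((1 - z) • a) := by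
  have h := (slice_integral_gen (pyr_down hA) 0 hF).2
  simp only [Fin.insertNth_zero', Fin.tail_cons] at h
  rw [h, intervalIntegral.integral_of_le zero_le_one, integral_Ioc_eq_integral_Ioo]
  rw [setIntegral_eq_of_subset_of_forall_sdiff_eq_zero measurableSet_Ioi
    (show Ioo (0:ℝ) 1 ⊆ Ioi 0 from Ioo_subset_Ioi_self) fun z hz => ?_]
  · refine setIntegral_congr_fun measurableSet_Ioo fun z hz => ?_
    have hs : (0:ℝ) < 1 - z := by linarith [hz.2]
    rw [slAt_pyr A ⟨hz.1.le, hz.2.le⟩, Measure.setIntegral_comp_smul_of_pos volume F A hs,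
      smul_eq_mul, Module.finrank_fin_fun, ← mul_assoc, mul_inv_cancel₀ (pow_pos hs n).ne',
      one_mul]
  · have hz0 : (0:ℝ) < z := hz.1
    have hz1 : 1 ≤ z := not_lt.1 fun h1 => hz.2 ⟨hz0, h1⟩
    rcases hz1.eq_or_lt with h1 | h1
    · subst h1
      rw [slAt_pyr A (right_mem_Icc.2 zero_le_one), sub_self, Set.zero_smul_set hne]
      have : Nonempty (Fin n) := ⟨⟨0, hn⟩⟩
      exact setIntegral_measure_zero _ (measure_singleton (0 : Fin n → ℝ))
    · simp [slAt_pyr_empty A h1]

/-- Moments of `u ^ n` against powers of `log`. -/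
lemma pow_log_moment {n : ℕ} (hn : 0 < n) :
    IntervalIntegrable (fun u : ℝ => u ^ n * Real.log u) volume 0 1 ∧
    IntervalIntegrable (fun u : ℝ => u ^ n * Real.log u ^ 2) volume 0 1 ∧
    ∫ u in (0:ℝ)..1, u ^ n * Real.log u = -(1 / (n + 1) ^ 2) ∧
    ∫ u in (0:ℝ)..1, u ^ n * Real.log u ^ 2 = 2 / (n + 1) ^ 3 := by
  obtain ⟨m, rfl⟩ : ∃ m, n = m + 1 := ⟨n - 1, by omega⟩
  have hc1 : Continuous fun u : ℝ => u ^ (m + 1) * Real.log u := by
    refine ((continuous_pow m).mul Real.continuous_mul_log).congr fun u => ?_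
    simp only [Pi.mul_apply]
    ring
  have hc2 : Continuous fun u : ℝ => u ^ (m + 2) * Real.log u := by
    refine ((continuous_pow (m + 1)).mul Real.continuous_mul_log).congr fun u => ?_
    simp only [Pi.mul_apply]
    ring
  have hc3 : Continuous fun u : ℝ => u ^ (m + 2) * Real.log u ^ 2 := by
    refine ((continuous_pow m).mul (Real.continuous_mul_log.pow 2)).congr fun u => ?_
    simp only [Pi.mul_apply, Pi.pow_apply]
    ring
  have hi2 : IntervalIntegrable (fun u : ℝ => u ^ (m + 1) * Real.log u ^ 2) volume 0 1 :=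
    ((intervalIntegrable_iff_integrableOn_Icc_of_le zero_le_one).2
      ((integrableOn_log_sq_Icc 1 zero_le_one).continuousOn_mul
        (continuous_pow (m + 1)).continuousOn isCompact_Icc))
  set k : ℝ := ((m + 1 : ℕ) : ℝ) + 1 with hk
  have hk0 : k ≠ 0 := by positivity
  refine ⟨hc1.intervalIntegrable _ _, hi2, ?_, ?_⟩
  · have hd : ∀ u ∈ Ioo (0:ℝ) 1, HasDerivAt
        (fun u => u ^ (m + 2) * Real.log u / k - u ^ (m + 2) / k ^ 2)
        (u ^ (m + 1) * Real.log u) u := by
      intro u hu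
      have h1 := ((hasDerivAt_pow (m + 2) u).mul (Real.hasDerivAt_log hu.1.ne')).div_const k
      have h2 := (hasDerivAt_pow (m + 2) u).div_const (k ^ 2)
      refine (h1.sub h2).congr_deriv ?_
      have hu0 := hu.1.ne'
      rw [hk] at *
      push_cast at *
      field_simp
      ring
    rw [intervalIntegral.integral_eq_sub_of_hasDerivAt_of_le zero_le_one
      ((hc2.div_const _).sub ((continuous_pow _).div_const _)).continuousOn hd
      (hc1.intervalIntegrable _ _)]
    simp [hk, zero_pow]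
  · have hd : ∀ u ∈ Ioo (0:ℝ) 1, HasDerivAt
        (fun u => u ^ (m + 2) * Real.log u ^ 2 / k - 2 * (u ^ (m + 2) * Real.log u) / k ^ 2 +
          2 * u ^ (m + 2) / k ^ 3)
        (u ^ (m + 1) * Real.log u ^ 2) u := by
      intro u hu
      have hl := Real.hasDerivAt_log hu.1.ne'
      have h1 := ((hasDerivAt_pow (m + 2) u).mul (hl.pow 2)).div_const k
      have h2 := (((hasDerivAt_pow (m + 2) u).mul hl).const_mul (2:ℝ)).div_const (k ^ 2)
      have h3 := ((hasDerivAt_pow (m + 2) u).const_mul (2:ℝ)).div_const (k ^ 3)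
      refine ((h1.sub h2).add h3).congr_deriv ?_
      have hu0 := hu.1.ne'
      rw [hk] at *
      push_cast at *
      simp only [Pi.pow_apply]
      field_simp
      ring
    rw [intervalIntegral.integral_eq_sub_of_hasDerivAt_of_le zero_le_one
      (((hc3.div_const _).sub ((continuous_const.mul hc2).div_const _)).add
        ((continuous_const.mul (continuous_pow _)).div_const _)).continuousOn hd hi2]
    simp [hk, zero_pow]

lemma tail_integrable {A : Set (Fin n → ℝ)} (hA : Down A) (i : Fin n)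
    {f : ℝ → ℝ} (hf : ∀ R : ℝ, 0 ≤ R → IntegrableOn f (Icc 0 R)) :
    IntegrableOn (fun x => f (Fin.tail x i)) (pyr A) :=
  integrableOn_coord (pyr_down hA) i.succ hf

/-- The moments of a coordinate of a pyramid. -/
theorem pyr_moments {A : Set (Fin n → ℝ)} (hA : Down A) (hV : 0 < volume.real A) (i : Fin n) :
    0 < volume.real (pyr A) ∧
    lmean (pyr A) i.succ = lmean A i - 1 / (n + 1) ∧
    lvar (pyr A) i.succ = lvar A i + 1 / (n + 1) ^ 2 ∧
    (∫ x in pyr A, x i.succ ^ 2) / volume.real (pyr A) =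
      (∫ x in A, x i ^ 2) / volume.real A * ((n + 1) / (n + 3)) := by
  have hn : 0 < n := i.pos
  have hne : A.Nonempty := by
    by_contra h
    simp [not_nonempty_iff_eq_empty.1 h] at hV
  obtain ⟨hI1, hI2, hM1, hM2⟩ := pow_log_moment hn
  set V := volume.real A with hVd
  set M := lmean A i with hM
  set k : ℝ := (n:ℝ) + 1 with hk
  have hk0 : (0:ℝ) < k := by positivity
  have hae : ∀ᵐ a ∂volume.restrict A, a i ≠ 0 :=
    ae_restrict_of_ae (measure_eq_zero_iff_ae_notMem.1
      (show volume {a : Fin n → ℝ | a i = 0} = 0 from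
        Measure.pi_hyperplane (μ := fun _ : Fin n => (volume : Measure ℝ)) i 0))
  have hc : ∀ C : ℝ, IntegrableOn (fun _ : Fin n → ℝ => C) A := fun C =>
    integrableOn_const hA.finite
  have hlog : ∫ a in A, Real.log (a i) = M * V := by
    rw [hM, lmean, div_mul_cancel₀ _ hV.ne']
  have hsub : ∀ f : ℝ → ℝ, (∫ z in (0:ℝ)..1, f (1 - z)) = ∫ z in (0:ℝ)..1, f z := fun f => by
    rw [intervalIntegral.integral_comp_sub_left]; norm_num
  have hpow : ∀ j : ℕ, (∫ z in (0:ℝ)..1, z ^ j) = 1 / ((j:ℝ) + 1) := fun j => by simp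
  have hvol : volume.real (pyr A) = V / k := by
    have h := pyr_integral hA hne hn (F := fun _ => (1:ℝ))
      (integrableOn_const (pyr_down hA).finite)
    simp only [setIntegral_const, smul_eq_mul, mul_one] at h
    rw [h, hsub fun u => u ^ n * V, intervalIntegral.integral_mul_const, hpow]
    ring
  have hpos : 0 < volume.real (pyr A) := by rw [hvol]; positivity
  have hmean : lmean (pyr A) i.succ = M - 1 / k := by
    have h := pyr_integral hA hne hn (F := fun a => Real.log (a i))
      (tail_integrable hA i integrableOn_log_Icc)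
    have e : ∀ z ∈ Ioo (0:ℝ) 1, (∫ a in A, Real.log (((1 - z) • a) i)) =
        Real.log (1 - z) * V + M * V := by
      intro z hz
      rw [show (∫ a in A, Real.log (((1 - z) • a) i)) =
        ∫ a in A, (Real.log (1 - z) + Real.log (a i)) from
        integral_congr_ae (hae.mono fun a ha => by
          simp only [Pi.smul_apply, smul_eq_mul]
          exact Real.log_mul (by linarith [hz.2]) ha)]
      rw [integral_add (hc _) (integrableOn_log_coord hA i),
        setIntegral_const, hlog]
      simp [hVd, mul_comm]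
    rw [intervalIntegral.integral_congr_Ioo_of_le
      (g := fun z => (1 - z) ^ n * (Real.log (1 - z) * V + M * V)) zero_le_one
      (fun z hz => by simp only [e z hz])] at h
    rw [hsub fun u => u ^ n * (Real.log u * V + M * V)] at h
    rw [intervalIntegral.integral_congr (g := fun u =>
      V * (u ^ n * Real.log u) + M * V * u ^ n) (fun u _ => by ring)] at h
    have hp : IntervalIntegrable (fun u : ℝ => M * V * u ^ n) volume 0 1 :=
      (continuous_const.mul (continuous_pow n)).intervalIntegrable _ _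
    rw [intervalIntegral.integral_add (hI1.const_mul V) hp,
      intervalIntegral.integral_const_mul, intervalIntegral.integral_const_mul, hM1, hpow] at h
    simp only [lmean, Fin.tail] at h ⊢
    rw [h, hvol, hM, lmean]
    field_simp
    ring
  refine ⟨hpos, hmean, ?_, ?_⟩
  · have h := pyr_integral hA hne hn (F := fun a => (Real.log (a i) - (M - 1 / k)) ^ 2)
      (tail_integrable hA i (integrableOn_log_sub_sq_Icc _))
    have e : ∀ z ∈ Ioo (0:ℝ) 1, (∫ a in A, (Real.log (((1 - z) • a) i) - (M - 1 / k)) ^ 2) =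
        lvar A i * V + (Real.log (1 - z) + 1 / k) ^ 2 * V := by
      intro z hz
      rw [show (∫ a in A, (Real.log (((1 - z) • a) i) - (M - 1 / k)) ^ 2) =
        ∫ a in A, ((Real.log (a i) - M) ^ 2 + ((2 * (Real.log (1 - z) + 1 / k)) *
          (Real.log (a i) - M) + (Real.log (1 - z) + 1 / k) ^ 2)) from
        integral_congr_ae (hae.mono fun a ha => by
          simp only [Pi.smul_apply, smul_eq_mul]
          rw [Real.log_mul (by linarith [hz.2]) ha]
          ring)]
      have i1 := integrableOn_log_sq_coord hA i M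
      have i2 : IntegrableOn (fun a => (2 * (Real.log (1 - z) + 1 / k)) *
          (Real.log (a i) - M)) A :=
        ((integrableOn_log_coord hA i).sub (hc M)).const_mul _
      have i3 : IntegrableOn (fun a => (2 * (Real.log (1 - z) + 1 / k)) *
          (Real.log (a i) - M) + (Real.log (1 - z) + 1 / k) ^ 2) A := i2.add (hc _)
      rw [integral_add i1 i3,
        integral_add i2 (hc _), integral_const_mul,
        integral_sub (integrableOn_log_coord hA i) (hc M),
        setIntegral_const, setIntegral_const, hlog, lvar, div_mul_cancel₀ _ hV.ne']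
      simp only [smul_eq_mul, hVd, hM]
      ring
    rw [intervalIntegral.integral_congr_Ioo_of_le
      (g := fun z => (1 - z) ^ n * (lvar A i * V + (Real.log (1 - z) + 1 / k) ^ 2 * V)) zero_le_one
      (fun z hz => by simp only [e z hz])] at h
    rw [hsub fun u => u ^ n * (lvar A i * V + (Real.log u + 1 / k) ^ 2 * V)] at h
    rw [intervalIntegral.integral_congr (g := fun u =>
      V * (u ^ n * Real.log u ^ 2) + (2 * V / k) * (u ^ n * Real.log u) +
        (lvar A i * V + V / k ^ 2) * u ^ n) (fun u _ => by ring_nf)] at h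
    have hp : IntervalIntegrable
        (fun u : ℝ => (lvar A i * V + V / k ^ 2) * u ^ n) volume 0 1 :=
      (continuous_const.mul (continuous_pow n)).intervalIntegrable _ _
    have hp2 : IntervalIntegrable
        (fun u : ℝ => V * (u ^ n * Real.log u ^ 2) + 2 * V / k * (u ^ n * Real.log u)) volume 0 1 :=
      (hI2.const_mul _).add (hI1.const_mul _)
    rw [intervalIntegral.integral_add hp2 hp,
      intervalIntegral.integral_add (hI2.const_mul _) (hI1.const_mul _),
      intervalIntegral.integral_const_mul, intervalIntegral.integral_const_mul,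
      intervalIntegral.integral_const_mul, hM1, hM2, hpow] at h
    rw [lvar, hmean]
    simp only [Fin.tail] at h
    rw [h, hvol]
    rw [← hk]
    field_simp
    ring
  · have h := pyr_integral hA hne hn (F := fun a => a i ^ 2)
      (tail_integrable hA i fun R _ => (continuous_pow 2).continuousOn.integrableOn_Icc)
    have e : ∀ z : ℝ, (1 - z) ^ n * (∫ a in A, ((1 - z) • a) i ^ 2) =
        (1 - z) ^ (n + 2) * ∫ a in A, a i ^ 2 := by
      intro z
      simp only [Pi.smul_apply, smul_eq_mul, mul_pow, integral_const_mul]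
      ring
    simp only [e] at h
    rw [hsub fun u => u ^ (n + 2) * ∫ a in A, a i ^ 2, intervalIntegral.integral_mul_const,
      hpow] at h
    simp only [Fin.tail] at h
    rw [h, hvol, hk]
    push_cast
    field_simp
    ring

/-- The gain of one pyramid step. -/
noncomputable def liftTerm (k c : ℝ) : ℝ := 1 / k - c / k ^ 2 - (Real.log (k + 2) - Real.log k) / 2

lemma coordBound_step {c e : ℝ} (h : CoordBound (n + 1) c e) :
    CoordBound n c (e + liftTerm ((n:ℝ) + 1) c) := by
  intro A hA hV i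
  have hne : A.Nonempty := by
    by_contra h'
    simp [not_nonempty_iff_eq_empty.1 h'] at hV
  obtain ⟨hpos, hm, hv, hs⟩ := pyr_moments hA hV i
  have hb := h (pyr_down hA) hpos i.succ
  rw [hm, hv, hs] at hb
  have hq : 0 < (∫ x in A, x i ^ 2) / volume.real A := div_pos (second_pos hA hV i) hV
  have hn1 : (0:ℝ) < n + 1 := by positivity
  have hn3 : (0:ℝ) < n + 3 := by positivity
  rw [Real.log_mul hq.ne' (div_pos hn1 hn3).ne', Real.log_div hn1.ne' hn3.ne'] at hb
  rw [liftTerm, show (n:ℝ) + 1 + 2 = n + 3 by ring]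
  have e1 : c * (lvar A i + 1 / ((n:ℝ) + 1) ^ 2 - 1) =
      c * (lvar A i - 1) + c / ((n:ℝ) + 1) ^ 2 := by ring
  linarith [e1]

lemma coordBound_iterate {c e : ℝ} (h : ∀ m, CoordBound m c e) :
    ∀ M n : ℕ, CoordBound n c (e + ∑ j ∈ Finset.range M, liftTerm ((n:ℝ) + 1 + j) c) := by
  intro M
  induction M with
  | zero => intro n A hA hV i; simpa using h n hA hV i
  | succ M ih =>
    intro n A hA hV i
    have := coordBound_step (n := n) (fun {A} => ih (n + 1) (A := A)) hA hV i
    rw [Finset.sum_range_succ']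
    simp only [Nat.cast_add, Nat.cast_one, Nat.cast_zero, add_zero] at this ⊢
    convert this using 1
    have e1 : ∀ j : ℕ, (n:ℝ) + 1 + ((j:ℝ) + 1) = (n:ℝ) + 1 + 1 + (j:ℝ) := fun j => by ring
    simp only [e1]
    ring

/-- The third-order bound for `log ((1 + s) / (1 - s)) / 2`. -/
lemma artanh_le {s : ℝ} (h0 : 0 ≤ s) (h1 : s < 1) :
    (Real.log (1 + s) - Real.log (1 - s)) / 2 ≤ s + s ^ 3 / (3 * (1 - s ^ 2)) := by
  set f : ℝ → ℝ := fun t =>
    t + t ^ 3 / (3 * (1 - t ^ 2)) - (Real.log (1 + t) - Real.log (1 - t)) / 2 with hf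
  set d : ℝ → ℝ := fun t => 2 * t ^ 4 / (3 * (1 - t ^ 2) ^ 2) with hd
  have hder : ∀ t ∈ Ico (0:ℝ) 1, HasDerivAt f (d t) t := by
    intro t ht
    have hp : 0 < 1 + t := by linarith [ht.1]
    have hm : 0 < 1 - t := by linarith [ht.2]
    have hq : 0 < 1 - t ^ 2 := by nlinarith
    have l1 := ((hasDerivAt_id t).const_add (1:ℝ)).log hp.ne'
    have l2 := ((hasDerivAt_id t).const_sub (1:ℝ)).log hm.ne'
    have q := (hasDerivAt_pow 3 t).div (((hasDerivAt_pow 2 t).const_sub (1:ℝ)).const_mul (3:ℝ))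
      (by positivity)
    refine (((hasDerivAt_id t).add q).sub ((l1.sub l2).div_const 2)).congr_deriv ?_
    simp only [hd, id_eq]
    field_simp
    ring
  have hmono : MonotoneOn f (Ico 0 1) := by
    refine monotoneOn_of_hasDerivWithinAt_nonneg (f' := d) (convex_Ico _ _)
      (fun t ht => (hder t ht).continuousAt.continuousWithinAt)
      (fun t ht => (hder t (interior_subset ht)).hasDerivWithinAt) fun t ht => ?_
    simp only [hd]
    positivity
  have := hmono (left_mem_Ico.2 zero_lt_one) ⟨h0, h1⟩ h0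
  simp only [hf] at this
  norm_num at this
  linarith

/-- The telescoping lower bound for the lift terms. -/
noncomputable def liftPot (k c : ℝ) : ℝ := 1 / k - c / (k - 1 / 2) - 1 / (6 * k * (k + 1))

lemma liftTerm_ge {k c : ℝ} (hk : 1 ≤ k) (hc : 0 ≤ c) :
    liftPot k c - liftPot (k + 1) c ≤ liftTerm k c := by
  have hk0 : 0 < k := by linarith
  have h := artanh_le (s := 1 / (k + 1)) (by positivity)
    (by rw [div_lt_one (by positivity)]; linarith)
  have e1 : 1 + 1 / (k + 1) = (k + 2) / (k + 1) := by field_simp; ring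
  have e2 : 1 - 1 / (k + 1) = k / (k + 1) := by field_simp; ring
  rw [e1, e2, Real.log_div (by positivity) (by positivity),
    Real.log_div hk0.ne' (by positivity)] at h
  have e3 : (1 / (k + 1)) ^ 3 / (3 * (1 - (1 / (k + 1)) ^ 2)) =
      1 / (3 * k * (k + 1) * (k + 2)) := by
    have : 1 - (1 / (k + 1)) ^ 2 = k * (k + 2) / (k + 1) ^ 2 := by field_simp; ring
    rw [this]; field_simp
  rw [e3] at h
  have e4 : c / k ^ 2 ≤ c / (k - 1 / 2) - c / (k + 1 - 1 / 2) := by
    have hh : 0 < k ^ 2 - 1 / 4 := by nlinarith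
    have : c / (k - 1 / 2) - c / (k + 1 - 1 / 2) = c / (k ^ 2 - 1 / 4) := by
      rw [div_sub_div _ _ (by linarith) (by linarith)]
      congr 1 <;> ring
    rw [this]
    exact div_le_div_of_nonneg_left hc hh (by linarith)
  have e5 : 1 / k - 1 / (6 * k * (k + 1)) - (1 / (k + 1) - 1 / (6 * (k + 1) * (k + 1 + 1))) =
      1 / k - 1 / (k + 1) - 1 / (3 * k * (k + 1) * (k + 2)) := by
    field_simp; ring
  simp only [liftTerm, liftPot]
  linarith

/-- The gain of the lift in dimension `n`. -/
noncomputable def delta (n : ℕ) (c : ℝ) : ℝ :=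
  1 / ((n:ℝ) + 1) - c / ((n:ℝ) + 1 / 2) - 1 / (6 * ((n:ℝ) + 1) * ((n:ℝ) + 2))

/-- The requirement for log-concave profiles, lifted to dimension `n`. -/
theorem coordBound_lift {c e : ℝ} (hS : SectionFacts) (hR : Requirement c e) (hc : 0 ≤ c) {n : ℕ}
    (_hn : 0 < n) : CoordBound n c (e + delta n c) := by
  have hall : ∀ m, CoordBound m c e := fun m {A} => coordBound_of_requirement hS hR m (A := A)
  intro A hA hV i
  refine le_of_forall_pos_le_add fun ε hε => ?_
  obtain ⟨M, hM⟩ := exists_nat_gt (1 / ε)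
  have hb := coordBound_iterate hall M n hA hV i
  have hsum : liftPot ((n:ℝ) + 1) c - liftPot ((n:ℝ) + 1 + M) c ≤
      ∑ j ∈ Finset.range M, liftTerm ((n:ℝ) + 1 + j) c := by
    have ht : ∑ j ∈ Finset.range M,
        (liftPot ((n:ℝ) + 1 + j) c - liftPot ((n:ℝ) + 1 + (j + 1 : ℕ)) c) =
        liftPot ((n:ℝ) + 1 + (0 : ℕ)) c - liftPot ((n:ℝ) + 1 + M) c :=
      Finset.sum_range_sub' (fun j : ℕ => liftPot ((n:ℝ) + 1 + j) c) M
    rw [Nat.cast_zero, add_zero] at ht
    rw [← ht]
    refine Finset.sum_le_sum fun j _ => ?_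
    rw [Nat.cast_add, Nat.cast_one, ← add_assoc]
    exact liftTerm_ge (by linarith [(n.cast_nonneg : (0:ℝ) ≤ n), (j.cast_nonneg : (0:ℝ) ≤ j)]) hc
  set K : ℝ := (n:ℝ) + 1 + M with hK
  have hK1 : 1 ≤ K := by linarith [(n.cast_nonneg : (0:ℝ) ≤ n), (M.cast_nonneg : (0:ℝ) ≤ M)]
  have hKe : liftPot K c ≤ ε := by
    have h1 : 1 / K ≤ ε := by
      have : 1 / ε ≤ K := by linarith [(n.cast_nonneg : (0:ℝ) ≤ n)]
      calc 1 / K ≤ 1 / (1 / ε) := one_div_le_one_div_of_le (by positivity) this
        _ = ε := one_div_one_div ε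
    have h2 : 0 ≤ c / (K - 1 / 2) := div_nonneg hc (by linarith)
    have h3 : 0 ≤ 1 / (6 * K * (K + 1)) := by positivity
    simp only [liftPot]
    linarith
  have hd : liftPot ((n:ℝ) + 1) c = delta n c := by
    rw [liftPot, delta, show (n:ℝ) + 1 - 1 / 2 = n + 1 / 2 by ring,
      show (n:ℝ) + 1 + 1 = n + 2 by ring]
  linarith

end Vale.Agent.P254.Uncond
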