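import Vale.Agent.P254.Uncond.Req2140.PartA
import Vale.Agent.P254.Uncond.Req2140.PartB
import Vale.Agent.P254.Uncond.Req2140.PartC
import Vale.Agent.P254.Uncond.Req2140.PartD
import Vale.Agent.P254.Uncond.Req2140.PartE
import Vale.Agent.P254.Uncond.Req2140.PartF
import Vale.Agent.P254.Uncond.Req2140.PartG
import Vale.Agent.P254.Uncond.Req2140.PartH
import Vale.Agent.P254.Uncond.Req2140.PartI
import Vale.Agent.P254.Uncond.Req2140.PartJ
import Vale.Agent.P254.Uncond.Req2140.PartK

/-!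
The requirement at `c = 21/40`, `e = 774/10000`, from its certificate.
-/

namespace Vale.Agent.P254.Uncond.Req2140

open Check

lemma allOk_cons {a : Dy} {ea : ExpB} {c : RCell} {r : List RCell}
    (h : RCell.ok cert.P cert.e₁ a ea c = true) (hr : cert.allOk c.b c.eb r = true) :
    cert.allOk a ea (c :: r) = true := by
  rw [ReqCert.allOk, h, hr]
  rfl

set_option maxHeartbeats 4000000 in
lemma tail_ok : cert.allOk cell54.b cell54.eb [] = true := by
  decide +kernel

lemma cells_ok : cert.allOk cert.first.b cert.first.eb cert.cells = true :=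
  (allOk_cons (partC_ok.1)
    (allOk_cons (partC_ok.2.1)
    (allOk_cons (partB_ok.1)
    (allOk_cons (partF_ok.1)
    (allOk_cons (partE_ok.1)
    (allOk_cons (partF_ok.2.1)
    (allOk_cons (partB_ok.2.1)
    (allOk_cons (partA_ok.1)
    (allOk_cons (partH_ok.1)
    (allOk_cons (partE_ok.2.1)
    (allOk_cons (partC_ok.2.2.1)
    (allOk_cons (partG_ok.1)
    (allOk_cons (partD_ok.1)
    (allOk_cons (partK_ok.1)
    (allOk_cons (partJ_ok.1)
    (allOk_cons (partI_ok.1)
    (allOk_cons (partD_ok.2.1)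
    (allOk_cons (partH_ok.2.1)
    (allOk_cons (partD_ok.2.2.1)
    (allOk_cons (partK_ok.2.1)
    (allOk_cons (partJ_ok.2.1)
    (allOk_cons (partD_ok.2.2.2.1)
    (allOk_cons (partI_ok.2.1)
    (allOk_cons (partI_ok.2.2.1)
    (allOk_cons (partJ_ok.2.2.1)
    (allOk_cons (partI_ok.2.2.2.1)
    (allOk_cons (partE_ok.2.2.1)
    (allOk_cons (partK_ok.2.2.1)
    (allOk_cons (partJ_ok.2.2.2.1)
    (allOk_cons (partB_ok.2.2.1)
    (allOk_cons (partI_ok.2.2.2.2)
    (allOk_cons (partA_ok.2.1)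
    (allOk_cons (partH_ok.2.2.1)
    (allOk_cons (partF_ok.2.2.1)
    (allOk_cons (partG_ok.2.1)
    (allOk_cons (partK_ok.2.2.2.1)
    (allOk_cons (partA_ok.2.2.1)
    (allOk_cons (partE_ok.2.2.2.1)
    (allOk_cons (partK_ok.2.2.2.2)
    (allOk_cons (partF_ok.2.2.2.1)
    (allOk_cons (partG_ok.2.2.1)
    (allOk_cons (partA_ok.2.2.2.1)
    (allOk_cons (partG_ok.2.2.2.1)
    (allOk_cons (partJ_ok.2.2.2.2)
    (allOk_cons (partE_ok.2.2.2.2)
    (allOk_cons (partD_ok.2.2.2.2)
    (allOk_cons (partC_ok.2.2.2.1)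
    (allOk_cons (partB_ok.2.2.2.1)
    (allOk_cons (partH_ok.2.2.2.1)
    (allOk_cons (partF_ok.2.2.2.2)
    (allOk_cons (partA_ok.2.2.2.2)
    (allOk_cons (partB_ok.2.2.2.2)
    (allOk_cons (partG_ok.2.2.2.2)
    (allOk_cons (partH_ok.2.2.2.2)
    (allOk_cons (partC_ok.2.2.2.2) tail_ok)))))))))))))))))))))))))))))))))))))))))))))))))))))))

set_option maxHeartbeats 4000000 in
theorem cert_ok : cert.ok = true := by
  simp only [ReqCert.ok, Bool.and_eq_true]
  refine ⟨⟨?_, cells_ok⟩, ?_⟩ <;> decide +kernel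

theorem requirement : Requirement (21 / 40) (774 / 10000) :=
  ReqCert.sound cert_ok (by norm_num [cert, spl]) (by norm_num [cert, spl])

end Vale.Agent.P254.Uncond.Req2140
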