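import Vale.Agent.P254.Uncond.ReqSound
import Vale.Agent.P254.Uncond.RootCert

/-!
The requirement from a certificate on profiles with `rate ≤ k / (k + 1)`: the hazard satisfies
`(k + 1) (exp (u / (k + 1)) - 1) ≤ v`, which narrows the ranges of `z` and of `log (t / t₁)`.
-/

open MeasureTheory Set Filter Topology Real

namespace Vale.Agent.P254.Uncond.Req

variable {g : ℝ → ℝ} {R N : ℝ}

lemma rootExp_le_vrat (hg : Prof g R) (hN : 0 < N)
    (hr : ∀ t ∈ Ioo 0 R, rate g t ≤ 1 - 1 / N) {t : ℝ} (ht : t ∈ Ioo 0 R) :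
    N * (exp (haz g t / N) - 1) ≤ vrat g t := by
  set W : ℝ → ℝ := fun s => exp (-(haz g s / N)) * (vrat g s + N) - N with hW
  have key : ∀ a ∈ Ioo 0 t, W a ≤ W t := by
    intro a ha
    have hsub : Icc a t ⊆ Ioo 0 R := Icc_subset_Ioo ha.1 ht.2
    have hu := hg.haz_continuousOn.mono (hsub.trans Ioo_subset_Ico_self)
    have h := intervalIntegral.integral_le_sub_of_hasDeriv_right_of_le (g := W)
      (g' := fun s => exp (-(haz g s / N)) * (-(g s / tail g s / N)) * (vrat g s + N)
        + exp (-(haz g s / N)) * (g s / tail g s * (1 + (1 - rate g s) * vrat g s)))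
      (φ := fun _ => (0:ℝ)) ha.2.le
      ((((hu.div_const N).neg.rexp).mul ((hg.vrat_continuousOn.mono hsub).add
        continuousOn_const)).sub continuousOn_const) (fun s hs => ?_) integrableOn_zero
      fun s hs => ?_
    · simp only [intervalIntegral.integral_zero] at h
      linarith
    · have hs' := hsub (Ioo_subset_Icc_self hs)
      exact ((((hg.haz_hasDerivAt hs').hasDerivWithinAt.div_const N).fun_neg.exp).fun_mul
        ((hg.vrat_hasDerivRight hs').add_const N)).sub_const N
    · have hs' := hsub (Ioo_subset_Icc_self hs)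
      have e : exp (-(haz g s / N)) * (-(g s / tail g s / N)) * (vrat g s + N)
          + exp (-(haz g s / N)) * (g s / tail g s * (1 + (1 - rate g s) * vrat g s))
          = exp (-(haz g s / N)) * (g s / tail g s) * vrat g s * (1 - 1 / N - rate g s) := by
        field_simp
        ring
      rw [e]
      exact mul_nonneg (mul_nonneg (mul_nonneg (exp_pos _).le
        (div_nonneg (hg.g_pos hs').le (hg.tail_pos' hs').le)) (hg.vrat_pos hs').le)
        (sub_nonneg.2 (hr s hs'))
  have hlow : ∀ a ∈ Ioo 0 t, exp (-(haz g a / N)) * N - N ≤ W t := fun a ha =>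
    le_trans (sub_le_sub_right (mul_le_mul_of_nonneg_left
      (le_add_of_nonneg_left (hg.vrat_pos ⟨ha.1, ha.2.trans ht.2⟩).le) (exp_pos _).le) _)
      (key a ha)
  have hlim : Tendsto (fun a => exp (-(haz g a / N)) * N - N) (𝓝[>] (0:ℝ)) (𝓝 0) := by
    simpa [Function.comp_def] using
      (((continuous_exp.tendsto _).comp (hg.tendsto_haz_zero.div_const N).neg).mul_const N).sub_const N
  have h := le_of_tendsto hlim (eventually_of_mem (Ioo_mem_nhdsGT ht.1) hlow)
  have e : vrat g t - N * (exp (haz g t / N) - 1) = exp (haz g t / N) * W t := by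
    have hee : exp (haz g t / N) * exp (-(haz g t / N)) = 1 := by
      rw [← exp_add, add_neg_cancel, exp_zero]
    simp only [hW]
    linear_combination -(vrat g t + N) * hee
  linarith [mul_nonneg (exp_pos (haz g t / N)).le h]

lemma rootExp_monotone (hg : Prof g R) (hN : 0 < N)
    (hr : ∀ t ∈ Ioo 0 R, rate g t ≤ 1 - 1 / N) :
    MonotoneOn (fun s => log (1 - exp (-(haz g s / N))) - log s) (Ioo 0 R) := by
  have hq : ∀ s ∈ Ioo 0 R, 0 < 1 - exp (-(haz g s / N)) := fun s hs => by
    linarith [exp_lt_one_iff.2 (neg_neg_of_pos (div_pos (hg.haz_pos hs) hN))]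
  have hd : ∀ s ∈ Ioo 0 R, HasDerivAt (fun s => log (1 - exp (-(haz g s / N))) - log s)
      (exp (-(haz g s / N)) * (g s / tail g s / N) / (1 - exp (-(haz g s / N))) - 1 / s) s :=
    fun s hs => ((((hg.haz_hasDerivAt hs).div_const N).fun_neg.exp.const_sub 1).log
      (hq s hs).ne' |>.sub (hasDerivAt_log hs.1.ne')).congr_deriv (by simp [one_div])
  refine monotoneOn_of_hasDerivWithinAt_nonneg (convex_Ioo 0 R)
    (fun s hs => (hd s hs).continuousAt.continuousWithinAt)
    (f' := fun s =>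
      exp (-(haz g s / N)) * (g s / tail g s / N) / (1 - exp (-(haz g s / N))) - 1 / s)
    (fun s hs => ?_) fun s hs => ?_
  all_goals rw [interior_Ioo] at hs
  · exact (hd s hs).hasDerivWithinAt
  · rw [sub_nonneg, div_le_div_iff₀ hs.1 (hq s hs), one_mul]
    have h1 := mul_le_mul_of_nonneg_left (rootExp_le_vrat hg hN hr hs)
      (exp_pos (-(haz g s / N))).le
    have e : exp (-(haz g s / N)) * (N * (exp (haz g s / N) - 1))
        = N * (1 - exp (-(haz g s / N))) := by
      rw [mul_left_comm, mul_sub, ← exp_add, neg_add_cancel, exp_zero, mul_one]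
    rw [e, vrat] at h1
    refine le_of_mul_le_mul_left (h1.trans_eq ?_) hN
    field_simp

/-- The range of `log (t / t₁)` on such profiles. -/
lemma log_range_root (hg : Prof g R) (hN : 0 < N)
    (hr : ∀ t ∈ Ioo 0 R, rate g t ≤ 1 - 1 / N) {t₁ t : ℝ} (h₁ : t₁ ∈ Ioo 0 R)
    (ht : t ∈ Ioo 0 R) :
    (min (log ((1 - exp (-(haz g t / N))) / (1 - exp (-(haz g t₁ / N)))))
        (log ((1 - exp (-haz g t)) / (1 - exp (-haz g t₁)))) ≤ log t - log t₁) ∧
      log t - log t₁ ≤ max (log ((1 - exp (-(haz g t / N))) / (1 - exp (-(haz g t₁ / N)))))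
        (log ((1 - exp (-haz g t)) / (1 - exp (-haz g t₁)))) := by
  have hq : ∀ s ∈ Ioo 0 R, 0 < 1 - exp (-(haz g s / N)) := fun s hs => by
    linarith [exp_lt_one_iff.2 (neg_neg_of_pos (div_pos (hg.haz_pos hs) hN))]
  have hp : ∀ s ∈ Ioo 0 R, 0 < 1 - exp (-haz g s) := fun s hs => by
    linarith [exp_lt_one_iff.2 (neg_neg_of_pos (hg.haz_pos hs))]
  rw [log_div (hq t ht).ne' (hq t₁ h₁).ne', log_div (hp t ht).ne' (hp t₁ h₁).ne']
  rcases le_total t t₁ with hle | hle
  · have a := rootExp_monotone hg hN hr ht h₁ hle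
    have b := log_sub_monotone hg ht h₁ hle
    simp only at a b
    exact ⟨min_le_of_left_le (by linarith), le_max_of_le_right (by linarith)⟩
  · have a := rootExp_monotone hg hN hr h₁ ht hle
    have b := log_sub_monotone hg h₁ ht hle
    simp only at a b
    exact ⟨min_le_of_right_le (by linarith), le_max_of_le_left (by linarith)⟩

end Vale.Agent.P254.Uncond.Req

namespace Vale.Agent.P254.Uncond

/-- A certificate for the requirement is sound on profiles with `rate ≤ k / (k + 1)`. -/
theorem reqSoundUpTo : ReqSoundUpTo := by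
  intro D k c e hc hD hV he g R hg hr
  have hN : (0:ℝ) < (k:ℝ) + 1 := by positivity
  have hr' : ∀ t ∈ Ioo 0 R, rate g t ≤ 1 - 1 / ((k:ℝ) + 1) := fun t ht =>
    (hr t ht).trans_eq (by field_simp; ring)
  refine Req.requirement_of_cert hc hD (fun t₁ h₁ hu₁ t ht => ?_) he hg
  obtain ⟨y0, y1⟩ := Req.log_range_root hg hN hr' h₁ ht
  rw [hu₁] at y0 y1
  obtain ⟨z0, z1, z2⟩ := hg.zrat_mem ht
  refine hV _ _ _ _ (hg.haz_pos ht) z0.le z1 z2 ?_ (hg.rate_nonneg ht) (hr t ht) y0 y1
  calc Req.zr g t * (((k:ℝ) + 1) * (Real.exp (haz g t / ((k:ℝ) + 1)) - 1))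
      ≤ Req.zr g t * vrat g t :=
        mul_le_mul_of_nonneg_left (Req.rootExp_le_vrat hg hN hr' ht) z0.le
    _ = haz g t := div_mul_cancel₀ _ (hg.vrat_pos ht).ne'

end Vale.Agent.P254.Uncond
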