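import Vale.Agent.P254.Uncond.RootCert
import Vale.Agent.P254.Uncond.ProfileBasic
import Vale.Agent.P254.Full.Root

/-!
Sections of downsets in dimension `n + 1` have `r ≤ n / (n + 1)`.
-/

open MeasureTheory Set Filter Topology

namespace Vale.Agent.P254.Uncond

open Vale.Agent.P254.Sym

variable {n : ℕ}

lemma pow_exp_root {g : ℝ → ℝ} (hn : n ≠ 0) {t : ℝ} (ht : 0 < g t) :
    Real.exp (Real.log (g t) / n) ^ n = g t := by
  rw [← Real.exp_nat_mul, mul_div_cancel₀ _ (Nat.cast_ne_zero.2 hn), Real.exp_log ht]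

/-- The `n`-th root of a section is concave on its support. -/
lemma sect_root_concave {A : Set (Fin (n + 1) → ℝ)} (hA : Down A) (hn : n ≠ 0)
    (i : Fin (n + 1)) {R : ℝ} (hg : Prof (sectAt A i) R) :
    ConcaveOn ℝ (Ico 0 R) fun s => Real.exp (Real.log (sectAt A i s) / n) := by
  refine concaveOn_iff_forall_pos.2 ⟨convex_Ico _ _, fun x hx y hy a b ha hb hab => ?_⟩
  have hm : a * x + b * y ∈ Ico 0 R := (convex_Ico 0 R) hx hy ha.le hb.le hab
  have e1 := pow_exp_root (g := sectAt A i) hn (hg.pos x hx.1 hx.2)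
  have e2 := pow_exp_root (g := sectAt A i) hn (hg.pos y hy.1 hy.2)
  have e3 := pow_exp_root (g := sectAt A i) hn (hg.pos _ hm.1 hm.2)
  have h := Full.root_concave (front_down hA i) (s := x) (t := y) (l := b)
    (Real.exp_pos (Real.log (sectAt A i x) / n)) (Real.exp_pos (Real.log (sectAt A i y) / n))
    (by rw [e1]; simp [sect, sectAt, slice_front])
    (by rw [e2]; simp [sect, sectAt, slice_front]) hb (by linarith)
  rw [show 1 - b = a by linarith, sect, slice_front, ← sectAt, ← e3] at h
  simp only [smul_eq_mul]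
  exact (pow_le_pow_iff_left₀ (by positivity) (Real.exp_pos _).le hn).1 h

theorem rootSect : RootSect := by
  intro n A hA _ i R hg t ht
  rw [rate, div_le_iff₀ (hg.g_pos ht)]
  set g := sectAt A i
  set a := slope g t
  rcases eq_or_ne n 0 with rfl | hn
  · -- the slices are single points
    have hcst : ∀ s ∈ Ico 0 R, g s = volume.real (univ : Set (Fin 0 → ℝ)) := fun s hs => by
      obtain ⟨z, hz⟩ := nonempty_of_measure_ne_zero
        (measureReal_ne_zero_iff (slAt_down hA i s).finite |>.1 (hg.pos s hs.1 hs.2).ne')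
      show volume.real (slAt A i s) = _
      have hu : slAt A i s = univ := eq_univ_of_forall fun w => Subsingleton.elim z w ▸ hz
      rw [hu]
    have h0 : HasDerivWithinAt (fun s => -Real.log (g s)) 0 (Ioi t) t := by
      refine (hasDerivWithinAt_const t (Ioi t) (-Real.log (g t))).congr_of_eventuallyEq ?_ rfl
      filter_upwards [Ioo_mem_nhdsGT ht.2] with s hs
      rw [hcst s ⟨ht.1.le.trans hs.1.le, hs.2⟩, hcst t ⟨ht.1.le, ht.2⟩]
    have ha : a = 0 := h0.derivWithin (uniqueDiffWithinAt_Ioi t)
    simp [ha]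
  · have hn' : (0:ℝ) < n := by positivity
    set h := fun s => Real.exp (Real.log (g s) / n)
    set b := a / n with hb
    have hb0 : 0 ≤ b := div_nonneg (hg.slope_nonneg ht) hn'.le
    have hder : HasDerivWithinAt h (-(b * h t)) (Ioi t) t := by
      have h1 := ((hg.slope_hasDeriv ht).div_const (n:ℝ)).neg.exp
      simp only [Pi.neg_apply, neg_div, neg_neg] at h1
      exact h1.congr_deriv (by simp only [h, hb, a]; ring)
    have hle : ∀ s ∈ Ioo t R, h s ≤ h t * (1 - b * (s - t)) := fun s hs => by
      have h2 := (sect_root_concave hA hn i hg).slope_le_of_hasDerivWithinAt_Ioi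
        ⟨ht.1.le, ht.2⟩ ⟨ht.1.le.trans hs.1.le, hs.2⟩ hs.1 hder
      rw [slope_def_field, div_le_iff₀ (sub_pos.2 hs.1)] at h2
      change h s - h t ≤ _ at h2
      linarith
    have hfac : ∀ s ∈ Ioo t R, 0 < 1 - b * (s - t) := fun s hs =>
      (mul_pos_iff_of_pos_left (Real.exp_pos _)).1 ((Real.exp_pos _).trans_le (hle s hs))
    have hbR : b * (R - t) ≤ 1 := by
      by_contra hlt
      have hb' : 0 < b := hb0.lt_of_ne fun he => by simp [← he] at hlt
      have := hfac (t + 1 / b) ⟨by linarith [show 0 < 1 / b by positivity], by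
        have : 1 / b < R - t := by rw [div_lt_iff₀ hb']; linarith
        linarith⟩
      simp [hb'.ne'] at this
    have hgle : ∀ s ∈ Ioo t R, g s ≤ g t * (1 - b * (s - t)) ^ n := fun s hs => by
      rw [← pow_exp_root (g := g) hn (hg.g_pos ht),
        ← pow_exp_root (g := g) hn (hg.pos s (ht.1.le.trans hs.1.le) hs.2), ← mul_pow]
      exact pow_le_pow_left₀ (Real.exp_pos _).le (hle s hs) n
    have h3 := intervalIntegral.integral_le_sub_of_hasDeriv_right_of_le
      (g := fun s => -(g t * (1 - b * (s - t)) ^ (n + 1) / (n + 1)))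
      (g' := fun s => b * (g t * (1 - b * (s - t)) ^ n)) (φ := fun s => b * g s) ht.2.le
      (by fun_prop) (fun s _ => ?_) ?_ fun s hs => mul_le_mul_of_nonneg_left (hgle s hs) hb0
    · rw [intervalIntegral.integral_const_mul, ← hg.tail_eq ht.1.le ht.2.le] at h3
      simp only [sub_self, mul_zero, sub_zero, one_pow, mul_one] at h3
      have h4 : 0 ≤ g t * (1 - b * (R - t)) ^ (n + 1) / (n + 1) :=
        div_nonneg (mul_nonneg (hg.g_pos ht).le (pow_nonneg (by linarith) _)) (by positivity)
      have h5 : b * tail g t ≤ g t / (n + 1) := by linarith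
      have h6 := mul_le_mul_of_nonneg_left h5 hn'.le
      rw [← mul_assoc, hb, mul_div_cancel₀ _ hn'.ne'] at h6
      exact h6.trans_eq (by ring)
    · refine HasDerivAt.hasDerivWithinAt ?_
      have h1 := ((((((hasDerivAt_id s).sub_const t).const_mul b).const_sub 1).fun_pow (n + 1)).const_mul
        (g t)).div_const ((n:ℝ) + 1) |>.fun_neg
      refine h1.congr_deriv ?_
      simp only [id_eq, add_tsub_cancel_right]
      push_cast
      field_simp
    · exact ((intervalIntegrable_iff_integrableOn_Icc_of_le ht.2.le).1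
        (hg.intervalInt ht.1.le hg.R_pos.le)).const_mul _

end Vale.Agent.P254.Uncond
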