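import Vale.Agent.P254.Uncond.ChainA
import Vale.Agent.P254.Uncond.ChainB
import Vale.Agent.P254.Uncond.ChainC
import Vale.Agent.P254.Uncond.ChainD
import Vale.Agent.P254.Uncond.Lift
import Vale.Agent.P254.Uncond.AllDims

/-!
The margins against the simplex at the weight `21/40`: the chains up to dimension `31`, a uniform
potential beyond.
-/

namespace Vale.Agent.P254.Uncond

/-- In dimensions `4` to `31` the chains beat the thresholds of the simplex. -/
theorem h4_small (K : Knots) (n : ℕ) (h4 : 4 ≤ n) (h31 : n ≤ 31) :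
    ∃ d, Potential n (21 / 40) d ∧ simplexTau n ≤ 774 / 10000 + delta n (21 / 40) - d := by
  interval_cases n
  · exact ⟨_, chain4 K, by norm_num [simplexTau, delta]⟩
  · exact ⟨_, chain5 K, by norm_num [simplexTau, delta]⟩
  · exact ⟨_, chain6 K, by norm_num [simplexTau, delta]⟩
  · exact ⟨_, chain7 K, by norm_num [simplexTau, delta]⟩
  · exact ⟨_, chain8 K, by norm_num [simplexTau, delta]⟩
  · exact ⟨_, chain9 K, by norm_num [simplexTau, delta]⟩
  · exact ⟨_, chain10 K, by norm_num [simplexTau, delta]⟩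
  · exact ⟨_, chain11 K, by norm_num [simplexTau, delta]⟩
  · exact ⟨_, chain12 K, by norm_num [simplexTau, delta]⟩
  · exact ⟨_, chain13 K, by norm_num [simplexTau, delta]⟩
  · exact ⟨_, chain14 K, by norm_num [simplexTau, delta]⟩
  · exact ⟨_, chain15 K, by norm_num [simplexTau, delta]⟩
  · exact ⟨_, chain16 K, by norm_num [simplexTau, delta]⟩
  · exact ⟨_, chain17 K, by norm_num [simplexTau, delta]⟩
  · exact ⟨_, chain18 K, by norm_num [simplexTau, delta]⟩
  · exact ⟨_, chain19 K, by norm_num [simplexTau, delta]⟩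
  · exact ⟨_, chain20 K, by norm_num [simplexTau, delta]⟩
  · exact ⟨_, chain21 K, by norm_num [simplexTau, delta]⟩
  · exact ⟨_, chain22 K, by norm_num [simplexTau, delta]⟩
  · exact ⟨_, chain23 K, by norm_num [simplexTau, delta]⟩
  · exact ⟨_, chain24 K, by norm_num [simplexTau, delta]⟩
  · exact ⟨_, chain25 K, by norm_num [simplexTau, delta]⟩
  · exact ⟨_, chain26 K, by norm_num [simplexTau, delta]⟩
  · exact ⟨_, chain27 K, by norm_num [simplexTau, delta]⟩
  · exact ⟨_, chain28 K, by norm_num [simplexTau, delta]⟩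
  · exact ⟨_, chain29 K, by norm_num [simplexTau, delta]⟩
  · exact ⟨_, chain30 K, by norm_num [simplexTau, delta]⟩
  · exact ⟨_, chain31 K, by norm_num [simplexTau, delta]⟩

/-- Beyond dimension `31` the uniform potential beats the thresholds. -/
theorem tail_tau {n : ℕ} (h32 : 32 ≤ n) :
    simplexTau n ≤ 774 / 10000 + delta n (21 / 40) - 738632 / 10000000 := by
  obtain ⟨m, rfl⟩ : ∃ m, n = m + 32 := ⟨n - 32, by omega⟩
  rw [simplexTau_eq (by omega), delta]
  push_cast
  have hm : (0:ℝ) ≤ m := m.cast_nonneg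
  rw [← sub_nonneg]
  field_simp
  ring_nf
  positivity

end Vale.Agent.P254.Uncond
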